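import Vale.Agent.P092.H589.P2d
import Vale.Agent.P092.H437.CLCnt0
import Vale.Agent.P092.H315P.G5

/-!
P092, STAGE 2, count half of KEY_0 (helper589), part e: **`Cnt0` (literal of helper437,
`H437/CLKey0.lean`) for every form** (`σ` isometric, any `ε`, any kernel), ultrametric fields.

* `nabr_lt`: the bridge `H437.P2.NABr` for the letters `CL.lt`;
* `cnt0_of_nabr`: `H437.P2.Cnt0 L q K` from `NABr e L` and `L.UD q`;
* `cnt0_lt`: `H437.P2.Cnt0 (CL.lt ..) q K` from uniform discreteness.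
-/

set_option linter.all false

namespace Vale.Agent.P092.H589.P2

open Matrix Set MeasureTheory
open scoped LinearAlgebra.Projectivization
open Vale.Agent.P092.SN (CY CG nm Att UD)
open Vale.Agent.P092.RC (GG YY)
open Vale.Agent.P092.H303 (FormGroup Idx hyp)
open Vale.Agent.P092.H714.Cl (hf Frm)
open Vale.Agent.P092.H370.Po
open Vale.Agent.P092.H100.Gr (Gr Fr)
open Vale.Agent.P092.H416.CL (cor roc cor_roc roc_cor Je rho rho_cor hf_cor hf_rho pt pt_eq pt_smul
  exists_vec mem_of_span cor_ne roc_ne cor_smul pt_cont pt_inj col_pt)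
open Vale.Agent.P092.H644.Gr3 (p1)
open Vale.Agent.P092.H232 (Nin)
open Vale.Agent.P092.H796 (PL)
open Vale.Agent.P092.H789.S2
open Vale.Agent.P092.CL (Lt nmM ta AttS)
open Vale.Agent.P092.H437.P2 (NABr Cnt0 pb pb_apply ts_comp ext_lc im im_cont im_inj im_smul inc_pt
  mem_im' rep_mem)

section br

variable {n : Type} [Fintype n] [DecidableEq n] {k : Type} [NontriviallyNormedField k]
  [ProperSpace k] {σ : k →+* k} {J : Matrix n n k} {N r : ℕ}

theorem rho_apply (e : n ≃ Fin (N + 1)) (g : FormGroup σ J) (i j : Fin (N + 1)) :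
    (rho e σ J g).1 i j = ta g.1 (e.symm i) (e.symm j) := rfl

theorem nm_rho (e : n ≃ Fin (N + 1)) (g : FormGroup σ J) : nmM (ta g.1) = nm (rho e σ J g) := by
  refine le_antisymm ?_ ?_
  · refine H315P.G.nmM_le (norm_nonneg _) fun a b => ?_
    have := le_nm (rho e σ J g) (e a) (e b)
    rwa [rho_apply, e.symm_apply_apply, e.symm_apply_apply] at this
  · exact nm_le (H315P.G.nmM_nonneg _) fun i j =>
      H315P.G.le_nmM (ta g.1) (e.symm i) (e.symm j)

theorem att_rho (e : n ≃ Fin (N + 1)) {T : ℝ} {B : Set (SGr σ J 1)} {g : FormGroup σ J}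
    (h : AttS T B (ta g.1)) : Att T (pt e '' B) (rho e σ J g) := by
  obtain ⟨X, hX, D, hD, h1⟩ := h
  obtain ⟨x, hx0, hx⟩ := exists_vec X
  have h2 : ∀ j, ∃ c : k, c • x = D *ᵥ Pi.single j 1 := fun j => by
    have := hD (Pi.single j 1)
    rw [hx] at this
    exact Submodule.mem_span_singleton.1 this
  choose φ hφ using h2
  refine ⟨cor e x, fun j => φ (e.symm j), cor_ne hx0, ?_, fun i j => ?_⟩
  · exact ⟨X, hX, pt_eq e hx0 (mem_of_span hx)⟩
  · rw [← nm_rho, rho_apply]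
    have h3 : D (e.symm i) (e.symm j) = cor e x i * φ (e.symm j) := by
      have h4 := congrFun (hφ (e.symm j)) (e.symm i)
      rw [Matrix.mulVec_single_one] at h4
      change φ (e.symm j) * x (e.symm i) = D (e.symm i) (e.symm j) at h4
      rw [← h4, mul_comm]
      rfl
    rw [← h3]
    exact h1 _ _

end br

section main

variable {n : Type} [Fintype n] [DecidableEq n] {k : Type} [NontriviallyNormedField k]
  [ProperSpace k] [IsUltrametricDist k] {σ : k →+* k} {ε : k} {J : Matrix n n k} {N r : ℕ}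
  {Γ K : Type} [NormedAddCommGroup K] [InnerProductSpace ℂ K] [CompleteSpace K]

theorem ud_rho {e : n ≃ Fin (N + 1)} {V₁ V₂ : Type} [MeasurableSpace V₁] [MeasurableSpace V₂]
    {L : Lt (FormGroup σ J) (SGr σ J 1) (SGr σ J r) V₁ V₂} (hL : NABr e L)
    {q : Γ → FormGroup σ J} (h : L.UD q) : UD (fun γ => rho e σ J (q γ)) Set.univ := by
  intro C
  obtain ⟨M, hM⟩ := h C
  refine ⟨M, fun S _ hS => hM S fun γ hγ γ' hγ' => ?_⟩
  rw [hL.nm, map_mul, map_inv]
  exact hS γ hγ γ' hγ'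

/-- **`Cnt0` from the bridge**, every record over `FormGroup σ J`, every nondegenerate `ε`-hermitian
form. -/
theorem cnt0_of_nabr [Fact (Continuous σ)] (herm : ∀ x y, hf σ J y x = ε * σ (hf σ J x y))
    (heps : ε * ε = 1) (nondeg : ∀ x, x ≠ 0 → ∃ y, hf σ J x y ≠ 0) (hσ : ∀ x, ‖σ x‖ = ‖x‖)
    (e : n ≃ Fin (N + 1)) {V₁ V₂ : Type} [MeasurableSpace V₁]
    [MeasurableSpace V₂] {L : Lt (FormGroup σ J) (SGr σ J 1) (SGr σ J r) V₁ V₂} (hL : NABr e L)
    {q : Γ → FormGroup σ J} (hud : L.UD q) : Cnt0 L q K := by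
  classical
  intro b z l ν hbν hzν hzl hbl a f ha hfl A hA hopp R
  obtain ⟨P1, hP1⟩ : ∃ P1 : C(SGr σ J 1, RC.YY k N), ∀ x, P1 x = pt e x :=
    ⟨⟨pt e, pt_cont e⟩, fun _ => rfl⟩
  obtain ⟨P2, hP2⟩ : ∃ P2 : C(SGr σ J 2, Gr k (Fin (N + 1)) 2), ∀ x, P2 x = im e x :=
    ⟨⟨im e, im_cont e⟩, fun _ => rfl⟩
  have hP1i : Function.Injective P1 := fun x y hxy => pt_inj e (by rw [← hP1, ← hP1, hxy])
  have hP2i : Function.Injective P2 := fun x y hxy => im_inj e (by rw [← hP2, ← hP2, hxy])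
  -- relations
  have hnin : ∀ (a : SN.CY k N) (f : SN.CG k N 2),
      Nin (fun x (L : Gr k (Fin (N + 1)) 2) => (p1 x).1 ≤ L.1) a f →
      Nin (fun (x : SGr σ J 1) (y : SGr σ J 2) => Inc x y) (a.comp P1) (f.comp P2) := by
    intro a f hn x hx y hy hxy
    refine hn (P1 x) (ts_comp P1 a hx) (P2 y) (ts_comp P2 f hy) ?_
    rw [hP1, hP2]
    exact (inc_pt e x y).1 hxy
  have hsw : ∀ x y : Fin (N + 1) → k, hf σ (Je e J) x y = 0 → hf σ (Je e J) y x = 0 := by
    intro x y h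
    rw [← cor_roc e x, ← cor_roc e y, hf_cor] at h ⊢
    rw [herm, h, map_zero, mul_zero]
  have hcol : ∀ (a : SN.CY k N) (f : SN.CG k N 2),
      (∀ x ∈ tsupport ⇑a, ∀ L ∈ tsupport ⇑f, ∃ y ∈ L.1, hf σ (Je e J) y x.rep ≠ 0) →
      Nin (fun (x : SGr σ J 1) (y : SGr σ J 2) => Col x y) (a.comp P1) (f.comp P2) := by
    intro a f hn x hx y hy hxy
    obtain ⟨v, hv, h0⟩ := hn (P1 x) (ts_comp P1 a hx) (P2 y) (ts_comp P2 f hy)
    rw [hP1] at h0
    rw [hP2] at hv
    apply h0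
    have h1 := hxy _ (rep_mem e x) _ (mem_im'.1 hv)
    apply hsw
    rwa [← hf_cor e, cor_roc, cor_roc] at h1
  have hisoP : ∀ x : SGr σ J 1, hf σ (Je e J) (P1 x).rep (P1 x).rep = 0 := by
    intro x
    rw [hP1, ← cor_roc e (pt e x).rep, hf_cor]
    exact x.sing _ (rep_mem e x) _ (rep_mem e x)
  -- the form as a closed relation
  have hrel : ∀ x y : RC.YY k N, hf σ (Je e J) x.rep y.rep = 0 ↔
      Ort σ (Je e J) (p1 x).1 (p1 y).1 := by
    intro x y
    constructor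
    · intro h u hu v hv
      have hu' : u ∈ Submodule.span k {x.rep} := by
        have := H644.Gr3.p1_mk x.rep x.rep_nonzero
        rw [Projectivization.mk_rep] at this
        rwa [← this]
      have hv' : v ∈ Submodule.span k {y.rep} := by
        have := H644.Gr3.p1_mk y.rep y.rep_nonzero
        rw [Projectivization.mk_rep] at this
        rwa [← this]
      obtain ⟨c, rfl⟩ := Submodule.mem_span_singleton.1 hu'
      obtain ⟨d, rfl⟩ := Submodule.mem_span_singleton.1 hv'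
      rw [H714.Cl.hf_smul_left, H714.Cl.hf_smul_right, h, mul_zero, mul_zero]
    · intro h
      exact h _ (H644.Gr3.mem_p1.1 le_rfl) _ (H644.Gr3.mem_p1.1 le_rfl)
  have hcl : IsClosed {p : RC.YY k N × RC.YY k N | hf σ (Je e J) p.1.rep p.2.rep = 0} := by
    have h1 := (ortG_closed (J := Je e J) (Fact.out : Continuous σ) (i := 1) (j := 1)).preimage
      (f := fun p : RC.YY k N × RC.YY k N => (p1 p.1, p1 p.2))
      ((H644.Gr3.p1_cont.comp continuous_fst).prodMk (H644.Gr3.p1_cont.comp continuous_snd))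
    convert h1 using 1
    ext p
    exact hrel p.1 p.2
  have hA' : IsCompact (P1 '' A) := hA.isClosed.isCompact.image P1.continuous
  have hKa : IsCompact (P1 '' tsupport ⇑a) := (isClosed_tsupport _).isCompact.image P1.continuous
  obtain ⟨U, V, hU, hV, hKU, hAV, hUV⟩ := generalized_tube_lemma hKa hA' hcl.isOpen_compl (by
    rintro ⟨x, y⟩ ⟨⟨x', hx', rfl⟩, ⟨y', hy', rfl⟩⟩ h0
    refine hopp x' hx' y' hy' ((col_pt e x' y').2 ?_)
    have h1 : hf σ (Je e J) (P1 x').rep (P1 y').rep = 0 := h0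
    rwa [hP1, hP1] at h1)
  obtain ⟨a', ha', haU, ea⟩ := ext_lc P1.continuous hP1i ha hU hKU
  obtain ⟨f', hfl', -, ef⟩ := ext_lc P2.continuous hP2i hfl isOpen_univ (subset_univ _)
  have ea' : ∀ x, a' (P1 x) = a x := fun x => congrArg (fun g : C(SGr σ J 1, ℂ) => g x) ea
  have ef' : ∀ x, f' (P2 x) = f x := fun x => congrArg (fun g : C(SGr σ J 2, ℂ) => g x) ef
  -- the form
  have hinv : Je e J * (Je e J)⁻¹ = 1 := by
    refine Matrix.mul_nonsing_inv _ ?_
    have h1 : IsUnit J.det := isUnit_iff_ne_zero.2 fun h => by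
      obtain ⟨x, hx, hx0⟩ := Matrix.exists_vecMul_eq_zero_iff.2 h
      obtain ⟨y, hy⟩ := nondeg x hx
      refine hy ?_
      unfold hf
      rw [Matrix.dotProduct_mulVec, hx0, zero_dotProduct]
    unfold Je
    rwa [det_submatrix_equiv_self]
  obtain ⟨β, hB⟩ := exists_bd (σ := σ) hσ hinv
  have hneps : ‖ε‖ = 1 := by
    have h1 := congrArg norm heps
    rw [norm_mul, norm_one] at h1
    have h0 := norm_nonneg ε
    nlinarith
  obtain ⟨T, hT, C, d, -, h1⟩ := cnt_gen (σ := σ) (J := Je e J) hB (fun x y => by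
      change ‖hf σ (Je e J) x y‖ = ‖hf σ (Je e J) y x‖
      rw [← cor_roc e x, ← cor_roc e y, hf_cor, hf_cor, herm (roc e x) (roc e y), norm_mul,
        hneps, one_mul, hσ])
    (fun γ => rho e σ J (q γ)) (ud_rho hL hud)
    (fun γ => H315P.G.iso_of fun x y => hf_rho e (q γ) x y)
    (pb P1 b) (pb P1 z) (pb P2 l) (pb P2 ν)
    ⟨fun a f => hbν.com _ _, fun a f hn => hbν.inc _ _ (hnin a f hn)⟩
    ⟨fun a f => hzν.com _ _, fun a f hn => hzν.inc _ _ (hnin a f hn)⟩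
    ⟨fun a f => hzl.com _ _, fun a f hn => hzl.inc _ _ (hnin a f hn)⟩
    (fun a f hn => hbl _ _ (hcol a f hn))
    (fun a hn => by
      have e1 : a.comp P1 = 0 := by
        ext x
        by_contra h2
        exact hn (P1 x) (subset_tsupport _ h2) (hisoP x)
      rw [pb_apply, e1, map_zero])
    R (P1 '' A) a' ha' f' hfl' (by
      intro x hx y hy
      rw [hA'.isClosed.closure_eq] at hy
      exact hUV (mk_mem_prod (haU hx) (hAV hy)))
  refine ⟨T, hT, C, d, fun j hj F hF' ξ => ?_⟩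
  have h2 := h1 j hj F (fun γ hγ => ⟨⟨mem_univ _, fun i j i' j' => by
    have h3 := hL.nw _ _ _ _ (hF' γ hγ).1 i i' j j'
    rw [mul_comm ((rho e σ J (q γ)).1 i' j)] at h3
    exact h3, ?_⟩, ?_⟩) ξ
  · refine le_trans (le_of_eq ?_) h2
    refine Finset.sum_congr rfl fun γ _ => ?_
    have e1 : (SN.act (rho e σ J (q γ))⁻¹ a').comp P1 = CL.act (q γ)⁻¹ a := by
      ext x
      change a' (((rho e σ J (q γ))⁻¹)⁻¹ • P1 x) = a (((q γ)⁻¹)⁻¹ • x)
      rw [inv_inv, inv_inv, ← ea', hP1, hP1, pt_smul]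
    have e2 : (SN.actG (rho e σ J (q γ))⁻¹ f').comp P2 = CL.act (q γ)⁻¹ f := by
      ext x
      change f' (((rho e σ J (q γ))⁻¹)⁻¹ • P2 x) = f (((q γ)⁻¹)⁻¹ • x)
      rw [inv_inv, inv_inv, ← ef', hP2, hP2, im_smul]
    rw [pb_apply, pb_apply, e1, e2]
  · have h3 := hL.att _ _ _ _ (hF' γ hγ).1
    have e3 : P1 '' A = pt e '' A := by
      ext x
      constructor
      · rintro ⟨y, hy, rfl⟩
        exact ⟨y, hy, (hP1 y).symm⟩
      · rintro ⟨y, hy, rfl⟩
        exact ⟨y, hy, hP1 y⟩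
    rw [e3]
    exact h3
  · rw [← hL.nm]
    exact (hF' γ hγ).2

end main

section letters

variable {k : Type} [NontriviallyNormedField k] [ProperSpace k] [IsUltrametricDist k]
  [MeasurableSpace k] {ι : Type} [Fintype ι]
  [DecidableEq ι] {s N : ℕ} {σ : k →+* k} {ε : k} {J₀ : Matrix ι ι k}

/-- the bridge for the letters `CL.lt` -/
theorem nabr_lt (hF : Frm σ ε (hyp (s + 2) ε J₀)) {w : k} (hw : w ≠ 0) (hwσ : σ w = w)
    (μ₁ : Measure k) (μ₂ : Measure (CL.V2 σ ε)) (e : Idx (s + 2) ι ≃ Fin (N + 1)) :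
    NABr e (CL.lt hF hw hwσ μ₁ μ₂) where
  nm g := nm_rho e g
  nw g R T A hg i i' l l' := by
    rw [← nm_rho]
    exact hg.1 _ _ _ _
  att g R T A hg := att_rho e hg.2

/-- **[CL-CNT0], every form**: `Cnt0` for the letters `CL.lt`. -/
theorem cnt0_lt [Fact (Continuous σ)] (hF : Frm σ ε (hyp (s + 2) ε J₀))
    (hσ : ∀ x, ‖σ x‖ = ‖x‖) {w : k} (hw : w ≠ 0) (hwσ : σ w = w)
    (μ₁ : Measure k) (μ₂ : Measure (CL.V2 σ ε)) {Γ : Type}
    {q : Γ → FormGroup σ (hyp (s + 2) ε J₀)} (hud : (CL.lt hF hw hwσ μ₁ μ₂).UD q) (K : Type)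
    [NormedAddCommGroup K] [InnerProductSpace ℂ K] [CompleteSpace K] :
    Cnt0 (CL.lt hF hw hwσ μ₁ μ₂) q K := by
  classical
  obtain ⟨N, hN⟩ : ∃ N, Fintype.card (Idx (s + 2) ι) = N + 1 := by
    haveI : Nonempty (Idx (s + 2) ι) := ⟨Sum.inl (Sum.inl 0)⟩
    exact ⟨Fintype.card (Idx (s + 2) ι) - 1, (Nat.succ_pred_eq_of_pos Fintype.card_pos).symm⟩
  exact cnt0_of_nabr hF.herm hF.eps hF.nondeg hσ (Fintype.equivFinOfCardEq hN) (nabr_lt hF hw hwσ μ₁ μ₂ _) hud

end letters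

end Vale.Agent.P092.H589.P2
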