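import Vale.Agent.P092.H589.K2x

/-!
P092, TEAM N, block [N-K2] (helper589), part y: the zoomed step, geometry.
-/

set_option linter.unusedSectionVars false

namespace Vale.Agent.P092.H589.K2

open Finset Matrix Vale.Agent.P092.H589.Mu
open Vale.Agent.P092.H464 (Pv CI)
open Vale.Agent.P092.H820 (wd)
open Vale.Agent.P092.H87.N (cn)
open Vale.Agent.P092.H835.PlF (w3 Alt sq sq_wd alt_wd alt_sq)
open Vale.Agent.P092.H835.NF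

section nrm

variable {𝕜 : Type} [NontriviallyNormedField 𝕜] [ProperSpace 𝕜] [MeasurableSpace 𝕜]
  [BorelSpace 𝕜]
variable {β : Type} [Fintype β]

/-- a measurable normalisation of a nowhere zero vector -/
theorem exists_nrm {Y : Type} [MeasurableSpace Y] {v : Y → β → 𝕜} (hv : Measurable v)
    (h0 : ∀ y, v y ≠ 0) : ∃ q : Y → β → 𝕜, Measurable q ∧ ∀ y, Nrm (q y) ∧
      ∃ c : 𝕜, c ≠ 0 ∧ q y = c • v y := by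
  classical
  have hn : ∀ a, Measurable fun y => ‖v y a‖ := fun a =>
    continuous_norm.measurable.comp ((measurable_pi_iff.1 hv) a)
  set M : β → Set Y := fun a => {y | ∀ b, ‖v y b‖ ≤ ‖v y a‖} with hM
  have hMm : ∀ a, MeasurableSet (M a) := by
    intro a
    have : M a = ⋂ b, {y | ‖v y b‖ ≤ ‖v y a‖} := by ext y; simp [hM]
    rw [this]
    exact MeasurableSet.iInter fun b => measurableSet_le (hn b) (hn a)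
  have key : ∀ s : Finset β, ∃ q : Y → β → 𝕜, Measurable q ∧ ∀ y, (∃ a ∈ s, y ∈ M a) →
      Nrm (q y) ∧ ∃ c : 𝕜, c ≠ 0 ∧ q y = c • v y := by
    intro s
    induction s using Finset.induction_on with
    | empty => exact ⟨fun _ => 0, measurable_const, fun y ⟨a, ha, _⟩ => by simp at ha⟩
    | insert a s _ ih =>
      obtain ⟨q, hq, hq'⟩ := ih
      refine ⟨(M a).piecewise (fun y => (v y a)⁻¹ • v y) q, ?_, ?_⟩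
      · refine Measurable.piecewise (hMm a) ?_ hq
        exact measurable_pi_iff.2 fun b =>
          (((measurable_pi_iff.1 hv) a).inv).mul ((measurable_pi_iff.1 hv) b)
      · rintro y ⟨a', ha', hy⟩
        by_cases hya : y ∈ M a
        · rw [Set.piecewise_eq_of_mem _ _ _ hya]
          have hne : v y a ≠ 0 := by
            intro hz
            refine h0 y (funext fun b => ?_)
            have := hya b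
            rw [hz, norm_zero] at this
            exact norm_le_zero_iff.1 this
          refine ⟨⟨?_, a, ?_⟩, (v y a)⁻¹, inv_ne_zero hne, rfl⟩
          · refine (pi_norm_le_iff_of_nonneg zero_le_one).2 fun b => ?_
            rw [Pi.smul_apply, smul_eq_mul, norm_mul, norm_inv, inv_mul_le_iff₀
              (norm_pos_iff.2 hne), mul_one]
            exact hya b
          · rw [Pi.smul_apply, smul_eq_mul, inv_mul_cancel₀ hne]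
        · rw [Set.piecewise_eq_of_notMem _ _ _ hya]
          refine hq' y ?_
          rcases Finset.mem_insert.1 ha' with rfl | h1
          · exact absurd hy hya
          · exact ⟨a', h1, hy⟩
  obtain ⟨q, hq, hq'⟩ := key univ
  refine ⟨q, hq, fun y => hq' y ?_⟩
  have hne : Nonempty β := by
    by_contra hcon
    rw [not_nonempty_iff] at hcon
    exact h0 y (funext fun b => hcon.elim b)
  obtain ⟨a, _, ha⟩ := Finset.exists_max_image univ (fun b => ‖v y b‖) univ_nonempty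
  exact ⟨a, mem_univ a, fun b => ha b (mem_univ b)⟩

end nrm

section zd

variable {𝕜 : Type} [NontriviallyNormedField 𝕜] {ι : Type} [Fintype ι] [DecidableEq ι]

/-- data of a zoom -/
structure ZD (C : ℝ) (i : ι) (g η : ι → 𝕜) (ρ ϖ : 𝕜) (r : ℝ) : Prop where
  one : 1 ≤ C
  gi : g i = 1
  ei : η i = 1
  g_le : ‖g‖ ≤ C
  e_le : ‖η‖ ≤ C
  r0 : ρ ≠ 0
  near : ‖η - g‖ ≤ C * ‖ρ‖
  w_low : r ≤ C * ‖ϖ‖
  w_up : ‖ϖ‖ ≤ C * r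
  rr : r ≤ C * ‖ρ‖

/-- bound of `ζ` -/
def zc (C : ℝ) : ℝ := C ^ 2 + C + C ^ 4

variable {C : ℝ} {i : ι} {g η : ι → 𝕜} {ρ ϖ : 𝕜} {r : ℝ}

lemma zc_pos (hC : 1 ≤ C) : 0 ≤ zc C := by unfold zc; positivity

lemma cn_nonneg : 0 ≤ cn ι := by simp [cn]

namespace ZD

variable (h : ZD C i g η ρ ϖ r)
include h

lemma C0 : 0 ≤ C := zero_le_one.trans h.one

lemma rpos : 0 < ‖ρ‖ := norm_pos_iff.2 h.r0

lemma wr : ‖ϖ‖ ≤ C ^ 2 * ‖ρ‖ :=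
  calc ‖ϖ‖ ≤ C * r := h.w_up
    _ ≤ C * (C * ‖ρ‖) := mul_le_mul_of_nonneg_left h.rr h.C0
    _ = C ^ 2 * ‖ρ‖ := by ring

lemma t_eq : 1 - zt g η ρ ϖ i = ϖ / ρ := zt_i h.gi h.ei ρ ϖ

lemma t_le : ‖1 - zt g η ρ ϖ i‖ ≤ C ^ 2 := by
  rw [h.t_eq, norm_div, div_le_iff₀ h.rpos]; exact h.wr

lemma t_low : r ≤ C * (‖ρ‖ * ‖1 - zt g η ρ ϖ i‖) := by
  rw [h.t_eq, norm_div, mul_div_cancel₀ _ h.rpos.ne']; exact h.w_low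

lemma zt_le : ‖zt g η ρ ϖ‖ ≤ zc C := by
  have h1 : C ≤ C ^ 2 := by nlinarith [h.one]
  have := zt_norm_le (C := C ^ 2) (ρ' := C) (h.g_le.trans h1) (h.e_le.trans h1) h.near h.r0 h.wr
  refine this.trans (le_of_eq ?_)
  rw [zc]; ring

lemma up {A : Matrix ι ι 𝕜} (hA : ∀ a b, ‖A a b‖ ≤ C) (ω : ι × ι → 𝕜) :
    ‖sq (A * Nm i (zt g η ρ ϖ)) *ᵥ ω‖
      ≤ (cn ι ^ 2 * C ^ 2 * (cn ι ^ 2 * (1 + zc C) ^ 2)) * ‖ω‖ := by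
  rw [sq_mul, ← mulVec_mulVec]
  refine (sq_le hA h.C0 _).trans ?_
  have h1 := sq_le (A := Nm i (zt g η ρ ϖ)) (C := 1 + zc C)
    (fun a b => (Nm_norm_le i a b).trans (by linarith [h.zt_le]))
    (by have := zc_pos h.one; linarith) ω
  have h2 : 0 ≤ cn ι ^ 2 * C ^ 2 := by positivity
  calc _ ≤ cn ι ^ 2 * C ^ 2 * (cn ι ^ 2 * (1 + zc C) ^ 2 * ‖ω‖) :=
        mul_le_mul_of_nonneg_left h1 h2
    _ = _ := by ring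

lemma nm_le {A A' : Matrix ι ι 𝕜} (hA : A' * A = 1) (hA' : ∀ a b, ‖A' a b‖ ≤ C)
    (ω : ι × ι → 𝕜) : ‖sq (Nm i (zt g η ρ ϖ)) *ᵥ ω‖
      ≤ cn ι ^ 2 * C ^ 2 * ‖sq (A * Nm i (zt g η ρ ϖ)) *ᵥ ω‖ := by
  rw [sq_mul A, ← mulVec_mulVec]
  exact z5 hA hA' h.C0 _

lemma low {A A' : Matrix ι ι 𝕜} (hA : A' * A = 1) (hA' : ∀ a b, ‖A' a b‖ ≤ C)
    {ω : ι × ι → 𝕜} (hω : Alt ω) : r * ‖ω‖ ≤ ‖ρ‖ * (C * ((C ^ 2 + 2 * zc C) * (cn ι ^ 2 * C ^ 2))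
      * ‖sq (A * Nm i (zt g η ρ ϖ)) *ᵥ ω‖) := by
  have h1 := z3 (i := i) (ζ := zt g η ρ ϖ) hω
  have h2 := h.nm_le hA hA' ω
  have h3 := h.t_low
  have h4 : ‖1 - zt g η ρ ϖ i‖ + 2 * ‖zt g η ρ ϖ‖ ≤ C ^ 2 + 2 * zc C := by
    linarith [h.t_le, h.zt_le]
  have h5 : 0 ≤ C ^ 2 + 2 * zc C := by have := zc_pos h.one; positivity
  have hC := h.C0
  calc r * ‖ω‖ ≤ C * (‖ρ‖ * ‖1 - zt g η ρ ϖ i‖) * ‖ω‖ := by gcongr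
    _ = C * ‖ρ‖ * (‖1 - zt g η ρ ϖ i‖ * ‖ω‖) := by ring
    _ ≤ C * ‖ρ‖ * ((‖1 - zt g η ρ ϖ i‖ + 2 * ‖zt g η ρ ϖ‖) * ‖sq (Nm i (zt g η ρ ϖ)) *ᵥ ω‖) := by
        gcongr
    _ ≤ C * ‖ρ‖ * ((C ^ 2 + 2 * zc C) *
          (cn ι ^ 2 * C ^ 2 * ‖sq (A * Nm i (zt g η ρ ϖ)) *ᵥ ω‖)) := by gcongr
    _ = _ := by ring

lemma hx {v : ι → 𝕜} (hv : v i = 1) (hve : ‖v - η‖ ≤ C * r) :
    ∃ e, Hz i g ρ⁻¹ *ᵥ v = zt g η ρ ϖ + e ∧ ‖e‖ ≤ (C + C ^ 2) * ‖1 - zt g η ρ ϖ i‖ := by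
  refine ⟨(ϖ / ρ) • η + ρ⁻¹ • (v - η), ?_, ?_⟩
  · rw [Hz_mulVec, hv]
    funext b
    simp only [zt, Pi.add_apply, Pi.sub_apply, Pi.smul_apply, smul_eq_mul]
    ring
  · rw [h.t_eq]
    refine (norm_add_le _ _).trans ?_
    rw [norm_smul, norm_smul, norm_inv, norm_div]
    have hp := h.rpos
    have hC := h.C0
    have h1 : ‖v - η‖ ≤ C * (C * ‖ϖ‖) := hve.trans (mul_le_mul_of_nonneg_left h.w_low h.C0)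
    have h2 : ‖ρ‖⁻¹ * ‖v - η‖ ≤ C ^ 2 * (‖ϖ‖ / ‖ρ‖) := by
      rw [inv_mul_le_iff₀ hp]
      calc ‖v - η‖ ≤ C * (C * ‖ϖ‖) := h1
        _ = ‖ρ‖ * (C ^ 2 * (‖ϖ‖ / ‖ρ‖)) := by field_simp
    have h3 : ‖ϖ‖ / ‖ρ‖ * ‖η‖ ≤ ‖ϖ‖ / ‖ρ‖ * C :=
      mul_le_mul_of_nonneg_left h.e_le (by positivity)
    linarith

lemma x_le {v : ι → 𝕜} (hv : v i = 1) (hve : ‖v - η‖ ≤ C * r) :
    ‖Hz i g ρ⁻¹ *ᵥ v‖ ≤ zc C + (C + C ^ 2) * C ^ 2 := by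
  obtain ⟨e, h1, h2⟩ := h.hx hv hve
  rw [h1]
  have hC := h.C0
  refine (norm_add_le _ _).trans (add_le_add h.zt_le (h2.trans ?_))
  have := h.t_le
  gcongr

lemma w3_le {A A' : Matrix ι ι 𝕜} (hA : A' * A = 1) (hA' : ∀ a b, ‖A' a b‖ ≤ C)
    {ω : ι × ι → 𝕜} (hω : Alt ω) {v : ι → 𝕜} (hv : v i = 1) (hve : ‖v - η‖ ≤ C * r) :
    ‖w3 (Hz i g ρ⁻¹ *ᵥ v) ω‖ ≤ ((3 * zc C + 3 * (C + C ^ 2) * (C ^ 2 + 2 * zc C)) *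
      (cn ι ^ 2 * C ^ 2)) * ‖sq (A * Nm i (zt g η ρ ϖ)) *ᵥ ω‖ := by
  obtain ⟨e, h1, h2⟩ := h.hx hv hve
  have hC := h.C0
  have hz := zc_pos h.one
  rw [h1]
  have h3 := z4 (i := i) hω h2 (by positivity)
  have h4 := h.nm_le hA hA' ω
  have h5 := h.zt_le
  have h6 := h.t_le
  calc _ ≤ (3 * ‖zt g η ρ ϖ‖ + 3 * (C + C ^ 2) * (‖1 - zt g η ρ ϖ i‖ + 2 * ‖zt g η ρ ϖ‖)) *
        ‖sq (Nm i (zt g η ρ ϖ)) *ᵥ ω‖ := h3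
    _ ≤ (3 * zc C + 3 * (C + C ^ 2) * (C ^ 2 + 2 * zc C)) *
        (cn ι ^ 2 * C ^ 2 * ‖sq (A * Nm i (zt g η ρ ϖ)) *ᵥ ω‖) := by gcongr
    _ = _ := by ring

lemma z_le {z : ι → 𝕜} (hz : ‖z‖ ≤ 1) (hzn : ‖z - z i • η‖ ≤ C * ‖ρ‖) :
    ‖Hz i g ρ⁻¹ *ᵥ z‖ ≤ 3 * C := by
  have hp := h.rpos
  have hC := h.C0
  have hzi : ‖z i‖ ≤ 1 := (norm_le_pi_norm z i).trans hz
  rw [Hz_mulVec]
  have e : z - z i • g = (z - z i • η) + z i • (η - g) := by rw [smul_sub]; abel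
  have h1 : ‖z i • g‖ ≤ C := by
    rw [norm_smul]
    calc ‖z i‖ * ‖g‖ ≤ 1 * C := mul_le_mul hzi h.g_le (norm_nonneg _) zero_le_one
      _ = C := one_mul _
  have h2 : ‖z i • (η - g)‖ ≤ C * ‖ρ‖ := by
    rw [norm_smul]
    calc ‖z i‖ * ‖η - g‖ ≤ 1 * (C * ‖ρ‖) := mul_le_mul hzi h.near (norm_nonneg _) zero_le_one
      _ = C * ‖ρ‖ := one_mul _
  have h3 : ‖z - z i • g‖ ≤ 2 * C * ‖ρ‖ := by
    rw [e]; refine (norm_add_le _ _).trans ?_; linarith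
  have h4 : ‖ρ⁻¹ • (z - z i • g)‖ ≤ 2 * C := by
    rw [norm_smul, norm_inv, inv_mul_le_iff₀ hp]; linarith
  exact (norm_add_le _ _).trans (by linarith)

lemma zz_le (z z' : ι → 𝕜) :
    ‖Hz i g ρ⁻¹ *ᵥ z - Hz i g ρ⁻¹ *ᵥ z'‖ ≤ (C + ‖ρ⁻¹‖ * (1 + C)) * ‖z - z'‖ := by
  rw [← mulVec_sub, Hz_mulVec]
  set w := z - z' with hw
  have h0 : ‖w i‖ ≤ ‖w‖ := norm_le_pi_norm w i
  have h1 : ‖w i • g‖ ≤ ‖w‖ * C := by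
    rw [norm_smul]; exact mul_le_mul h0 h.g_le (norm_nonneg _) (norm_nonneg _)
  have h2 : ‖w - w i • g‖ ≤ (1 + C) * ‖w‖ := (norm_sub_le _ _).trans (by linarith)
  refine (norm_add_le _ _).trans ?_
  rw [norm_smul ρ⁻¹]
  have h3 := mul_le_mul_of_nonneg_left h2 (norm_nonneg ρ⁻¹)
  linarith

lemma sep {x z : ι → 𝕜} (hx : x i ≠ 0) : ‖z - (z i / x i) • x‖
    ≤ ‖ρ‖ * ‖wd (Hz i g ρ⁻¹ *ᵥ ((x i)⁻¹ • x)) (Hz i g ρ⁻¹ *ᵥ z)‖ := by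
  refine (pi_norm_le_iff_of_nonneg (by positivity)).2 fun b => ?_
  have e : (z - (z i / x i) • x) b
      = ρ * wd (Hz i g ρ⁻¹ *ᵥ ((x i)⁻¹ • x)) (Hz i g ρ⁻¹ *ᵥ z) (i, b) := by
    simp only [wd, Hz_mulVec, Pi.add_apply, Pi.sub_apply, Pi.smul_apply, smul_eq_mul, h.gi]
    have := h.r0
    field_simp
    ring
  rw [e, norm_mul]
  exact mul_le_mul_of_nonneg_left (norm_le_pi_norm _ _) (norm_nonneg _)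

/-- the separated case -/
lemma key {A A' : Matrix ι ι 𝕜} (hA : A' * A = 1) (hA' : ∀ a b, ‖A' a b‖ ≤ C)
    {x z₁ z₂ : ι → 𝕜} (hx : x i ≠ 0) (hxe : ‖(x i)⁻¹ • x - η‖ ≤ C * r)
    (h1n : Nrm z₁) (h2n : Nrm z₂)
    (h2r : ‖z₂ - z₂ i • η‖ ≤ C * ‖ρ‖) (hsep : ‖ρ‖ ≤ C * ‖z₁ - (z₁ i / x i) • x‖)
    {ν ω pν pω : ι × ι → 𝕜} (hν : Nrm ν) (hω : Nrm ω) (hωA : Alt ω) {c d : 𝕜}
    (hc : ν = c • (sq (Hz i g ρ⁻¹) *ᵥ pν)) (hd : ω = d • (sq (Hz i g ρ⁻¹) *ᵥ pω))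
    (i1 : w3 x pν = 0) (i2 : w3 z₁ pν = 0) (i3 : w3 z₂ pω = 0) (P Q : ι × ι) :
    ‖mn ν ω P Q‖ ≤ C * (2 * (3 * C * (((3 * zc C + 3 * (C + C ^ 2) * (C ^ 2 + 2 * zc C)) *
      (cn ι ^ 2 * C ^ 2)) * ‖sq (A * Nm i (zt g η ρ ϖ)) *ᵥ ω‖)) +
      4 * ((zc C + (C + C ^ 2) * C ^ 2) * ((C + ‖ρ⁻¹‖ * (1 + C)) * ‖z₁ - z₂‖))) := by
  have hC := h.C0
  have hz := zc_pos h.one
  have hxi : ((x i)⁻¹ • x) i = 1 := by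
    rw [Pi.smul_apply, smul_eq_mul, inv_mul_cancel₀ hx]
  have hx0 : (x i)⁻¹ • x ≠ 0 := by
    intro h0
    rw [h0] at hxi
    simp at hxi
  have j1 : w3 (Hz i g ρ⁻¹ *ᵥ ((x i)⁻¹ • x)) ν = 0 := by
    rw [hc, H835.PlGr.w3_smul_right, w3_sq hx0 ?_, smul_zero]
    rw [H835.PlGr.w3_smul_left, i1, smul_zero]
  have j2 : w3 (Hz i g ρ⁻¹ *ᵥ z₁) ν = 0 := by
    rw [hc, H835.PlGr.w3_smul_right, w3_sq (nrm_ne h1n) i2, smul_zero]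
  have j3 : w3 (Hz i g ρ⁻¹ *ᵥ z₂) ω = 0 := by
    rw [hd, H835.PlGr.w3_smul_right, w3_sq (nrm_ne h2n) i3, smul_zero]
  have k1 := chain_mn hν hω.1 j1 j2 j3 P Q
  have k2 := h.sep (z := z₁) hx
  have k3 : 1 ≤ C * ‖wd (Hz i g ρ⁻¹ *ᵥ ((x i)⁻¹ • x)) (Hz i g ρ⁻¹ *ᵥ z₁)‖ := by
    have h3 : ‖ρ‖ * 1 ≤ ‖ρ‖ * (C * ‖wd (Hz i g ρ⁻¹ *ᵥ ((x i)⁻¹ • x)) (Hz i g ρ⁻¹ *ᵥ z₁)‖) := by
      calc ‖ρ‖ * 1 = ‖ρ‖ := mul_one _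
        _ ≤ C * ‖z₁ - (z₁ i / x i) • x‖ := hsep
        _ ≤ C * (‖ρ‖ * ‖wd (Hz i g ρ⁻¹ *ᵥ ((x i)⁻¹ • x)) (Hz i g ρ⁻¹ *ᵥ z₁)‖) := by gcongr
        _ = _ := by ring
    exact le_of_mul_le_mul_left h3 h.rpos
  have k4 := h.z_le h2n.1 h2r
  have k5 := h.w3_le hA hA' hωA hxi hxe
  have k6 := h.x_le hxi hxe
  have k7 := h.zz_le z₁ z₂
  calc ‖mn ν ω P Q‖ = 1 * ‖mn ν ω P Q‖ := (one_mul _).symm
    _ ≤ C * ‖wd (Hz i g ρ⁻¹ *ᵥ ((x i)⁻¹ • x)) (Hz i g ρ⁻¹ *ᵥ z₁)‖ * ‖mn ν ω P Q‖ := by gcongr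
    _ = C * (‖wd (Hz i g ρ⁻¹ *ᵥ ((x i)⁻¹ • x)) (Hz i g ρ⁻¹ *ᵥ z₁)‖ * ‖mn ν ω P Q‖) := by ring
    _ ≤ C * (2 * (‖Hz i g ρ⁻¹ *ᵥ z₂‖ * ‖w3 (Hz i g ρ⁻¹ *ᵥ ((x i)⁻¹ • x)) ω‖) +
        4 * (‖Hz i g ρ⁻¹ *ᵥ ((x i)⁻¹ • x)‖ * ‖Hz i g ρ⁻¹ *ᵥ z₁ - Hz i g ρ⁻¹ *ᵥ z₂‖)) := by
        gcongr
    _ ≤ _ := by gcongr

end ZD

end zd

end Vale.Agent.P092.H589.K2
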