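import Vale.Agent.P092.H589.K2w
import Vale.Agent.P092.H835.Zoom
import Vale.Agent.P092.H835.PlGr

/-!
P092, TEAM N, block [N-K2] (helper589), part x: geometry of the zoomed step.
-/

set_option linter.unusedSectionVars false

namespace Vale.Agent.P092.H589.K2

open Finset Matrix Vale.Agent.P092.H589.Mu
open Vale.Agent.P092.H464 (Pv CI)
open Vale.Agent.P092.H820 (wd)
open Vale.Agent.P092.H87.N (cn)
open Vale.Agent.P092.H835.PlF (w3 Alt sq sq_wd alt_wd)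
open Vale.Agent.P092.H835.NF

section geo

variable {𝕜 : Type} [NontriviallyNormedField 𝕜] {ι : Type} [Fintype ι] [DecidableEq ι]

/-- the basic identity -/
lemma mn_wd (x z : ι → 𝕜) (ω : ι × ι → 𝕜) (a b c d : ι) :
    mn (wd x z) ω (a, b) (c, d) = x a * w3 z ω (b, (c, d)) - x b * w3 z ω (a, (c, d))
      + z c * w3 x ω (a, (b, d)) - z d * w3 x ω (a, (b, c)) := by
  simp only [mn, wd, w3]; ring

lemma wd_norm_le (x z : ι → 𝕜) : ‖wd x z‖ ≤ 2 * (‖x‖ * ‖z‖) := by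
  refine (pi_norm_le_iff_of_nonneg (by positivity)).2 fun p => ?_
  simp only [wd]
  refine (norm_sub_le _ _).trans ?_
  rw [norm_mul, norm_mul]
  have h1 : ‖x p.1‖ * ‖z p.2‖ ≤ ‖x‖ * ‖z‖ :=
    mul_le_mul (norm_le_pi_norm _ _) (norm_le_pi_norm _ _) (norm_nonneg _) (norm_nonneg _)
  have h2 : ‖x p.2‖ * ‖z p.1‖ ≤ ‖x‖ * ‖z‖ :=
    mul_le_mul (norm_le_pi_norm _ _) (norm_le_pi_norm _ _) (norm_nonneg _) (norm_nonneg _)
  linarith

/-- two points of a line and a second line through a point close to the second one -/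
lemma chain_mn {x z₁ z₂ : ι → 𝕜} {ν ω : ι × ι → 𝕜} (hν : Nrm ν) (hω : ‖ω‖ ≤ 1)
    (h1 : w3 x ν = 0) (h2 : w3 z₁ ν = 0) (h3 : w3 z₂ ω = 0) (P Q : ι × ι) :
    ‖wd x z₁‖ * ‖mn ν ω P Q‖ ≤ 2 * (‖z₂‖ * ‖w3 x ω‖) + 4 * (‖x‖ * ‖z₁ - z₂‖) := by
  obtain ⟨hν1, P0, hP0⟩ := hν
  -- `wd x z₁ = λ ν`
  set lam := wd x z₁ P0 with hlam
  have hprop : ∀ R, wd x z₁ R = lam * ν R := by
    intro R
    have e := mn_wd x z₁ ν P0.1 P0.2 R.1 R.2
    rw [h1, h2] at e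
    simp only [Pi.zero_apply, mul_zero, sub_zero, add_zero, mn, Prod.mk.eta, hP0, one_mul] at e
    rw [hlam]
    linear_combination -e
  have hle : ‖wd x z₁‖ ≤ ‖lam‖ := by
    refine (pi_norm_le_iff_of_nonneg (norm_nonneg _)).2 fun R => ?_
    rw [hprop R, norm_mul]
    have : ‖ν R‖ ≤ 1 := (norm_le_pi_norm ν R).trans hν1
    nlinarith [norm_nonneg lam]
  have e1 : lam * mn ν ω P Q = mn (wd x z₁) ω P Q := by
    simp only [mn, hprop]; ring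
  have e2 : mn (wd x z₁) ω P Q = mn (wd x z₂) ω P Q + mn (wd x (z₁ - z₂)) ω P Q := by
    simp only [mn, wd, Pi.sub_apply]; ring
  have b1 : ‖mn (wd x z₂) ω P Q‖ ≤ 2 * (‖z₂‖ * ‖w3 x ω‖) := by
    have e := mn_wd x z₂ ω P.1 P.2 Q.1 Q.2
    rw [h3] at e
    simp only [Pi.zero_apply, mul_zero, sub_zero, zero_add, Prod.mk.eta] at e
    rw [e]
    refine (norm_sub_le _ _).trans ?_
    rw [norm_mul, norm_mul]
    have c1 : ‖z₂ Q.1‖ * ‖w3 x ω (P.1, (P.2, Q.2))‖ ≤ ‖z₂‖ * ‖w3 x ω‖ :=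
      mul_le_mul (norm_le_pi_norm _ _) (norm_le_pi_norm _ _) (norm_nonneg _) (norm_nonneg _)
    have c2 : ‖z₂ Q.2‖ * ‖w3 x ω (P.1, (P.2, Q.1))‖ ≤ ‖z₂‖ * ‖w3 x ω‖ :=
      mul_le_mul (norm_le_pi_norm _ _) (norm_le_pi_norm _ _) (norm_nonneg _) (norm_nonneg _)
    linarith
  have b2 : ‖mn (wd x (z₁ - z₂)) ω P Q‖ ≤ 4 * (‖x‖ * ‖z₁ - z₂‖) := by
    have c0 := wd_norm_le x (z₁ - z₂)
    have c1 : ∀ R, ‖wd x (z₁ - z₂) R‖ ≤ 2 * (‖x‖ * ‖z₁ - z₂‖) := fun R =>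
      (norm_le_pi_norm _ R).trans c0
    have c2 : ∀ R, ‖ω R‖ ≤ 1 := fun R => (norm_le_pi_norm _ R).trans hω
    simp only [mn]
    refine (norm_sub_le _ _).trans ?_
    rw [norm_mul, norm_mul]
    have d1 := mul_le_mul (c1 P) (c2 Q) (norm_nonneg _) (by positivity)
    have d2 := mul_le_mul (c2 P) (c1 Q) (norm_nonneg _) zero_le_one
    linarith
  calc ‖wd x z₁‖ * ‖mn ν ω P Q‖ ≤ ‖lam‖ * ‖mn ν ω P Q‖ := by gcongr
    _ = ‖mn (wd x z₁) ω P Q‖ := by rw [← norm_mul, e1]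
    _ ≤ _ := by
        rw [e2]
        exact (norm_add_le _ _).trans (add_le_add b1 b2)

/-- incidence under a matrix -/
lemma w3_sq {x : ι → 𝕜} (hx : x ≠ 0) {ω : ι × ι → 𝕜} (h : w3 x ω = 0) (H : Matrix ι ι 𝕜) :
    w3 (H *ᵥ x) (sq H *ᵥ ω) = 0 := by
  obtain ⟨y, hy⟩ := H835.PlGr.wd_of_w3 hx h
  rw [hy, sq_wd, H835.PlGr.w3_wd_left]

lemma nrm_ne {v : ι → 𝕜} (h : Nrm v) : v ≠ 0 := by
  rintro rfl
  obtain ⟨_, a, ha⟩ := h
  simp at ha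

lemma nrm_one {β : Type} [Fintype β] {v : β → 𝕜} (h : Nrm v) : ‖v‖ = 1 := by
  obtain ⟨h1, a, ha⟩ := h
  refine le_antisymm h1 ?_
  have := norm_le_pi_norm v a
  rwa [ha, norm_one] at this

end geo

end Vale.Agent.P092.H589.K2
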