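import Mathlib

/-!
P092, TEAM N, block [N-K2] (helper589), part a: labels (nested cells) of a field, codes of
normalised vectors, and the count of the codes near a given line.
-/

namespace Vale.Agent.P092.H589.K2

open Finset

/-- Nested labels of a normed field. -/
structure Cells (𝕜 : Type) [NormedField 𝕜] [MeasurableSpace 𝕜] where
  /-- type of labels -/
  T : Type
  /-- the label of level `m` -/
  lab : ℕ → 𝕜 → T
  nest : ∀ m x y, lab (m + 1) x = lab (m + 1) y → lab m x = lab m y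
  small : ∀ m x y, lab m x = lab m y → ‖x - y‖ ≤ (1 / 2) ^ m
  count : ∀ R : ℝ, ∃ M : ℕ, ∀ m x, ∃ F : Finset T, F.card ≤ M ∧
    ∀ y, ‖y - x‖ ≤ R * (1 / 2) ^ m → lab m y ∈ F
  meas : ∀ m t, MeasurableSet {x | lab m x = t}

section rclike

variable {𝕜 : Type} [RCLike 𝕜]

lemma floor_near {a b R : ℝ} (h : |b - a| ≤ R) :
    ⌊b⌋ ∈ Finset.Icc (⌊a - R⌋) (⌊a + R⌋) := by
  rw [abs_le] at h
  rw [Finset.mem_Icc]
  exact ⟨Int.floor_le_floor (by linarith), Int.floor_le_floor (by linarith)⟩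

lemma card_near (a R : ℝ) :
    (Finset.Icc (⌊a - R⌋) (⌊a + R⌋)).card ≤ ⌊2 * R⌋₊ + 2 := by
  rw [Int.card_Icc]
  have h1 : (⌊a + R⌋ : ℝ) ≤ a + R := Int.floor_le _
  have h2 : a - R < ⌊a - R⌋ + 1 := Int.lt_floor_add_one _
  have h3 : 2 * R < ⌊2 * R⌋₊ + 1 := Nat.lt_floor_add_one _
  have h4 : ((⌊a + R⌋ + 1 - ⌊a - R⌋ : ℤ) : ℝ) < ((⌊2 * R⌋₊ + 3 : ℕ) : ℝ) := by
    push_cast; linarith
  have h5 : (⌊a + R⌋ + 1 - ⌊a - R⌋ : ℤ) < ((⌊2 * R⌋₊ + 3 : ℕ) : ℤ) := by exact_mod_cast h4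
  omega

lemma norm_le_re_im (z : 𝕜) : ‖z‖ ≤ |RCLike.re z| + |RCLike.im z| := by
  have h1 : ‖z‖ ^ 2 = RCLike.re z * RCLike.re z + RCLike.im z * RCLike.im z := by
    rw [← RCLike.normSq_eq_def', RCLike.normSq_apply]
  refine le_of_sq_le_sq ?_ (by positivity)
  have h2 := mul_nonneg (abs_nonneg (RCLike.re z)) (abs_nonneg (RCLike.im z))
  nlinarith [abs_mul_abs_self (RCLike.re z), abs_mul_abs_self (RCLike.im z)]

/-- the labels of `ℝ` and `ℂ` -/
noncomputable def cellsR (𝕜 : Type) [RCLike 𝕜] [MeasurableSpace 𝕜] [BorelSpace 𝕜] : Cells 𝕜 where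
  T := ℤ × ℤ
  lab m x := (⌊2 ^ (m + 1) * RCLike.re x⌋, ⌊2 ^ (m + 1) * RCLike.im x⌋)
  nest m x y h := by
    have key : ∀ a b : ℝ, ⌊(2 : ℝ) ^ (m + 1 + 1) * a⌋ = ⌊(2 : ℝ) ^ (m + 1 + 1) * b⌋ →
        ⌊(2 : ℝ) ^ (m + 1) * a⌋ = ⌊(2 : ℝ) ^ (m + 1) * b⌋ := by
      intro a b hab
      have e : ∀ c : ℝ, ⌊(2 : ℝ) ^ (m + 1) * c⌋ = ⌊(2 : ℝ) ^ (m + 1 + 1) * c⌋ / 2 := by
        intro c
        have h1 : (2 : ℝ) ^ (m + 1) * c = ((2 : ℝ) ^ (m + 1 + 1) * c) / ((2 : ℕ) : ℝ) := by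
          rw [pow_succ (2 : ℝ) (m + 1)]; push_cast; ring
        rw [h1, Int.floor_div_natCast]
        norm_num
      rw [e, e, hab]
    simp only [Prod.mk.injEq] at h ⊢
    exact ⟨key _ _ h.1, key _ _ h.2⟩
  small m x y h := by
    simp only [Prod.mk.injEq] at h
    have key : ∀ a b : ℝ, ⌊(2 : ℝ) ^ (m + 1) * a⌋ = ⌊(2 : ℝ) ^ (m + 1) * b⌋ →
        |a - b| ≤ (1 / 2) ^ (m + 1) := by
      intro a b hab
      have h1 := (Int.abs_sub_lt_one_of_floor_eq_floor hab).le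
      have e : (2 : ℝ) ^ (m + 1) * a - 2 ^ (m + 1) * b = 2 ^ (m + 1) * (a - b) := by ring
      rw [e, abs_mul, abs_of_pos (by positivity : (0 : ℝ) < 2 ^ (m + 1))] at h1
      have e2 : ((1 : ℝ) / 2) ^ (m + 1) = 1 / 2 ^ (m + 1) := by rw [div_pow, one_pow]
      rw [e2, le_div_iff₀' (by positivity)]
      exact h1
    have h1 := key _ _ h.1
    have h2 := key _ _ h.2
    have h3 : ‖x - y‖ ≤ |RCLike.re (x - y)| + |RCLike.im (x - y)| :=
      norm_le_re_im _
    rw [map_sub, map_sub] at h3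
    have e3 : ((1 : ℝ) / 2) ^ m = (1 / 2) ^ (m + 1) + (1 / 2) ^ (m + 1) := by
      rw [pow_succ]; ring
    rw [e3]
    linarith
  count R := by
    refine ⟨(⌊2 * (2 * R)⌋₊ + 2) * (⌊2 * (2 * R)⌋₊ + 2), fun m x => ?_⟩
    set u : ℝ := 2 ^ (m + 1) * RCLike.re x
    set v : ℝ := 2 ^ (m + 1) * RCLike.im x
    refine ⟨(Finset.Icc (⌊u - 2 * R⌋) (⌊u + 2 * R⌋)) ×ˢ
      (Finset.Icc (⌊v - 2 * R⌋) (⌊v + 2 * R⌋)), ?_, fun y hy => ?_⟩
    · rw [Finset.card_product]
      exact Nat.mul_le_mul (card_near _ _) (card_near _ _)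
    · have key : ∀ a b : ℝ, |a - b| ≤ ‖y - x‖ →
          |(2 : ℝ) ^ (m + 1) * a - 2 ^ (m + 1) * b| ≤ 2 * R := by
        intro a b hab
        have e : (2 : ℝ) ^ (m + 1) * a - 2 ^ (m + 1) * b = 2 ^ (m + 1) * (a - b) := by ring
        rw [e, abs_mul, abs_of_pos (by positivity : (0 : ℝ) < 2 ^ (m + 1))]
        calc (2 : ℝ) ^ (m + 1) * |a - b| ≤ 2 ^ (m + 1) * (R * (1 / 2) ^ m) := by
              gcongr; exact hab.trans hy
          _ = 2 * R * (2 ^ m * (1 / 2) ^ m) := by rw [pow_succ]; ring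
          _ = 2 * R := by rw [← mul_pow]; norm_num
      rw [Finset.mem_product]
      refine ⟨floor_near (key _ _ ?_), floor_near (key _ _ ?_)⟩
      · rw [← map_sub]; exact RCLike.abs_re_le_norm _
      · rw [← map_sub]; exact RCLike.abs_im_le_norm _
  meas m t := by
    have h1 : Measurable fun x : 𝕜 => (⌊(2 : ℝ) ^ (m + 1) * RCLike.re x⌋,
        ⌊(2 : ℝ) ^ (m + 1) * RCLike.im x⌋) := by
      refine Measurable.prodMk ?_ ?_
      · exact Int.measurable_floor.comp ((RCLike.continuous_re.measurable).const_mul _)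
      · exact Int.measurable_floor.comp ((RCLike.continuous_im.measurable).const_mul _)
    exact h1 (measurableSet_singleton t)

end rclike

section codes

variable {𝕜 : Type} [NormedField 𝕜] [MeasurableSpace 𝕜] (c : Cells 𝕜)
variable {ι : Type} [Fintype ι]

/-- the code of a vector at level `m` -/
def code (m : ℕ) (v : ι → 𝕜) : ι → c.T := fun a => c.lab m (v a)

variable {c}

omit [Fintype ι] in
lemma code_nest {m : ℕ} {v w : ι → 𝕜} (h : code c (m + 1) v = code c (m + 1) w) :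
    code c m v = code c m w := by
  funext a
  exact c.nest m _ _ (congrFun h a)

omit [Fintype ι] in
lemma code_nest_le {m n : ℕ} (hmn : m ≤ n) {v w : ι → 𝕜} (h : code c n v = code c n w) :
    code c m v = code c m w := by
  induction n, hmn using Nat.le_induction with
  | base => exact h
  | succ n _ ih => exact ih (code_nest h)

lemma code_small {m : ℕ} {v w : ι → 𝕜} (h : code c m v = code c m w) :
    ‖v - w‖ ≤ (1 / 2) ^ m :=
  (pi_norm_le_iff_of_nonneg (by positivity)).2 fun a => c.small m _ _ (congrFun h a)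

/-- normalised vectors: in the unit ball, and one coordinate is `1` -/
def Nrm (v : ι → 𝕜) : Prop := ‖v‖ ≤ 1 ∧ ∃ a, v a = 1

/-- codes of the vectors in a ball -/
lemma code_count_ball (R : ℝ) : ∃ M : ℕ, ∀ m (x : ι → 𝕜), ∃ F : Finset (ι → c.T), F.card ≤ M ∧
    ∀ y : ι → 𝕜, ‖y - x‖ ≤ R * (1 / 2) ^ m → code c m y ∈ F := by
  classical
  obtain ⟨M, hM⟩ := c.count R
  refine ⟨M ^ Fintype.card ι, fun m x => ?_⟩
  choose F hF1 hF2 using fun a => hM m (x a)
  refine ⟨Fintype.piFinset F, ?_, fun y hy => ?_⟩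
  · rw [Fintype.card_piFinset]
    calc ∏ a, (F a).card ≤ ∏ _a : ι, M := Finset.prod_le_prod' fun a _ => hF1 a
      _ = _ := by rw [Finset.prod_const, Finset.card_univ]
  · rw [Fintype.mem_piFinset]
    exact fun a => hF2 a _ ((norm_le_pi_norm (y - x) a).trans hy)

/-- The codes of normalised vectors near a given line. -/
lemma code_count (R C : ℝ) : ∃ M : ℕ, ∀ m (ν : ι → 𝕜), ‖ν‖ ≤ C → (∃ b, ν b = 1) →
    ∃ F : Finset (ι → c.T), F.card ≤ M ∧
    ∀ ω : ι → 𝕜, Nrm ω → (∀ a b, ‖ν a * ω b - ω a * ν b‖ ≤ R * (1 / 2) ^ m) →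
      code c m ω ∈ F := by
  classical
  obtain ⟨M, hM⟩ := code_count_ball (c := c) (ι := ι) (2 * R)
  refine ⟨Fintype.card ι * M, fun m ν _ hν => ?_⟩
  obtain ⟨b, hb⟩ := hν
  -- the centre for the pivot `a`
  set x : ι → (ι → 𝕜) := fun a => if R * (1 / 2) ^ m ≤ 1 / 2 then (fun d => ν d / ν a) else 0
    with hx
  choose F hF1 hF2 using fun a => hM m (x a)
  refine ⟨Finset.univ.biUnion F, ?_, fun ω hω hmin => ?_⟩
  · calc (Finset.univ.biUnion F).card ≤ ∑ a, (F a).card := Finset.card_biUnion_le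
      _ ≤ ∑ _a : ι, M := Finset.sum_le_sum fun a _ => hF1 a
      _ = _ := by rw [Finset.sum_const, Finset.card_univ, smul_eq_mul]
  · obtain ⟨hω1, a, ha⟩ := hω
    rw [Finset.mem_biUnion]
    refine ⟨a, Finset.mem_univ _, hF2 a ω ?_⟩
    have hcoord : ∀ d, ‖ω d‖ ≤ 1 := fun d => (norm_le_pi_norm ω d).trans hω1
    by_cases hR : R * (1 / 2) ^ m ≤ 1 / 2
    · have hxa : x a = fun d => ν d / ν a := by rw [hx]; simp only [if_pos hR]
      rw [hxa]
      have h1 := hmin a b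
      rw [ha, hb, one_mul] at h1
      -- `‖ν a * ω b - 1‖ ≤ 1/2`
      have h2 : (1 : ℝ) / 2 ≤ ‖ν a‖ := by
        have h3 : ‖(1 : 𝕜)‖ ≤ ‖ν a * ω b - 1‖ + ‖ν a * ω b‖ := by
          have : (1 : 𝕜) = -(ν a * ω b - 1) + ν a * ω b := by ring
          calc ‖(1 : 𝕜)‖ = ‖-(ν a * ω b - 1) + ν a * ω b‖ := by rw [← this]
            _ ≤ _ := (norm_add_le _ _).trans (by rw [norm_neg])
        rw [norm_one, norm_mul] at h3
        have h4 : ‖ν a‖ * ‖ω b‖ ≤ ‖ν a‖ * 1 := by gcongr; exact hcoord b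
        linarith
      have hνa : ν a ≠ 0 := by
        intro h0; rw [h0, norm_zero] at h2; linarith
      have hR0 : 0 ≤ R * (1 / 2) ^ m := (norm_nonneg _).trans (hmin a a)
      refine (pi_norm_le_iff_of_nonneg (by nlinarith)).2 fun d => ?_
      have h5 := hmin a d
      rw [ha, one_mul] at h5
      have e : (ω - fun d => ν d / ν a) d = (ν a * ω d - ν d) / ν a := by
        rw [Pi.sub_apply]; field_simp
      rw [e, norm_div, div_le_iff₀ (by linarith)]
      nlinarith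
    · have hxa : x a = 0 := by rw [hx]; simp only [if_neg hR]
      rw [hxa, sub_zero]
      push Not at hR
      calc ‖ω‖ ≤ 1 := hω1
        _ ≤ _ := by nlinarith

lemma measurable_code {Y : Type} [MeasurableSpace Y] {q : Y → ι → 𝕜} (hq : Measurable q) (m : ℕ)
    (t : ι → c.T) : MeasurableSet {y | code c m (q y) = t} := by
  have e : {y | code c m (q y) = t} = ⋂ a, {y | c.lab m (q y a) = t a} := by
    ext y
    simp only [Set.mem_ofPred_eq, Set.mem_iInter]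
    exact funext_iff
  rw [e]
  exact MeasurableSet.iInter fun a => ((measurable_pi_apply a).comp hq) (c.meas m (t a))

end codes

end Vale.Agent.P092.H589.K2
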