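import Vale.Agent.P092.H589.K2u
import Vale.Agent.P092.H464.Pv

/-!
P092, TEAM N, block [N-K2] (helper589), part v: tame functions and projection valued measures.
-/

set_option linter.unusedSectionVars false

namespace Vale.Agent.P092.H589.K2

open Finset Vale.Agent.P092.H589.Mu
open Vale.Agent.P092.H464 (Pv)

/-- `W = ∫ F dP` -/
structure Opf {K : Type} [NormedAddCommGroup K] [InnerProductSpace ℂ K] [CompleteSpace K]
    {Y : Type} [MeasurableSpace Y] (P : Set Y → (K →L[ℂ] K)) (F : Y → ℂ) (W : K →L[ℂ] K) :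
    Prop where
  comm : ∀ A, MeasurableSet A → W * P A = P A * W
  approx : ∀ A, MeasurableSet A → ∀ (a : ℂ) (δ : ℝ), 0 ≤ δ → (∀ y ∈ A, ‖F y - a‖ ≤ δ) →
    ∀ v, ‖W (P A v) - a • P A v‖ ≤ δ * ‖P A v‖

section

variable {K : Type} [NormedAddCommGroup K] [InnerProductSpace ℂ K] [CompleteSpace K]
variable {𝕜 : Type} [NormedField 𝕜] {β : Type} [Fintype β] {φ : (β → 𝕜) → ℂ}

theorem Tame.op (hφ : Tame K φ) (α : Type) [Fintype α] (C c : ℝ) (hc : 0 < c) :
    ∃ M : ℝ, 0 ≤ M ∧ ∀ (Y : Type) [MeasurableSpace Y] (P : Set Y → (K →L[ℂ] K)), Pv P →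
      ∀ (Ω : Set Y), MeasurableSet Ω → ∀ (κ : Type) (S : Finset κ) (u : α → Y → 𝕜)
      (w : κ → α → β → 𝕜) (F : κ → Y → ℂ) (W : κ → (K →L[ℂ] K)),
      (∀ a, ∀ y ∈ Ω, ‖u a y‖ ≤ 1) → (∀ k ∈ S, ∀ a, ‖w k a‖ ≤ C) →
      (∀ k ∈ S, ∀ y ∈ Ω, c ≤ ‖∑ a, u a y • w k a‖) →
      (∀ k ∈ S, ∀ y ∈ Ω, F k y = φ (∑ a, u a y • w k a)) → (∀ k ∈ S, Measurable (F k)) →
      (∀ k ∈ S, Opf P (F k) (W k)) → Mul S (fun k => W k * P Ω) M := by
  classical
  obtain ⟨_, ⟨B, hB0, hB⟩, h3⟩ := hφ
  obtain ⟨M, hM0, hM⟩ := h3 α C c hc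
  refine ⟨M, hM0, fun Y _ P hP Ω hΩ κ S u w F W hu hw hl hF hmeas hW => ?_⟩
  refine Mul.closed hM0 fun ε hε => ?_
  set ε' : ℝ := ε / 2 with hε'
  have hε'p : 0 < ε' := by positivity
  set N : ℤ := ⌈B / ε'⌉ + 1 with hN
  set L : Y → (S → ℤ × ℤ) := fun y k => (⌊(F k y).re / ε'⌋, ⌊(F k y).im / ε'⌋) with hL
  set 𝒯 : Finset (S → ℤ × ℤ) := Fintype.piFinset fun _ => Icc (-N) N ×ˢ Icc (-N) N with h𝒯
  have hfl : ∀ x : ℝ, |x| ≤ B → ⌊x / ε'⌋ ∈ Icc (-N) N := by
    intro x hx
    rw [abs_le] at hx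
    have h1 : x / ε' ≤ B / ε' := div_le_div_of_nonneg_right hx.2 hε'p.le
    have h2 : -(B / ε') ≤ x / ε' := by
      rw [← neg_div]; exact div_le_div_of_nonneg_right hx.1 hε'p.le
    have h3 : (B / ε' : ℝ) ≤ ⌈B / ε'⌉ := Int.le_ceil _
    rw [mem_Icc]
    constructor
    · rw [Int.le_floor]; push_cast [hN]; linarith
    · have : (⌊x / ε'⌋ : ℝ) ≤ x / ε' := Int.floor_le _
      have h4 : (⌊x / ε'⌋ : ℝ) ≤ ((⌈B / ε'⌉ + 1 : ℤ) : ℝ) := by push_cast; linarith
      exact_mod_cast h4
  set cell : (S → ℤ × ℤ) → Set Y := fun t => Ω ∩ {y | L y = t} with hcell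
  have hLm : Measurable L := by
    refine measurable_pi_iff.2 fun k => Measurable.prodMk ?_ ?_
    · exact Int.measurable_floor.comp ((Complex.measurable_re.comp (hmeas k k.2)).div_const _)
    · exact Int.measurable_floor.comp ((Complex.measurable_im.comp (hmeas k k.2)).div_const _)
  have hcm : ∀ t, MeasurableSet (cell t) := fun t => hΩ.inter (hLm (measurableSet_singleton t))
  have hcd : ∀ t t', t ≠ t' → Disjoint (cell t) (cell t') := fun t t' htt =>
    Set.disjoint_left.2 fun y h1 h2 => htt (h1.2.symm.trans h2.2)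
  have hΩu : Ω = ⋃ t ∈ 𝒯, cell t := by
    ext y
    simp only [Set.mem_iUnion, exists_prop]
    constructor
    · intro hy
      refine ⟨L y, ?_, hy, rfl⟩
      rw [h𝒯, Fintype.mem_piFinset]
      intro k
      have hb : ‖F k y‖ ≤ B := by rw [hF k k.2 y hy]; exact hB _
      rw [mem_product]
      exact ⟨hfl _ ((Complex.abs_re_le_norm _).trans hb), hfl _ ((Complex.abs_im_le_norm _).trans hb)⟩
    · rintro ⟨t, _, hy⟩; exact hy.1
  have hPsum : P Ω = ∑ t ∈ 𝒯, P (cell t) := by
    conv_lhs => rw [hΩu]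
    exact hP.sum 𝒯 cell (fun t _ => hcm t) fun t _ t' _ htt => hcd t t' htt
  set I : Finset (S → ℤ × ℤ) := 𝒯.filter fun t => (cell t).Nonempty with hI
  set pt : (S → ℤ × ℤ) → Option Y := fun t => if h : (cell t).Nonempty then some h.some else none
  set F0 : κ → (S → ℤ × ℤ) → ℂ := fun k t => (pt t).elim 0 (F k) with hF0
  have hpt : ∀ t ∈ I, ∃ y ∈ cell t, pt t = some y := by
    intro t ht
    have h := (mem_filter.1 ht).2
    exact ⟨h.some, h.some_mem, by simp only [pt, dif_pos h]⟩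
  have hOF : OF I fun t => P (cell t) := by
    refine ⟨fun t _ => hP.sa _ (hcm t), fun t _ => hP.idem (hcm t), fun t _ t' _ htt => ?_⟩
    exact hP.disj (hcm t) (hcm t') (hcd t t' htt)
  refine ⟨fun k => dg I (fun t => P (cell t)) (F0 k), ?_, fun k hk v => ?_⟩
  · have h1 := hM κ (S → ℤ × ℤ) S I (fun t => P (cell t))
      (fun a t => (pt t).elim 0 (u a)) w hOF ?_ hw ?_
    · refine h1.congr fun k hk => dg_congr fun t ht => ?_
      obtain ⟨y, hy, e⟩ := hpt t ht
      simp only [hF0, e, Option.elim_some]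
      exact (hF k hk y hy.1).symm
    · intro a t ht
      obtain ⟨y, hy, e⟩ := hpt t ht
      simp only [e, Option.elim_some]
      exact hu a y hy.1
    · intro k hk t ht
      obtain ⟨y, hy, e⟩ := hpt t ht
      simp only [e, Option.elim_some]
      exact hl k hk y hy.1
  · -- the difference
    have e1 : (W k * P Ω) v = ∑ t ∈ I, W k (P (cell t) v) := by
      have h0 : (W k * P Ω) v = W k (P Ω v) := rfl
      rw [h0, hPsum, _root_.sum_apply, map_sum, hI, sum_filter]
      refine sum_congr rfl fun t _ => ?_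
      by_cases h : (cell t).Nonempty
      · rw [if_pos h]
      · rw [if_neg h, Set.not_nonempty_iff_eq_empty.1 h, hP.empty]; simp
    have e2 : dg I (fun t => P (cell t)) (F0 k) v = ∑ t ∈ I, F0 k t • P (cell t) v := by
      rw [dg, _root_.sum_apply]; rfl
    have e3 : (W k * P Ω) v - dg I (fun t => P (cell t)) (F0 k) v
        = ∑ t ∈ I, P (cell t) (W k (P (cell t) v) - F0 k t • P (cell t) v) := by
      rw [e1, e2, ← sum_sub_distrib]
      refine sum_congr rfl fun t _ => ?_
      have h1 : P (cell t) (P (cell t) v) = P (cell t) v := by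
        conv_rhs => rw [← hP.idem (hcm t)]
        rfl
      have h2 : P (cell t) (W k (P (cell t) v)) = W k (P (cell t) v) := by
        have h3 : P (cell t) (W k (P (cell t) v)) = (P (cell t) * W k) (P (cell t) v) := rfl
        rw [h3, ← (hW k hk).comm _ (hcm t)]
        change W k (P (cell t) (P (cell t) v)) = _
        rw [h1]
      rw [map_sub, h2, map_smul, h1]
    refine le_of_sq_le_sq ?_ (by positivity)
    rw [e3]
    refine (hP.mult' I cell (fun t _ => hcm t) 1 ?_ _).trans ?_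
    · intro x s _ hs
      rw [Finset.card_le_one]
      intro t ht t' ht'
      exact (hs t ht).2.symm.trans (hs t' ht').2
    · rw [Nat.cast_one, one_mul]
      calc ∑ t ∈ I, ‖W k (P (cell t) v) - F0 k t • P (cell t) v‖ ^ 2
          ≤ ∑ t ∈ I, ε ^ 2 * ‖P (cell t) v‖ ^ 2 := by
            refine sum_le_sum fun t ht => ?_
            obtain ⟨y, hy, e⟩ := hpt t ht
            rw [← mul_pow]
            refine pow_le_pow_left₀ (norm_nonneg _) ?_ 2
            refine (hW k hk).approx _ (hcm t) _ _ hε.le (fun y' hy' => ?_) v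
            have e4 : F0 k t = F k y := by simp only [hF0, e, Option.elim_some]
            rw [e4]
            have h5 : L y' = L y := hy'.2.trans hy.2.symm
            have h6 := congrFun h5 ⟨k, hk⟩
            simp only [hL, Prod.mk.injEq] at h6
            have key : ∀ x y : ℝ, ⌊x / ε'⌋ = ⌊y / ε'⌋ → |x - y| ≤ ε' := by
              intro x y hxy
              have h3 := (Int.abs_sub_lt_one_of_floor_eq_floor hxy).le
              rw [← sub_div, abs_div, abs_of_pos hε'p, div_le_one hε'p] at h3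
              exact h3
            have h7 := key _ _ h6.1
            have h8 := key _ _ h6.2
            rw [← Complex.sub_re] at h7
            rw [← Complex.sub_im] at h8
            refine (Complex.norm_le_abs_re_add_abs_im _).trans ?_
            rw [hε'] at h7 h8
            linarith
        _ = ε ^ 2 * ∑ t ∈ I, ‖P (cell t) v‖ ^ 2 := by rw [mul_sum]
        _ ≤ ε ^ 2 * ‖v‖ ^ 2 := by
            gcongr
            exact hP.bessel I cell (fun t _ => hcm t) (fun t _ t' _ htt => hcd t t' htt) v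
        _ = _ := by ring

end

end Vale.Agent.P092.H589.K2
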