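import Vale.Agent.P092.H589.K3f
import Vale.Agent.P092.H464.KakChart
import Vale.Agent.P092.SD.Blocks

/-!
P092, TEAM D, block (K3) (helper589), part g: `SD.NJStmt ℝ`.
-/

namespace Vale.Agent.P092.H589.KT

open Topology Matrix Projectivization MeasureTheory
open scoped LinearAlgebra.Projectivization

open Vale.Agent.P092.H464 (Pv CI Adm Fun Ch)

noncomputable section

lemma inc_eq {X Y : Type*} (s : X → Fin 3 → ℝ) (t : Y → Fin 3 → ℝ) :
    (fun x ν => s x ⬝ᵥ t ν = 0) = H464.Inc s t := by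
  funext x ν
  rw [H464.Inc, dotProduct, Fin.sum_univ_three, mul_comm (s x 0), mul_comm (s x 1),
    mul_comm (s x 2)]

/-- the chart form (helper464, helper361, helper175, helper604) -/
theorem kakStmt (K : Type) [NormedAddCommGroup K] [InnerProductSpace ℂ K] [CompleteSpace K] :
    KakStmt K := by
  intro C₁ hC₁
  refine ⟨H464.kakC C₁, H464.kakC_nonneg (by linarith), ?_⟩
  intro s t hs ht hs0 ht0 Pb Pc Ll Lm hPb hPc hLl hLm h1 h2 h3 S y F W r N hr hr1 hy hcnt hF hW ξ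
  rw [inc_eq] at h1 h2 h3
  exact H464.kak_chart hs ht hs0 ht0 hPb hPc hLl hLm h1 h2 h3 S y F W (by linarith) hr hr1 hy
    (fun n => hcnt n _ (Finset.filter_subset _ _) fun k hk => (Finset.mem_filter.1 hk).2) hF hW ξ

lemma nm_cont : Continuous fun g : SD.G3 ℝ => SD.nm g := by
  unfold SD.nm
  refine Continuous.norm (continuous_pi fun i => continuous_pi fun j => ?_)
  exact continuous_subtype_val.matrix_elem i j

/-- a subgroup with finitely many elements in each ball is discrete -/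
lemma discrete_of {H : Subgroup (SD.G3 ℝ)} (h : ∀ C : ℝ, {g : H | SD.nm g.1 ≤ C}.Finite) :
    DiscreteTopology H := by
  refine discreteTopology_of_isOpen_singleton_one ?_
  set U : Set H := {g : H | SD.nm g.1 < SD.nm (1 : SD.G3 ℝ) + 1} with hU
  have hUo : IsOpen U := isOpen_lt (nm_cont.comp continuous_subtype_val) continuous_const
  have hUf : U.Finite := (h (SD.nm (1 : SD.G3 ℝ) + 1)).subset fun g hg => by
    have h1 : SD.nm g.1 < SD.nm (1 : SD.G3 ℝ) + 1 := hg
    exact h1.le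
  have hcl : IsClosed (U \ {1}) := (hUf.subset Set.sdiff_subset).isClosed
  have e : ({1} : Set H) = U \ (U \ {1}) := by
    ext g
    constructor
    · rintro rfl
      refine ⟨?_, fun h' => h'.2 rfl⟩
      change SD.nm ((1 : H) : SD.G3 ℝ) < _
      rw [Subgroup.coe_one]
      linarith
    · rintro ⟨h1, h2⟩
      by_contra hne
      exact h2 ⟨h1, hne⟩
  rw [e]
  exact hUo.sdiff hcl

/-- **[D-NJ]** -/
theorem njStmt : SD.NJStmt ℝ := by
  classical
  intro Γ K _ _ _ _ q hfin b c l m s1 s2 s3 c1 c2 c3 R A f h hf hAh hAf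
  have hrange : ∀ C : ℝ, {g : q.range | SD.nm g.1 ≤ C}.Finite := by
    intro C
    have := (hfin C).image q.rangeRestrict
    refine this.subset ?_
    rintro ⟨g, γ, rfl⟩ hg
    exact ⟨γ, hg, rfl⟩
  have hd : DiscreteTopology q.range := discrete_of hrange
  have hd' : DiscreteTopology q.range.subtype.range := by
    rw [Subgroup.range_subtype]; exact hd
  obtain ⟨T, hT, C, hC⟩ := nj q.range.subtype Subtype.val_injective (kakStmt K) b c l m
    s1 c1 s2 c2 s3 c3 f h hf (closure A) isClosed_closure hAf hAh R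
  have hker : {γ : Γ | q γ = 1}.Finite :=
    (hfin (SD.nm (1 : SD.G3 ℝ))).subset fun γ hγ => by
      change SD.nm (q γ) ≤ _
      rw [show q γ = 1 from hγ]
  set M : ℕ := hker.toFinset.card with hM
  refine ⟨T, hT, M * (|C| * 32), fun J hJ S hS ξ => ?_⟩
  set a : SD.G3 ℝ → ℝ := fun g => ‖m (SD.act (SD.tau ℝ g)⁻¹ h) (b (SD.act g⁻¹ f) ξ)‖ ^ 2 with ha
  have ha0 : ∀ g, 0 ≤ a g := fun g => by positivity
  have hterm : ∀ γ ∈ S, ‖m (SD.act (SD.tau ℝ (q γ)⁻¹) h) (b (SD.act (q γ)⁻¹ f) ξ)‖ ^ 2 =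
      a (q.rangeRestrict γ).1 := by
    intro γ _
    rw [map_inv]
    rfl
  rw [Finset.sum_congr rfl hterm]
  have hfib : ∑ γ ∈ S, a (q.rangeRestrict γ).1 ≤
      M * ∑ g ∈ S.image q.rangeRestrict, a g.1 := by
    rw [← Finset.sum_fiberwise_of_maps_to (g := q.rangeRestrict)
      (fun γ hγ => Finset.mem_image_of_mem _ hγ), Finset.mul_sum]
    refine Finset.sum_le_sum fun g hg => ?_
    obtain ⟨γ₀, hγ₀, rfl⟩ := Finset.mem_image.1 hg
    have hcard : (S.filter fun γ => q.rangeRestrict γ = q.rangeRestrict γ₀).card ≤ M := by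
      refine Finset.card_le_card_of_injOn (fun γ => γ₀⁻¹ * γ) ?_ ?_
      · intro γ hγ
        have h1 : q.rangeRestrict γ = q.rangeRestrict γ₀ := (Finset.mem_filter.1 hγ).2
        have h2 : q γ = q γ₀ := congrArg Subtype.val h1
        rw [Finset.mem_coe, Set.Finite.mem_toFinset]
        change q (γ₀⁻¹ * γ) = 1
        rw [map_mul, map_inv, h2, inv_mul_cancel]
      · intro γ _ γ' _ h3
        exact mul_left_cancel h3
    calc ∑ γ ∈ S with q.rangeRestrict γ = q.rangeRestrict γ₀, a (q.rangeRestrict γ).1 =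
        ∑ γ ∈ S with q.rangeRestrict γ = q.rangeRestrict γ₀, a (q.rangeRestrict γ₀).1 := by
          refine Finset.sum_congr rfl fun γ hγ => ?_
          rw [(Finset.mem_filter.1 hγ).2]
      _ = (S.filter fun γ => q.rangeRestrict γ = q.rangeRestrict γ₀).card *
          a (q.rangeRestrict γ₀).1 := by rw [Finset.sum_const, nsmul_eq_mul]
      _ ≤ M * a (q.rangeRestrict γ₀).1 := by
          gcongr
  have hAtt : ∀ g : SD.G3 ℝ, SD.Att T A g → SD.Att T (closure A) g := by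
    rintro g ⟨v, φ, hv, h1, h2⟩
    exact ⟨v, φ, hv, subset_closure h1, h2⟩
  have key := hC ⌈J⌉₊ (S.image q.rangeRestrict) (by
    intro g hg
    obtain ⟨γ, hγ, rfl⟩ := Finset.mem_image.1 hg
    obtain ⟨h1, h2, h3⟩ := hS γ hγ
    refine ⟨h1, hAtt _ h2, ?_⟩
    change SD.nm (q γ) ≤ _
    have h4 : SD.nm (q γ) ≤ Real.exp J := by
      rcases le_or_gt (SD.nm (q γ)) 0 with h5 | h5
      · exact h5.trans (Real.exp_pos _).le
      · exact (Real.log_le_iff_le_exp h5).1 h3
    exact h4.trans (Real.exp_le_exp.2 (Nat.le_ceil J))) ξ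
  have hJ5 : (1 + (⌈J⌉₊ : ℝ)) ^ 5 ≤ 32 * (1 + J) ^ 6 := by
    have h5 : (⌈J⌉₊ : ℝ) ≤ J + 1 := (Nat.ceil_lt_add_one hJ).le
    have h6 : (1 : ℝ) ≤ 1 + J := by linarith
    calc (1 + (⌈J⌉₊ : ℝ)) ^ 5 ≤ (2 * (1 + J)) ^ 5 := by
          gcongr
          linarith
      _ = 32 * (1 + J) ^ 5 := by ring
      _ ≤ 32 * (1 + J) ^ 6 := by
          have := pow_le_pow_right₀ h6 (show 5 ≤ 6 by norm_num)
          linarith
  calc ∑ γ ∈ S, a (q.rangeRestrict γ).1 ≤ M * ∑ g ∈ S.image q.rangeRestrict, a g.1 := hfib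
    _ ≤ M * (C * (1 + (⌈J⌉₊ : ℝ)) ^ 5 * ‖ξ‖ ^ 2) := mul_le_mul_of_nonneg_left key (by positivity)
    _ ≤ M * (|C| * (32 * (1 + J) ^ 6) * ‖ξ‖ ^ 2) := by
        have := le_abs_self C
        gcongr
    _ = _ := by ring

end

end Vale.Agent.P092.H589.KT
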