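import Vale.Agent.P092.H589.K2z

/-!
P092, TEAM N, block [N-K2] (helper589): **the near-wall estimate** `k2` (point Whitney
decomposition over the zoomed steps).
-/

set_option linter.unusedSectionVars false

namespace Vale.Agent.P092.H589.K2

open Finset Matrix Vale.Agent.P092.H589.Mu
open Vale.Agent.P092.H464 (Pv CI)
open Vale.Agent.P092.H820 (wd)
open Vale.Agent.P092.H87.N (cn)
open Vale.Agent.P092.H835.PlF (w3 Alt sq sq_wd alt_wd alt_sq)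
open Vale.Agent.P092.H835.NF

variable {K : Type} [NormedAddCommGroup K] [InnerProductSpace ℂ K] [CompleteSpace K]
variable {𝕜 : Type} [NontriviallyNormedField 𝕜] [ProperSpace 𝕜] [MeasurableSpace 𝕜] [BorelSpace 𝕜]
variable {ι : Type} [Fintype ι] [DecidableEq ι]

theorem KD.mono {C C' : ℝ} {φ : (ι × ι → 𝕜) → ℂ} {X Y : Type} [MeasurableSpace X]
    [MeasurableSpace Y] {s : X → ι → 𝕜} {p : Y → ι × ι → 𝕜} {Inc : X → Y → Prop}
    {Pb Pz : Set X → (K →L[ℂ] K)} {Ls Ln : Set Y → (K →L[ℂ] K)} {κ : Type} {S : Finset κ} {i : ι}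
    {η : κ → ι → 𝕜} {ϖ : κ → 𝕜} {A A' : κ → Matrix ι ι 𝕜} {r : ℝ} {B : κ → Set X}
    {E W : κ → (K →L[ℂ] K)} {F : κ → Y → ℂ} {N : ℝ}
    (h : KD K C φ s p Inc Pb Pz Ls Ln S i η ϖ A A' r B E W F N) (hC : C ≤ C') :
    KD K C' φ s p Inc Pb Pz Ls Ln S i η ϖ A A' r B E W F N where
  ms := h.ms
  mp := h.mp
  ns := h.ns
  np := h.np
  al := h.al
  ic := h.ic
  pb := h.pb
  pz := h.pz
  ls := h.ls
  ln := h.ln
  bn := h.bn
  zn := h.zn
  zs := h.zs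
  r0 := h.r0
  ei := h.ei
  el := fun k hk => (h.el k hk).trans hC
  wl := fun k hk => (h.wl k hk).trans (mul_le_mul_of_nonneg_right hC (norm_nonneg _))
  wu := fun k hk => (h.wu k hk).trans (mul_le_mul_of_nonneg_right hC h.r0.le)
  aa := h.aa
  al1 := fun k hk a b => (h.al1 k hk a b).trans hC
  al2 := fun k hk a b => (h.al2 k hk a b).trans hC
  mb := h.mb
  bi := fun k hk x hx => ⟨(h.bi k hk x hx).1,
    (h.bi k hk x hx).2.trans (mul_le_mul_of_nonneg_right hC h.r0.le)⟩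
  mi := h.mi
  n0 := h.n0
  eb := h.eb
  en := h.en
  cap := h.cap
  ff := h.ff
  mf := h.mf
  op := h.op
  wz := h.wz

lemma eta_close {z η η' : ι → 𝕜} {i : ι} {C δ : ℝ} (hz : ‖z‖ = 1) (hC : 1 ≤ C) (h1 : ‖η‖ ≤ C)
    (h2 : ‖η'‖ ≤ C) (d1 : ‖z - z i • η‖ ≤ δ) (d2 : ‖z - z i • η'‖ ≤ δ) :
    ‖η - η'‖ ≤ 4 * C * δ := by
  have hC0 : 0 ≤ C := zero_le_one.trans hC
  rcases le_or_gt δ (1 / 2) with hδ | hδ
  · have h3 : 1 ≤ 2 * C * ‖z i‖ := by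
      have e : z = (z - z i • η) + z i • η := by abel
      have h4 : ‖z‖ ≤ ‖z - z i • η‖ + ‖z i‖ * ‖η‖ := by
        conv_lhs => rw [e]
        exact (norm_add_le _ _).trans (by rw [norm_smul])
      have h5 : ‖z i‖ * ‖η‖ ≤ ‖z i‖ * C := mul_le_mul_of_nonneg_left h1 (norm_nonneg _)
      rw [hz] at h4
      nlinarith
    have h4 : ‖z i‖ * ‖η - η'‖ ≤ 2 * δ := by
      rw [← norm_smul]
      have e : z i • (η - η') = (z - z i • η') - (z - z i • η) := by rw [smul_sub]; abel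
      rw [e]
      exact (norm_sub_le _ _).trans (by linarith)
    calc ‖η - η'‖ = 1 * ‖η - η'‖ := (one_mul _).symm
      _ ≤ 2 * C * ‖z i‖ * ‖η - η'‖ := by gcongr
      _ = 2 * C * (‖z i‖ * ‖η - η'‖) := by ring
      _ ≤ 2 * C * (2 * δ) := by gcongr
      _ = 4 * C * δ := by ring
  · have h3 := norm_sub_le η η'
    nlinarith

/-- the distance to `η` is Lipschitz -/
lemma dist_lip {z z' η : ι → 𝕜} {i : ι} {C : ℝ} (h1 : ‖η‖ ≤ C) :
    ‖z - z i • η‖ ≤ ‖z' - z' i • η‖ + (1 + C) * ‖z - z'‖ := by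
  have e : z - z i • η = (z' - z' i • η) + ((z - z') - (z - z') i • η) := by
    rw [Pi.sub_apply, sub_smul]; abel
  rw [e]
  refine (norm_add_le _ _).trans (add_le_add le_rfl ?_)
  refine (norm_sub_le _ _).trans ?_
  rw [norm_smul]
  have h2 : ‖(z - z') i‖ ≤ ‖z - z'‖ := norm_le_pi_norm (z - z') i
  have h3 : ‖(z - z') i‖ * ‖η‖ ≤ ‖z - z'‖ * C := mul_le_mul h2 h1 (norm_nonneg _) (norm_nonneg _)
  linarith

lemma minor_le {z η : ι → 𝕜} {i : ι} {C δ : ℝ} (h1 : ‖η‖ ≤ C) (hd : ‖z - z i • η‖ ≤ δ) (a b : ι) :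
    ‖η a * z b - z a * η b‖ ≤ 2 * C * δ := by
  have hC0 : 0 ≤ C := (norm_nonneg _).trans h1
  have e : η a * z b - z a * η b = η a * (z - z i • η) b - (z - z i • η) a * η b := by
    simp only [Pi.sub_apply, Pi.smul_apply, smul_eq_mul]; ring
  rw [e]
  refine (norm_sub_le _ _).trans ?_
  rw [norm_mul, norm_mul]
  have a1 : ∀ a, ‖η a‖ ≤ C := fun a => (norm_le_pi_norm η a).trans h1
  have a2 : ∀ a, ‖(z - z i • η) a‖ ≤ δ := fun a => (norm_le_pi_norm _ a).trans hd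
  have hδ : 0 ≤ δ := (norm_nonneg _).trans hd
  have b1 := mul_le_mul (a1 a) (a2 b) (norm_nonneg _) hC0
  have b2 := mul_le_mul (a2 a) (a1 b) (norm_nonneg _) hδ
  linarith

lemma cs_card {κ : Type} (T : Finset κ) (y : κ → K) :
    ‖∑ t ∈ T, y t‖ ^ 2 ≤ T.card * ∑ t ∈ T, ‖y t‖ ^ 2 := by
  have h1 : ‖∑ t ∈ T, y t‖ ^ 2 ≤ (∑ t ∈ T, ‖y t‖) ^ 2 :=
    pow_le_pow_left₀ (norm_nonneg _) (norm_sum_le _ _) 2
  exact h1.trans (sq_sum_le_card_mul_sum_sq)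

/-- one point cell, at the scale `(1 / 2) ^ m` -/
theorem cellstep (cl : Cells 𝕜) {φ : (ι × ι → 𝕜) → ℂ} (hφ : Tame K φ) (C₁ : ℝ) (hC₁ : 1 ≤ C₁)
    (U : ℝ) (hU : 1 ≤ U) : ∃ C : ℝ, 0 ≤ C ∧ ∀ (X Y : Type) [MeasurableSpace X] [MeasurableSpace Y]
      (s : X → ι → 𝕜) (p : Y → ι × ι → 𝕜) (Inc : X → Y → Prop) (Pb Pz : Set X → (K →L[ℂ] K))
      (Ls Ln : Set Y → (K →L[ℂ] K)) (κ : Type) (S : Finset κ) (i : ι) (η : κ → ι → 𝕜) (ϖ : κ → 𝕜)
      (A A' : κ → Matrix ι ι 𝕜) (r : ℝ) (B : κ → Set X) (E W : κ → (K →L[ℂ] K)) (F : κ → Y → ℂ)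
      (N : ℝ), KD K C₁ φ s p Inc Pb Pz Ls Ln S i η ϖ A A' r B E W F N →
      ∀ ml m : ℕ, (1 / 2) ^ (ml + 1) ≤ r → r ≤ (1 / 2) ^ m → ∀ Z : Set X, MeasurableSet Z →
      (∀ k ∈ S, ∀ z ∈ Z, ‖s z - s z i • η k‖ ≤ U * (1 / 2) ^ m) →
      ((1 / 2) ^ m ≤ 2 * r ∨
        ∀ k ∈ S, ∀ z ∈ Z, (1 + C₁) * (1 / 2) ^ m ≤ ‖s z - s z i • η k‖) →
      ∀ v, ∑ k ∈ S, ‖E k (W k (Pz Z v))‖ ^ 2 ≤ (C * (ml + 2) * N) ^ 2 * ‖Pz Z v‖ ^ 2 := by
  classical
  obtain ⟨τ, hτ⟩ := NormedField.exists_one_lt_norm 𝕜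
  have hτ0 : 0 < ‖τ‖ := one_pos.trans hτ
  have hC0 : 0 ≤ C₁ := zero_le_one.trans hC₁
  obtain ⟨Jt, hJt⟩ : ∃ Jt : ℕ, ‖τ‖ < 2 ^ Jt := pow_unbounded_of_one_lt _ one_lt_two
  set C₂ : ℝ := C₁ + 4 * C₁ * U + U + 2 * ‖τ‖ with hC₂
  have hC₂1 : C₁ ≤ C₂ := by
    have : 0 ≤ 4 * C₁ * U + U + 2 * ‖τ‖ := by positivity
    linarith
  obtain ⟨CZ, hCZ0, hCZ⟩ := zstep cl hφ C₂ (hC₁.trans hC₂1)
  refine ⟨CZ * (Jt + 1), by positivity, ?_⟩
  intro X Y _ _ s p Inc Pb Pz Ls Ln κ S i η ϖ A A' r B E W F N h ml m hml hm Z hZ hnear hsep v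
  rcases S.eq_empty_or_nonempty with hS | ⟨k0, hk0⟩
  · rw [hS, sum_empty]; positivity
  rcases Z.eq_empty_or_nonempty with hZe | ⟨z0, hz0⟩
  · rw [hZe, h.pz.empty]; simp
  obtain ⟨ρ, hρ0, hρ1, hρ2⟩ := exists_scale hτ (show (0 : ℝ) < (1 / 2) ^ m by positivity)
  have hp : (0 : ℝ) < (1 / 2) ^ m := by positivity
  have hb1 : U * (1 / 2) ^ m ≤ C₂ * ‖ρ‖ := by
    have : U ≤ C₂ := by
      have : 0 ≤ C₁ + 4 * C₁ * U + 2 * ‖τ‖ := by positivity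
      linarith
    exact mul_le_mul this hρ1 hp.le (by linarith)
  have hfin := hCZ X Y s p Inc Pb Pz Ls Ln κ S i η ϖ A A' r B E W F N (h.mono hC₂1) (η k0) ρ
    (h.ei k0 hk0) ((h.el k0 hk0).trans hC₂1) hρ0 ?_ ?_ (ml + 1 + Jt) ?_ Z hZ ?_ ?_ v
  · refine hfin.trans ?_
    have hN := h.n0
    have h1 : (((ml + 1 + Jt : ℕ) : ℝ) + 1) ≤ (Jt + 1) * (ml + 2) := by
      push_cast
      nlinarith [mul_nonneg (Nat.cast_nonneg (α := ℝ) ml) (Nat.cast_nonneg (α := ℝ) Jt),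
        Nat.cast_nonneg (α := ℝ) ml, Nat.cast_nonneg (α := ℝ) Jt]
    have h2 : CZ * (((ml + 1 + Jt : ℕ) : ℝ) + 1) * N ≤ CZ * (Jt + 1) * (ml + 2) * N := by
      calc CZ * (((ml + 1 + Jt : ℕ) : ℝ) + 1) * N ≤ CZ * ((Jt + 1) * (ml + 2)) * N := by gcongr
        _ = _ := by ring
    exact mul_le_mul_of_nonneg_right (pow_le_pow_left₀ (by positivity) h2 2) (sq_nonneg _)
  · intro k hk
    have h1 := eta_close (nrm_one (h.ns z0)) hC₁ (h.el k hk) (h.el k0 hk0) (hnear k hk z0 hz0)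
      (hnear k0 hk0 z0 hz0)
    refine h1.trans ?_
    have h2 : 4 * C₁ * U ≤ C₂ := by
      have : 0 ≤ C₁ + U + 2 * ‖τ‖ := by positivity
      linarith
    calc 4 * C₁ * (U * (1 / 2) ^ m) = 4 * C₁ * U * (1 / 2) ^ m := by ring
      _ ≤ C₂ * ‖ρ‖ := mul_le_mul h2 hρ1 hp.le (by linarith)
  · calc r ≤ 1 * ‖ρ‖ := by rw [one_mul]; exact hm.trans hρ1
      _ ≤ C₂ * ‖ρ‖ := mul_le_mul_of_nonneg_right (hC₁.trans hC₂1) (norm_nonneg _)
  · have h1 : ((1 : ℝ) / 2) ^ m ≤ 1 := pow_le_one₀ (by norm_num) (by norm_num)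
    have h2 : ‖ρ‖ ≤ 2 ^ Jt := by
      calc ‖ρ‖ ≤ ‖τ‖ * (1 / 2) ^ m := hρ2
        _ ≤ ‖τ‖ * 1 := by gcongr
        _ ≤ 2 ^ Jt := by rw [mul_one]; exact hJt.le
    have h4 : ((1 : ℝ) / 2) ^ Jt * 2 ^ Jt = 1 := by rw [← mul_pow]; norm_num
    calc ((1 : ℝ) / 2) ^ (ml + 1 + Jt) * ‖ρ‖ ≤ (1 / 2) ^ (ml + 1 + Jt) * 2 ^ Jt := by gcongr
      _ = (1 / 2) ^ (ml + 1) * ((1 / 2) ^ Jt * 2 ^ Jt) := by rw [pow_add _ (ml + 1)]; ring
      _ = (1 / 2) ^ (ml + 1) := by rw [h4, mul_one]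
      _ ≤ r := hml
  · intro k hk z hz
    exact (hnear k hk z hz).trans hb1
  · rcases hsep with h1 | h1
    · left
      have h2 : 2 * ‖τ‖ ≤ C₂ := by
        have : 0 ≤ C₁ + 4 * C₁ * U + U := by positivity
        linarith
      calc ‖ρ‖ ≤ ‖τ‖ * (1 / 2) ^ m := hρ2
        _ ≤ ‖τ‖ * (2 * r) := by gcongr
        _ = 2 * ‖τ‖ * r := by ring
        _ ≤ C₂ * r := mul_le_mul_of_nonneg_right h2 h.r0.le
    · right
      intro k hk x hx z hz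
      obtain ⟨hx1, hx2⟩ := h.bi k hk x hx
      have h2 := h1 k hk z hz
      have hzi : ‖s z i‖ ≤ 1 := (norm_le_pi_norm _ i).trans (h.ns z).1
      have h3 : (1 / 2) ^ m ≤ ‖s z - (s z i / s x i) • s x‖ := by
        have e : s z - s z i • η k
            = (s z - (s z i / s x i) • s x) + s z i • ((s x i)⁻¹ • s x - η k) := by
          rw [smul_sub, smul_smul, div_eq_mul_inv]; abel
        have h4 : ‖s z - s z i • η k‖ ≤ ‖s z - (s z i / s x i) • s x‖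
            + ‖s z i‖ * ‖(s x i)⁻¹ • s x - η k‖ := by
          conv_lhs => rw [e]
          exact (norm_add_le _ _).trans (by rw [norm_smul])
        have h5 : ‖s z i‖ * ‖(s x i)⁻¹ • s x - η k‖ ≤ 1 * (C₁ * r) :=
          mul_le_mul hzi hx2 (norm_nonneg _) zero_le_one
        have h6 : C₁ * r ≤ C₁ * (1 / 2) ^ m := mul_le_mul_of_nonneg_left hm hC0
        linarith
      have h7 : ‖τ‖ ≤ C₂ := by
        have : 0 ≤ C₁ + 4 * C₁ * U + U + ‖τ‖ := by positivity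
        linarith
      calc ‖ρ‖ ≤ ‖τ‖ * (1 / 2) ^ m := hρ2
        _ ≤ C₂ * ‖s z - (s z i / s x i) • s x‖ := mul_le_mul h7 h3 hp.le (by linarith)

/-- **the near-wall estimate, structure form** -/
theorem k2core (cl : Cells 𝕜) {φ : (ι × ι → 𝕜) → ℂ} (hφ : Tame K φ) (C₁ : ℝ) (hC₁ : 1 ≤ C₁) :
    ∃ C : ℝ, 0 ≤ C ∧ ∀ (X Y : Type) [MeasurableSpace X] [MeasurableSpace Y]
      (s : X → ι → 𝕜) (p : Y → ι × ι → 𝕜) (Inc : X → Y → Prop) (Pb Pz : Set X → (K →L[ℂ] K))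
      (Ls Ln : Set Y → (K →L[ℂ] K)) (κ : Type) (S : Finset κ) (i : ι) (η : κ → ι → 𝕜) (ϖ : κ → 𝕜)
      (A A' : κ → Matrix ι ι 𝕜) (r : ℝ) (B : κ → Set X) (E W : κ → (K →L[ℂ] K)) (F : κ → Y → ℂ)
      (N : ℝ), KD K C₁ φ s p Inc Pb Pz Ls Ln S i η ϖ A A' r B E W F N → r ≤ 1 →
      Cap S (fun k => E k * W k) (C * (1 + Real.log (1 / r)) ^ 2 * N) := by
  classical
  have hC0 : 0 ≤ C₁ := zero_le_one.trans hC₁
  set U : ℝ := 4 * (1 + C₁) with hU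
  obtain ⟨CZ, hCZ0, hCZ⟩ := cellstep cl hφ C₁ hC₁ U (by rw [hU]; linarith)
  obtain ⟨M, hM⟩ := code_count (c := cl) (ι := ι) (2 * C₁ * U) C₁
  refine ⟨Real.sqrt M * CZ * 4, by positivity, ?_⟩
  intro X Y _ _ s p Inc Pb Pz Ls Ln κ S i η ϖ A A' r B E W F N h hr1 v
  -- the last level
  have hex : ∃ m : ℕ, (1 / 2 : ℝ) ^ (m + 1) < r := by
    obtain ⟨m, hm⟩ := exists_pow_lt_of_lt_one h.r0 (show (1 / 2 : ℝ) < 1 by norm_num)
    refine ⟨m, lt_of_le_of_lt ?_ hm⟩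
    rw [pow_succ]
    have : (0 : ℝ) < (1 / 2) ^ m := by positivity
    linarith
  set ml := Nat.find hex with hml
  have hml1 : (1 / 2 : ℝ) ^ (ml + 1) < r := Nat.find_spec hex
  have hml2 : r ≤ (1 / 2) ^ ml := by
    rcases Nat.eq_zero_or_pos ml with h0 | h0
    · rw [h0, pow_zero]; exact hr1
    · obtain ⟨m', hm'⟩ : ∃ m', ml = m' + 1 := ⟨ml - 1, by omega⟩
      have := Nat.find_min hex (show m' < ml by omega)
      rw [hm']
      exact not_lt.1 this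
  have hpowle : ∀ a b : ℕ, a ≤ b → (1 / 2 : ℝ) ^ b ≤ (1 / 2) ^ a := fun a b hab =>
    pow_le_pow_of_le_one (by norm_num) (by norm_num) hab
  -- codes
  have hcodes : ∀ m : ℕ, ∃ 𝒞 : Finset (ι → cl.T), ∀ x, code cl m (s x) ∈ 𝒞 := by
    intro m
    obtain ⟨M', hM'⟩ := code_count_ball (c := cl) (ι := ι) (2 ^ m)
    obtain ⟨𝒞, _, h𝒞⟩ := hM' m 0
    refine ⟨𝒞, fun x => h𝒞 _ ?_⟩
    rw [sub_zero, ← mul_pow]
    norm_num
    exact (h.ns x).1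
  choose 𝒞 h𝒞 using hcodes
  set cell : ℕ → (ι → cl.T) → Set X := fun m t => {x | code cl m (s x) = t} with hcell
  have hcm : ∀ m t, MeasurableSet (cell m t) := fun m t => measurable_code h.ms m t
  have hcd : ∀ m t t', t ≠ t' → Disjoint (cell m t) (cell m t') := fun m t t' htt =>
    Set.disjoint_left.2 fun x h1 h2 => htt ((h1 : code cl m (s x) = t).symm.trans h2)
  set lev : ℕ → ℕ := fun j => min j ml with hlev
  -- good cells
  set P : κ → ℕ → X → Prop := fun k m x => m ≤ ml →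
    ∀ x', code cl m (s x') = code cl m (s x) → (1 + C₁) * (1 / 2) ^ m ≤ ‖s x' - s x' i • η k‖
    with hP
  have P_congr : ∀ k j m x x', m ≤ j → code cl (lev j) (s x') = code cl (lev j) (s x) →
      (P k m x ↔ P k m x') := by
    intro k j m x x' hmj hc
    simp only [hP]
    refine forall_congr' fun hm => ?_
    rw [code_nest_le (show m ≤ lev j from le_min hmj hm) hc]
  set Q : κ → ℕ → X → Prop := fun k j x => P k j x ∧ ∀ m' < j, ¬ P k m' x with hQ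
  have Q_congr : ∀ k j x x', code cl (lev j) (s x') = code cl (lev j) (s x) → Q k j x →
      Q k j x' := by
    intro k j x x' hc hx
    refine ⟨(P_congr k j j x x' le_rfl hc).1 hx.1, fun m' hm' hg => hx.2 m' hm' ?_⟩
    exact (P_congr k j m' x x' hm'.le hc).2 hg
  have Q_ex : ∀ k x, ∃ j ∈ range (ml + 2), Q k j x := by
    intro k x
    have hlast : P k (ml + 1) x := fun hcon => absurd hcon (by omega)
    have hJg : ∃ m, P k m x := ⟨ml + 1, hlast⟩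
    refine ⟨Nat.find hJg, ?_, Nat.find_spec hJg, fun m' hm' => Nat.find_min hJg hm'⟩
    rw [mem_range]
    have := Nat.find_min' hJg hlast
    omega
  have Q_uniq : ∀ k m m' x, Q k m x → Q k m' x → m = m' := by
    intro k m m' x h1 h2
    rcases lt_trichotomy m m' with h3 | h3 | h3
    · exact absurd h1.1 (h2.2 m h3)
    · exact h3
    · exact absurd h2.1 (h1.2 m' h3)
  have Q_up : ∀ k ∈ S, ∀ j x, Q k j x → ‖s x - s x i • η k‖ ≤ U * (1 / 2) ^ (lev j) := by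
    intro k hk j x hx
    rcases Nat.eq_zero_or_pos j with h0 | h0
    · have e : lev j = 0 := by simp [hlev, h0]
      rw [e, pow_zero, mul_one]
      have h1 := dist_lip (z := s x) (z' := 0) (i := i) (h.el k hk)
      have h2 := (h.ns x).1
      simp only [sub_zero, Pi.zero_apply, zero_smul, norm_zero, zero_add] at h1
      nlinarith
    · obtain ⟨j', rfl⟩ : ∃ j', j = j' + 1 := ⟨j - 1, by omega⟩
      have h1 := hx.2 j' (by omega)
      simp only [hP, not_forall, not_le] at h1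
      obtain ⟨_, x', h2, h3⟩ := h1
      have h4 : ‖s x - s x'‖ ≤ (1 / 2) ^ j' := code_small h2.symm
      have h5 := dist_lip (z := s x) (z' := s x') (i := i) (h.el k hk)
      have h6 : (1 / 2 : ℝ) ^ j' ≤ 2 * (1 / 2) ^ (lev (j' + 1)) := by
        have h7 := hpowle (lev (j' + 1)) (j' + 1) (min_le_left _ _)
        rw [pow_succ] at h7
        linarith
      have h8 : (1 + C₁) * ‖s x - s x'‖ ≤ (1 + C₁) * (1 / 2) ^ j' := by gcongr
      have h9 : ‖s x - s x i • η k‖ ≤ 2 * (1 + C₁) * (1 / 2) ^ j' := by linarith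
      calc _ ≤ 2 * (1 + C₁) * (1 / 2) ^ j' := h9
        _ ≤ 2 * (1 + C₁) * (2 * (1 / 2) ^ (lev (j' + 1))) := by gcongr
        _ = _ := by rw [hU]; ring
  set 𝒲 : κ → ℕ → Finset (ι → cl.T) := fun k j =>
    (𝒞 (lev j)).filter fun t => ∃ x, code cl (lev j) (s x) = t ∧ Q k j x with h𝒲
  have h𝒲c : ∀ k j t, t ∈ 𝒲 k j → ∀ x ∈ cell (lev j) t, Q k j x := by
    intro k j t ht x hx
    obtain ⟨x', h1, h2⟩ := (mem_filter.1 ht).2
    exact Q_congr k j x' x ((hx : code cl (lev j) (s x) = t).trans h1.symm) h2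
  have h𝒲card : ∀ k ∈ S, ∀ j, (𝒲 k j).card ≤ M := by
    intro k hk j
    obtain ⟨Fs, hFs1, hFs2⟩ := hM (lev j) (η k) (h.el k hk) ⟨i, h.ei k hk⟩
    refine (Finset.card_le_card fun t ht => ?_).trans hFs1
    obtain ⟨x, h1, h2⟩ := (mem_filter.1 ht).2
    rw [← h1]
    refine hFs2 (s x) (h.ns x) fun a b => ?_
    have := minor_le (h.el k hk) (Q_up k hk j x h2) a b
    calc _ ≤ _ := this
      _ = _ := by ring
  -- decomposition of the identity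
  have hdec : ∀ k ∈ S, (1 : K →L[ℂ] K)
      = ∑ j ∈ range (ml + 2), ∑ t ∈ 𝒲 k j, Pz (cell (lev j) t) := by
    intro k _
    have hu : ∀ j, {x | Q k j x} = ⋃ t ∈ 𝒲 k j, cell (lev j) t := by
      intro j
      ext x
      simp only [Set.mem_iUnion, exists_prop]
      constructor
      · intro hx
        exact ⟨code cl (lev j) (s x), mem_filter.2 ⟨h𝒞 _ x, x, rfl, hx⟩, rfl⟩
      · rintro ⟨t, ht, hx⟩; exact h𝒲c k j t ht x hx
    have h1 : ∀ j, Pz {x | Q k j x} = ∑ t ∈ 𝒲 k j, Pz (cell (lev j) t) := by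
      intro j
      rw [hu j]
      exact h.pz.sum _ _ (fun t _ => hcm _ t) fun t _ t' _ htt => hcd _ t t' htt
    have hm1 : ∀ j, MeasurableSet {x | Q k j x} := by
      intro j
      rw [hu j]
      exact Finset.measurableSet_biUnion _ fun t _ => hcm _ t
    have h2 : (Set.univ : Set X) = ⋃ j ∈ range (ml + 2), {x | Q k j x} := by
      ext x
      simp only [Set.mem_univ, Set.mem_iUnion, exists_prop, true_iff]
      exact Q_ex k x
    rw [← h.pz.univ, h2, h.pz.sum _ _ (fun j _ => hm1 j) fun m _ m' _ hmm =>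
      Set.disjoint_left.2 fun x hx hx' => hmm (Q_uniq k m m' x hx hx')]
    exact sum_congr rfl fun j _ => h1 j
  -- one level
  set x : ℕ → κ → K := fun j k => ∑ t ∈ 𝒲 k j, E k (W k (Pz (cell (lev j) t) v)) with hx
  have hsum : ∀ k ∈ S, (E k * W k) v = ∑ j ∈ range (ml + 2), x j k := by
    intro k hk
    have e : v = ∑ j ∈ range (ml + 2), ∑ t ∈ 𝒲 k j, Pz (cell (lev j) t) v := by
      conv_lhs => rw [← one_apply_eq_self v (F := K →L[ℂ] K), hdec k hk]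
      simp only [_root_.sum_apply]
    change E k (W k v) = _
    conv_lhs => rw [e]
    simp only [map_sum, hx]
  have hN := h.n0
  have hlev1 : ∀ j ∈ range (ml + 2),
      ∑ k ∈ S, ‖x j k‖ ^ 2 ≤ (Real.sqrt M * (CZ * (ml + 2) * N) * ‖v‖) ^ 2 := by
    intro j hj
    have hleft : ∀ k ∈ S, ‖x j k‖ ^ 2
        ≤ M * ∑ t ∈ 𝒲 k j, ‖E k (W k (Pz (cell (lev j) t) v))‖ ^ 2 := by
      intro k hk
      refine (cs_card _ _).trans ?_
      have h1 : ((𝒲 k j).card : ℝ) ≤ M := by exact_mod_cast h𝒲card k hk j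
      gcongr
    have hcellb : ∀ t ∈ 𝒞 (lev j), ∑ k ∈ S.filter (fun k => t ∈ 𝒲 k j),
        ‖E k (W k (Pz (cell (lev j) t) v))‖ ^ 2
          ≤ (CZ * (ml + 2) * N) ^ 2 * ‖Pz (cell (lev j) t) v‖ ^ 2 := by
      intro t _
      refine hCZ X Y s p Inc Pb Pz Ls Ln κ _ i η ϖ A A' r B E W F N (h.sub (filter_subset _ S))
        ml (lev j) hml1.le (hml2.trans (hpowle _ _ (min_le_right _ _))) _ (hcm _ _) ?_ ?_ v
      · intro k hk z hz
        obtain ⟨hkS, hkt⟩ := mem_filter.1 hk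
        exact Q_up k hkS j z (h𝒲c k j t hkt z hz)
      · rcases le_or_gt j ml with hjm | hjm
        · right
          intro k hk z hz
          obtain ⟨hkS, hkt⟩ := mem_filter.1 hk
          have h1 := (h𝒲c k j t hkt z hz).1 hjm z rfl
          have e : lev j = j := min_eq_left hjm
          rw [e]
          exact h1
        · left
          have e : lev j = ml := min_eq_right hjm.le
          rw [e]
          rw [pow_succ] at hml1
          linarith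
    calc ∑ k ∈ S, ‖x j k‖ ^ 2
        ≤ ∑ k ∈ S, M * ∑ t ∈ 𝒲 k j, ‖E k (W k (Pz (cell (lev j) t) v))‖ ^ 2 := sum_le_sum hleft
      _ = M * ∑ t ∈ 𝒞 (lev j), ∑ k ∈ S.filter (fun k => t ∈ 𝒲 k j),
            ‖E k (W k (Pz (cell (lev j) t) v))‖ ^ 2 := by
          rw [← mul_sum]
          congr 1
          have h1 : ∀ k ∈ S, ∑ t ∈ 𝒲 k j, ‖E k (W k (Pz (cell (lev j) t) v))‖ ^ 2
              = ∑ t ∈ 𝒞 (lev j),
                if t ∈ 𝒲 k j then ‖E k (W k (Pz (cell (lev j) t) v))‖ ^ 2 else 0 := by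
            intro k _
            rw [← sum_filter]
            refine sum_congr ?_ fun _ _ => rfl
            ext t
            exact ⟨fun h => mem_filter.2 ⟨(mem_filter.1 h).1, h⟩, fun h => (mem_filter.1 h).2⟩
          rw [sum_congr rfl h1, sum_comm]
          exact sum_congr rfl fun t _ => by rw [sum_filter]
      _ ≤ M * ∑ t ∈ 𝒞 (lev j), (CZ * (ml + 2) * N) ^ 2 * ‖Pz (cell (lev j) t) v‖ ^ 2 := by
          gcongr with t ht
          exact hcellb t ht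
      _ = M * ((CZ * (ml + 2) * N) ^ 2 * ∑ t ∈ 𝒞 (lev j), ‖Pz (cell (lev j) t) v‖ ^ 2) := by
          congr 1
          rw [mul_sum]
      _ ≤ M * ((CZ * (ml + 2) * N) ^ 2 * ‖v‖ ^ 2) := by
          gcongr
          exact h.pz.bessel (𝒞 (lev j)) (cell (lev j)) (fun t _ => hcm _ t)
            (fun t _ t' _ htt => hcd _ t t' htt) _
      _ = (Real.sqrt M * (CZ * (ml + 2) * N) * ‖v‖) ^ 2 := by
          have : (Real.sqrt M) ^ 2 = M := Real.sq_sqrt (Nat.cast_nonneg _)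
          calc (M : ℝ) * ((CZ * (ml + 2) * N) ^ 2 * ‖v‖ ^ 2)
              = (Real.sqrt M) ^ 2 * ((CZ * (ml + 2) * N) ^ 2 * ‖v‖ ^ 2) := by rw [this]
            _ = _ := by ring
  have h1 := mink_sum S (range (ml + 2)) x (fun _ => Real.sqrt M * (CZ * (ml + 2) * N) * ‖v‖)
    (fun _ _ => by positivity) hlev1
  rw [sum_congr rfl fun k hk => by rw [hsum k hk]]
  refine h1.trans ?_
  rw [sum_const, card_range, nsmul_eq_mul, ← mul_pow]
  -- the number of levels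
  have hlog : ((ml + 2 : ℕ) : ℝ) ≤ 2 * (1 + Real.log (1 / r)) := by
    have h2 : (ml : ℝ) * Real.log 2 ≤ Real.log (1 / r) := by
      have h3 : (2 : ℝ) ^ ml ≤ 1 / r := by
        rw [le_div_iff₀ h.r0]
        calc (2 : ℝ) ^ ml * r ≤ 2 ^ ml * (1 / 2) ^ ml := by gcongr
          _ = 1 := by rw [← mul_pow]; norm_num
      have h4 := Real.log_le_log (by positivity) h3
      rwa [Real.log_pow] at h4
    have h5 : (1 / 2 : ℝ) ≤ Real.log 2 := by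
      have := Real.log_two_gt_d9
      linarith
    have h6 : (ml : ℝ) * (1 / 2) ≤ ml * Real.log 2 := by gcongr
    push_cast
    linarith
  have hl0 : (0 : ℝ) ≤ ((ml + 2 : ℕ) : ℝ) := Nat.cast_nonneg _
  refine pow_le_pow_left₀ (by positivity) ?_ 2
  calc ((ml + 2 : ℕ) : ℝ) * (Real.sqrt M * (CZ * (ml + 2) * N) * ‖v‖)
      = Real.sqrt M * CZ * ((ml + 2 : ℕ) : ℝ) ^ 2 * N * ‖v‖ := by push_cast; ring
    _ ≤ Real.sqrt M * CZ * (2 * (1 + Real.log (1 / r))) ^ 2 * N * ‖v‖ := by gcongr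
    _ = Real.sqrt M * CZ * 4 * (1 + Real.log (1 / r)) ^ 2 * N * ‖v‖ := by ring

/-- **k2, the near-wall estimate, bare form** (#6632) -/
theorem k2 (cl : Cells 𝕜) {φ : (ι × ι → 𝕜) → ℂ} (hφ : Tame K φ) (C₁ : ℝ) (hC₁ : 1 ≤ C₁) :
    ∃ C : ℝ, 0 ≤ C ∧ ∀ (X Y : Type) [MeasurableSpace X] [MeasurableSpace Y] (s : X → ι → 𝕜)
      (p : Y → ι × ι → 𝕜), Measurable s → Measurable p → (∀ x, Nrm (s x)) → (∀ y, Nrm (p y)) →
      (∀ y, Alt (p y)) → ∀ (Inc : X → Y → Prop), (∀ x y, Inc x y → w3 (s x) (p y) = 0) →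
      ∀ (Pb Pz : Set X → (K →L[ℂ] K)) (Ls Ln : Set Y → (K →L[ℂ] K)), Pv Pb → Pv Pz → Pv Ls →
      Pv Ln → CI Inc Pb Ln → CI Inc Pz Ln → CI Inc Pz Ls →
      ∀ (κ : Type) (S : Finset κ) (i : ι) (η : κ → ι → 𝕜) (ϖ : κ → 𝕜) (A A' : κ → Matrix ι ι 𝕜)
        (r : ℝ), 0 < r → r ≤ 1 → (∀ k ∈ S, η k i = 1) → (∀ k ∈ S, ‖η k‖ ≤ C₁) →
      (∀ k ∈ S, r ≤ C₁ * ‖ϖ k‖ ∧ ‖ϖ k‖ ≤ C₁ * r) → (∀ k ∈ S, A' k * A k = 1) →
      (∀ k ∈ S, ∀ a b, ‖A k a b‖ ≤ C₁ ∧ ‖A' k a b‖ ≤ C₁) →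
      ∀ (B : κ → Set X), (∀ k ∈ S, MeasurableSet (B k)) →
      (∀ k ∈ S, ∀ x ∈ B k, s x i ≠ 0 ∧ ‖(s x i)⁻¹ • s x - η k‖ ≤ C₁ * r) →
      (∀ k ∈ S, MeasurableSet {y | ∃ x ∈ B k, Inc x y}) →
      ∀ (E W : κ → (K →L[ℂ] K)) (F : κ → Y → ℂ) (N : ℝ), 0 ≤ N →
      (∀ k ∈ S, E k * Pb (B k) = E k) →
      (∀ k ∈ S, ∀ A, MeasurableSet A → E k * Ln A = Ln A * E k) → Cap S E N →
      (∀ k ∈ S, ∀ y, F k y = φ (H835.PlF.sq (A k * Dm i (η k) (ϖ k)) *ᵥ p y)) →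
      (∀ k ∈ S, Measurable (F k)) → (∀ k ∈ S, Opf Ls (F k) (W k)) →
      (∀ k ∈ S, ∀ A, MeasurableSet A → W k * Pz A = Pz A * W k) →
      Cap S (fun k => E k * W k) (C * (1 + Real.log (1 / r)) ^ 2 * N) := by
  obtain ⟨C, hC0, hC⟩ := k2core cl hφ C₁ hC₁
  refine ⟨C, hC0, ?_⟩
  intro X Y _ _ s p ms mp ns np al Inc ic Pb Pz Ls Ln pb pz ls ln bn zn zs κ S i η ϖ A A' r r0 r1
    ei el hw aa hA B mb bi mi E W F N n0 eb en cap ff mf op wz
  exact hC X Y s p Inc Pb Pz Ls Ln κ S i η ϖ A A' r B E W F N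
    ⟨ms, mp, ns, np, al, ic, pb, pz, ls, ln, bn, zn, zs, r0, ei, el, fun k hk => (hw k hk).1,
      fun k hk => (hw k hk).2, aa, fun k hk a b => (hA k hk a b).1,
      fun k hk a b => (hA k hk a b).2, mb, bi, mi, n0, eb, en, cap, ff, mf, op, wz⟩ r1

end Vale.Agent.P092.H589.K2
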