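import Vale.Agent.P092.H789.Sp.CapP
import Vale.Agent.P092.H464.P.BDef

/-!
P092, TEAM P, COUNT_2, piece (A) of #7536 (helper589): **normal form of a near-2-wall element** of
`Sp_4` over a normed field, by the largest `2 × 2` minor.
-/

namespace Vale.Agent.P092.H589.PN

open Matrix
open Vale.Agent.P092.H789.Sp.CapP (JJ)
open Vale.Agent.P092.H464.PW (fa bv dv)

section perm

/-- an equivalence with prescribed values on the first two letters -/
lemma exists_eqv (p q : Fin 4) (h : p ≠ q) :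
    ∃ e : Fin 2 ⊕ Fin 2 ≃ Fin 4, e (Sum.inl 0) = p ∧ e (Sum.inl 1) = q := by
  have h1 : Equiv.swap 0 p q ≠ 0 := by
    intro h0
    have h2 : Equiv.swap 0 p (Equiv.swap 0 p q) = q := Equiv.swap_apply_self 0 p q
    rw [h0, Equiv.swap_apply_left] at h2
    exact h h2
  refine ⟨(finSumFinEquiv : Fin 2 ⊕ Fin 2 ≃ Fin 4).trans
    ((Equiv.swap 1 (Equiv.swap 0 p q)).trans (Equiv.swap 0 p)), ?_, ?_⟩
  · have e0 : (finSumFinEquiv : Fin 2 ⊕ Fin 2 ≃ Fin 4) (Sum.inl 0) = 0 := rfl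
    rw [Equiv.trans_apply, e0, Equiv.trans_apply, Equiv.swap_apply_of_ne_of_ne (by decide) h1.symm,
      Equiv.swap_apply_left]
  · have e0 : (finSumFinEquiv : Fin 2 ⊕ Fin 2 ≃ Fin 4) (Sum.inl 1) = 1 := rfl
    rw [Equiv.trans_apply, e0, Equiv.trans_apply, Equiv.swap_apply_left, Equiv.swap_apply_self]

end perm

section main

variable {k : Type*} [NormedField k]

/-- `2 × 2` minors -/
def mi (g : Matrix (Fin 4) (Fin 4) k) (i i' j j' : Fin 4) : k := g i j * g i' j' - g i j' * g i' j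

lemma JJ_mul_JJ : (JJ * JJ : Matrix (Fin 4) (Fin 4) k) = -1 := by
  ext i j
  fin_cases i <;> fin_cases j <;> simp [JJ, Matrix.mul_apply, Fin.sum_univ_four]

lemma det_JJ : (JJ : Matrix (Fin 4) (Fin 4) k).det = 1 := by
  simp [JJ, Matrix.det_succ_row_zero, Fin.sum_univ_succ, Fin.succAbove]
  ring

/-- the inverse of a symplectic matrix -/
def hi (g : Matrix (Fin 4) (Fin 4) k) : Matrix (Fin 4) (Fin 4) k := -(JJ * gᵀ * JJ)

lemma hi_mul {g : Matrix (Fin 4) (Fin 4) k} (sg : gᵀ * JJ * g = JJ) : hi g * g = 1 := by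
  rw [hi, Matrix.neg_mul, Matrix.mul_assoc, Matrix.mul_assoc, ← Matrix.mul_assoc gᵀ, sg, JJ_mul_JJ,
    neg_neg]

lemma mul_hi {g : Matrix (Fin 4) (Fin 4) k} (sg : gᵀ * JJ * g = JJ) : g * hi g = 1 :=
  mul_eq_one_comm.1 (hi_mul sg)

lemma hi_le {g : Matrix (Fin 4) (Fin 4) k} {M : ℝ} (ug : ∀ i j, ‖g i j‖ ≤ M) (i j : Fin 4) :
    ‖hi g i j‖ ≤ M := by
  rw [hi, Matrix.neg_apply, norm_neg]
  simp only [Matrix.mul_apply, Fin.sum_univ_four, Matrix.transpose_apply]
  fin_cases i <;> fin_cases j <;> simp [JJ, ug]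

/-- **normal form of a near-2-wall element** -/
theorem nf2 {C M : ℝ} (hC : 1 ≤ C) {g : Matrix (Fin 4) (Fin 4) k} (sg : gᵀ * JJ * g = JJ)
    (ug : ∀ i j, ‖g i j‖ ≤ M)
    (hm : ∃ i i' j j', M ^ 2 ≤ C * ‖g i j * g i' j' - g i j' * g i' j‖) :
    ∃ (e : Fin 2 ⊕ Fin 2 ≃ Fin 4) (V : Fin 2 → Fin 2 → k) (c ϖ : k)
      (A : Matrix (Fin 4) (Fin 2 ⊕ Fin 2) k) (A' : Matrix (Fin 2 ⊕ Fin 2) (Fin 4) k),
      (∀ x : Fin 4 → k, g *ᵥ x = c • (A *ᵥ dv 1 ϖ (bv V (x ∘ e)))) ∧ (∀ a b, ‖V a b‖ ≤ 1) ∧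
      A' * A = 1 ∧ (∀ a b, ‖A a b‖ ≤ 4 * C) ∧ (∀ a b, ‖A' a b‖ ≤ 4 * C) ∧ c ≠ 0 ∧ ‖c‖ ≤ M ∧
      M ≤ 2 * C * ‖c‖ ∧ ϖ = (c ^ 2)⁻¹ ∧ 1 ≤ ‖ϖ‖ * M ^ 2 ∧ ‖ϖ‖ * M ^ 2 ≤ 4 * C ^ 2 := by
  classical
  have hC0 : 0 ≤ C := zero_le_one.trans hC
  -- the largest entry and the largest minor
  obtain ⟨⟨i0, j0⟩, -, hmax⟩ := Finset.exists_max_image (Finset.univ : Finset (Fin 4 × Fin 4))
    (fun p => ‖g p.1 p.2‖) ⟨(0, 0), Finset.mem_univ _⟩
  have hent : ∀ i j, ‖g i j‖ ≤ ‖g i0 j0‖ := fun i j => hmax (i, j) (Finset.mem_univ _)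
  obtain ⟨⟨⟨i1, i2⟩, ⟨j1, j2⟩⟩, -, hmax2⟩ := Finset.exists_max_image
    (Finset.univ : Finset ((Fin 4 × Fin 4) × (Fin 4 × Fin 4)))
    (fun p => ‖mi g p.1.1 p.1.2 p.2.1 p.2.2‖) ⟨((0, 0), (0, 0)), Finset.mem_univ _⟩
  have hmin : ∀ i i' j j', ‖mi g i i' j j'‖ ≤ ‖mi g i1 i2 j1 j2‖ := fun i i' j j' =>
    hmax2 ((i, i'), (j, j')) (Finset.mem_univ _)
  set c := g i0 j0 with hc
  set d := mi g i1 i2 j1 j2 with hd
  have hM0 : 0 ≤ M := (norm_nonneg _).trans (ug 0 0)
  have hM : 0 < M := by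
    rcases hM0.lt_or_eq with h | h
    · exact h
    · exfalso
      have h0 : g = 0 := by
        ext i j
        have := ug i j
        rw [← h] at this
        exact norm_le_zero_iff.1 this
      have h1 := congrFun (congrFun sg 0) 3
      rw [h0] at h1
      simp [JJ] at h1
  have hmd : M ^ 2 ≤ C * ‖d‖ := by
    obtain ⟨i, i', j, j', h⟩ := hm
    exact h.trans (mul_le_mul_of_nonneg_left (hmin i i' j j') hC0)
  have hd0 : d ≠ 0 := by
    intro h
    rw [h, norm_zero, mul_zero] at hmd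
    nlinarith [pow_pos hM 2]
  have hdn : 0 < ‖d‖ := norm_pos_iff.2 hd0
  have hcM : M ≤ 2 * C * ‖c‖ := by
    have h1 : ‖d‖ ≤ 2 * ‖c‖ * M := by
      rw [hd, mi]
      refine (norm_sub_le _ _).trans ?_
      rw [norm_mul, norm_mul]
      have a1 := mul_le_mul (hent i1 j1) (ug i2 j2) (norm_nonneg _) (norm_nonneg _)
      have a2 := mul_le_mul (hent i1 j2) (ug i2 j1) (norm_nonneg _) (norm_nonneg _)
      linarith
    have h2 : M * M ≤ 2 * C * ‖c‖ * M := by nlinarith
    exact le_of_mul_le_mul_right h2 hM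
  have hc0 : c ≠ 0 := by
    intro h
    rw [h, norm_zero, mul_zero] at hcM
    linarith
  have hcn : 0 < ‖c‖ := norm_pos_iff.2 hc0
  have hcM' : M / ‖c‖ ≤ 2 * C := by rw [div_le_iff₀ hcn]; exact hcM
  have hMd : M * M / ‖d‖ ≤ C := by rw [div_le_iff₀ hdn]; nlinarith
  have hi12 : i1 ≠ i2 := by
    rintro rfl
    exact hd0 (by rw [hd, mi]; ring)
  have hj12 : j1 ≠ j2 := by
    rintro rfl
    exact hd0 (by rw [hd, mi]; ring)
  obtain ⟨e, he0, he1⟩ := exists_eqv j1 j2 hj12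
  obtain ⟨f, hf0, hf1⟩ := exists_eqv i1 i2 hi12
  -- blocks
  set P : Matrix (Fin 2) (Fin 2) k := Matrix.of fun a b => g (f (Sum.inl a)) (e (Sum.inl b)) with hP
  set Q : Matrix (Fin 2) (Fin 2) k := Matrix.of fun a b => g (f (Sum.inl a)) (e (Sum.inr b)) with hQ
  set R : Matrix (Fin 2) (Fin 2) k := Matrix.of fun a b => g (f (Sum.inr a)) (e (Sum.inl b)) with hR
  set T : Matrix (Fin 2) (Fin 2) k := Matrix.of fun a b => g (f (Sum.inr a)) (e (Sum.inr b)) with hT
  set H1 : Matrix (Fin 2) (Fin 2) k :=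
    Matrix.of fun a b => hi g (e (Sum.inl a)) (f (Sum.inr b)) with hH1
  set H2 : Matrix (Fin 2) (Fin 2) k :=
    Matrix.of fun a b => hi g (e (Sum.inr a)) (f (Sum.inr b)) with hH2
  have hG : g.submatrix f e = fromBlocks P Q R T := by
    ext (a | a) (b | b) <;> rfl
  have hdP : P.det = d := by
    rw [Matrix.det_fin_two, hd, mi]
    simp only [hP, Matrix.of_apply, he0, he1, hf0, hf1]
  set PI : Matrix (Fin 2) (Fin 2) k := d⁻¹ • P.adjugate with hPi
  have hPPi : P * PI = 1 := by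
    rw [hPi, Matrix.mul_smul, Matrix.mul_adjugate, hdP, smul_smul, inv_mul_cancel₀ hd0, one_smul]
  have hPiP : PI * P = 1 := by
    rw [hPi, Matrix.smul_mul, Matrix.adjugate_mul, hdP, smul_smul, inv_mul_cancel₀ hd0, one_smul]
  set V : Matrix (Fin 2) (Fin 2) k := PI * Q with hV
  set U : Matrix (Fin 2) (Fin 2) k := R * PI with hU
  set Sg : Matrix (Fin 2) (Fin 2) k := T - R * V with hSg
  have hPV : P * V = Q := by rw [hV, ← Matrix.mul_assoc, hPPi, Matrix.one_mul]
  have hUP : U * P = R := by rw [hU, Matrix.mul_assoc, hPiP, Matrix.mul_one]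
  have hUQ : U * Q = R * V := by rw [hU, hV, Matrix.mul_assoc]
  -- bounds of `V` and `U`
  have hVle : ∀ a b, ‖V a b‖ ≤ 1 := by
    intro a b
    have key : ‖(P.adjugate * Q) a b‖ ≤ ‖d‖ := by
      fin_cases a
      · have h1 : (P.adjugate * Q) 0 b = mi g i1 i2 (e (Sum.inr b)) j2 := by
          rw [Matrix.adjugate_fin_two, Matrix.mul_apply, Fin.sum_univ_two, mi]
          simp [hP, hQ, he1, hf0, hf1]
          ring
        exact (congrArg norm h1).le.trans (hmin _ _ _ _)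
      · have h1 : (P.adjugate * Q) 1 b = mi g i1 i2 j1 (e (Sum.inr b)) := by
          rw [Matrix.adjugate_fin_two, Matrix.mul_apply, Fin.sum_univ_two, mi]
          simp [hP, hQ, he0, hf0, hf1]
          ring
        exact (congrArg norm h1).le.trans (hmin _ _ _ _)
    rw [hV, hPi, Matrix.smul_mul, Matrix.smul_apply, smul_eq_mul, norm_mul, norm_inv,
      inv_mul_le_iff₀ hdn, mul_one]
    exact key
  have hUle : ∀ a b, ‖U a b‖ ≤ 1 := by
    intro a b
    have key : ‖(R * P.adjugate) a b‖ ≤ ‖d‖ := by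
      fin_cases b
      · have h1 : (R * P.adjugate) a 0 = mi g (f (Sum.inr a)) i2 j1 j2 := by
          rw [Matrix.adjugate_fin_two, Matrix.mul_apply, Fin.sum_univ_two, mi]
          simp [hP, hR, he0, he1, hf1]
          ring
        exact (congrArg norm h1).le.trans (hmin _ _ _ _)
      · have h1 : (R * P.adjugate) a 1 = mi g i1 (f (Sum.inr a)) j1 j2 := by
          rw [Matrix.adjugate_fin_two, Matrix.mul_apply, Fin.sum_univ_two, mi]
          simp [hP, hR, he0, he1, hf0]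
          ring
        exact (congrArg norm h1).le.trans (hmin _ _ _ _)
    rw [hU, hPi, Matrix.mul_smul, Matrix.smul_apply, smul_eq_mul, norm_mul, norm_inv,
      inv_mul_le_iff₀ hdn, mul_one]
    exact key
  -- the inverse
  have hsum : ∀ F : Fin 4 → k, ∑ t, F t = ∑ b, F (e (Sum.inl b)) + ∑ b, F (e (Sum.inr b)) := by
    intro F
    rw [← Equiv.sum_comp e F, Fintype.sum_sum_type]
  have hgh := mul_hi sg
  have hE1 : P * H1 + Q * H2 = 0 := by
    ext a b
    have h1 := congrFun (congrFun hgh (f (Sum.inl a))) (f (Sum.inr b))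
    rw [Matrix.mul_apply, hsum, Matrix.one_apply_ne (by simp)] at h1
    simpa [Matrix.mul_apply, hP, hQ, hH1, hH2] using h1
  have hE2 : R * H1 + T * H2 = 1 := by
    ext a b
    have h1 := congrFun (congrFun hgh (f (Sum.inr a))) (f (Sum.inr b))
    rw [Matrix.mul_apply, hsum] at h1
    have h2 : (1 : Matrix (Fin 4) (Fin 4) k) (f (Sum.inr a)) (f (Sum.inr b))
        = (1 : Matrix (Fin 2) (Fin 2) k) a b := by
      simp [Matrix.one_apply]
    rw [h2] at h1
    simpa [Matrix.mul_apply, hR, hT, hH1, hH2] using h1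
  have hH1' : H1 = -(V * H2) := by
    have h1 : PI * (P * H1 + Q * H2) = 0 := by rw [hE1, Matrix.mul_zero]
    rw [Matrix.mul_add, ← Matrix.mul_assoc, hPiP, Matrix.one_mul, ← Matrix.mul_assoc, ← hV] at h1
    exact eq_neg_of_add_eq_zero_left h1
  have hSH : Sg * H2 = 1 := by
    rw [hSg, Matrix.sub_mul, ← hE2, hH1', Matrix.mul_neg, ← Matrix.mul_assoc R V H2]
    abel
  have hHS : H2 * Sg = 1 := mul_eq_one_comm.1 hSH
  -- the determinant
  have hdet : ‖Sg.det‖ * ‖d‖ = 1 := by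
    have h1 : fromBlocks (1 : Matrix (Fin 2) (Fin 2) k) 0 (-U) 1 * g.submatrix f e
        = fromBlocks P Q 0 Sg := by
      rw [hG, fromBlocks_multiply]
      congr 1
      · simp
      · simp
      · rw [Matrix.neg_mul, hUP, Matrix.one_mul]; abel
      · rw [Matrix.neg_mul, hUQ, Matrix.one_mul, hSg]; abel
    have h2 := congrArg Matrix.det h1
    rw [Matrix.det_mul, Matrix.det_fromBlocks_zero₁₂, Matrix.det_fromBlocks_zero₂₁, hdP,
      Matrix.det_one, one_mul, one_mul] at h2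
    have h3 : (g.submatrix f e)ᵀ * (JJ : Matrix (Fin 4) (Fin 4) k).submatrix f f * g.submatrix f e
        = (JJ : Matrix (Fin 4) (Fin 4) k).submatrix e e := by
      rw [Matrix.transpose_submatrix, Matrix.submatrix_mul_equiv, Matrix.submatrix_mul_equiv, sg]
    have h4 := congrArg Matrix.det h3
    rw [Matrix.det_mul, Matrix.det_mul, Matrix.det_transpose, Matrix.det_submatrix_equiv_self,
      Matrix.det_submatrix_equiv_self, det_JJ, mul_one, h2] at h4
    have h5 := congrArg norm h4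
    rw [norm_mul, norm_mul, norm_one] at h5
    have h6 : 0 ≤ ‖Sg.det‖ * ‖d‖ := by positivity
    have h7 : (‖Sg.det‖ * ‖d‖) * (‖Sg.det‖ * ‖d‖) = 1 := by linarith
    nlinarith
  have hSle : ∀ a b, ‖Sg a b‖ ≤ M / ‖d‖ := by
    have hadj : Sg = Sg.det • H2.adjugate := by
      have h1 : Sg.det * H2.det = 1 := by rw [← Matrix.det_mul, hSH, Matrix.det_one]
      calc Sg = Sg * ((Sg.det * H2.det) • 1) := by rw [h1, one_smul, Matrix.mul_one]
        _ = Sg.det • (Sg * (H2 * H2.adjugate)) := by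
            rw [Matrix.mul_adjugate, Matrix.mul_smul, Matrix.mul_smul, smul_smul]
        _ = Sg.det • H2.adjugate := by rw [← Matrix.mul_assoc, hSH, Matrix.one_mul]
    have hH2le : ∀ a b, ‖H2 a b‖ ≤ M := fun a b => hi_le ug _ _
    have hadjle : ∀ a b, ‖H2.adjugate a b‖ ≤ M := by
      intro a b
      rw [Matrix.adjugate_fin_two]
      fin_cases a <;> fin_cases b <;> simp [hH2le]
    intro a b
    rw [hadj, Matrix.smul_apply, smul_eq_mul, norm_mul, le_div_iff₀ hdn]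
    calc ‖Sg.det‖ * ‖H2.adjugate a b‖ * ‖d‖ = (‖Sg.det‖ * ‖d‖) * ‖H2.adjugate a b‖ := by ring
      _ = ‖H2.adjugate a b‖ := by rw [hdet, one_mul]
      _ ≤ M := hadjle a b
  have hPile : ∀ a b, ‖PI a b‖ ≤ M / ‖d‖ := by
    have hadjle : ∀ a b, ‖P.adjugate a b‖ ≤ M := by
      intro a b
      rw [Matrix.adjugate_fin_two]
      fin_cases a <;> fin_cases b <;> simp [hP, ug]
    intro a b
    rw [hPi, Matrix.smul_apply, smul_eq_mul, norm_mul, norm_inv, inv_mul_eq_div]
    gcongr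
    exact hadjle a b
  have hcMd : ‖c‖ * (M / ‖d‖) ≤ C := by
    calc ‖c‖ * (M / ‖d‖) ≤ M * (M / ‖d‖) := by gcongr; exact ug _ _
      _ = M * M / ‖d‖ := by ring
      _ ≤ C := hMd
  -- the two factors
  set A : Matrix (Fin 2 ⊕ Fin 2) (Fin 2 ⊕ Fin 2) k :=
    fromBlocks (c⁻¹ • P) 0 (c⁻¹ • R) (c • Sg) with hA
  set A' : Matrix (Fin 2 ⊕ Fin 2) (Fin 2 ⊕ Fin 2) k :=
    fromBlocks (c • PI) 0 (-(c⁻¹ • (H2 * U))) (c⁻¹ • H2) with hA'
  have hinvc : ∀ t : k, ‖t‖ ≤ M → ‖c⁻¹ * t‖ ≤ 2 * C := by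
    intro t ht
    rw [norm_mul, norm_inv, inv_mul_eq_div]
    exact (div_le_div_of_nonneg_right ht hcn.le).trans hcM'
  have hw1 : 1 ≤ ‖(c ^ 2)⁻¹‖ * M ^ 2 := by
    rw [norm_inv, norm_pow, inv_mul_eq_div, le_div_iff₀ (by positivity), one_mul]
    exact pow_le_pow_left₀ hcn.le (ug _ _) 2
  have hw2 : ‖(c ^ 2)⁻¹‖ * M ^ 2 ≤ 4 * C ^ 2 := by
    rw [norm_inv, norm_pow, inv_mul_eq_div, div_le_iff₀ (by positivity)]
    calc M ^ 2 ≤ (2 * C * ‖c‖) ^ 2 := pow_le_pow_left₀ hM0 hcM 2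
      _ = _ := by ring
  refine ⟨e, fun a b => V a b, c, (c ^ 2)⁻¹, A.submatrix f.symm id, A'.submatrix id f.symm, ?_,
    hVle, ?_, ?_, ?_, hc0, ug _ _, hcM, rfl, hw1, hw2⟩
  · intro x
    have hfV : ∀ a, fa (fun a b => V a b) (x ∘ e) a
        = x (e (Sum.inl a)) + ∑ b, V a b * x (e (Sum.inr b)) := by
      intro a
      simp only [fa, Function.comp_apply, Fin.sum_univ_two]
    have key : ∀ s : Fin 2 ⊕ Fin 2, (g *ᵥ x) (f s)
        = (c • (A.submatrix f.symm id *ᵥ dv 1 (c ^ 2)⁻¹ (bv (fun a b => V a b) (x ∘ e)))) (f s) := by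
      intro s
      rw [Pi.smul_apply, Matrix.mulVec, Matrix.mulVec, dotProduct, dotProduct, hsum,
        Fintype.sum_sum_type]
      cases s with
      | inl a =>
        have hQa : ∀ b, g (f (Sum.inl a)) (e (Sum.inr b)) = (P * V) a b := fun b => by
          rw [hPV]; rfl
        simp only [Matrix.submatrix_apply, Equiv.symm_apply_apply, id_eq, hA,
          Matrix.fromBlocks_apply₁₁, Matrix.fromBlocks_apply₁₂, Matrix.smul_apply,
          Matrix.zero_apply, smul_eq_mul, zero_mul, Finset.sum_const_zero, add_zero, dv, bv,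
          Sum.elim_inl, one_mul, hfV, hQa, Matrix.mul_apply]
        simp only [Fin.sum_univ_two, hP, Matrix.of_apply]
        field_simp
        ring
      | inr a =>
        have hTa : ∀ b, g (f (Sum.inr a)) (e (Sum.inr b)) = Sg a b + (R * V) a b := fun b => by
          rw [hSg, Matrix.sub_apply, sub_add_cancel]; rfl
        simp only [Matrix.submatrix_apply, Equiv.symm_apply_apply, id_eq, hA,
          Matrix.fromBlocks_apply₂₁, Matrix.fromBlocks_apply₂₂, Matrix.smul_apply,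
          smul_eq_mul, dv, bv, Sum.elim_inl, Sum.elim_inr, one_mul, hfV, hTa, Matrix.mul_apply,
          Function.comp_apply]
        simp only [Fin.sum_univ_two, hR, Matrix.of_apply]
        field_simp
        ring
    funext t
    have := key (f.symm t)
    rwa [Equiv.apply_symm_apply] at this
  · have h1 : A' * A = 1 := by
      rw [hA, hA', fromBlocks_multiply, ← fromBlocks_one]
      congr 1
      · rw [Matrix.smul_mul, Matrix.mul_smul, hPiP, Matrix.zero_mul, add_zero, smul_smul,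
          mul_inv_cancel₀ hc0, one_smul]
      · simp
      · rw [Matrix.neg_mul, Matrix.smul_mul, Matrix.mul_smul, Matrix.mul_assoc H2 U P, hUP,
          Matrix.smul_mul, Matrix.mul_smul]
        abel
      · rw [Matrix.mul_zero, zero_add, Matrix.smul_mul, Matrix.mul_smul, hHS, smul_smul,
          inv_mul_cancel₀ hc0, one_smul]
    rw [Matrix.submatrix_mul_equiv, h1]
    rfl
  · intro i s
    have h2C : 2 * C ≤ 4 * C := by linarith
    rw [Matrix.submatrix_apply, hA]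
    rcases hfi : f.symm i with a | a <;> rcases s with b | b
    · simp only [id_eq, Matrix.fromBlocks_apply₁₁, Matrix.smul_apply, smul_eq_mul]
      exact (hinvc _ (ug _ _)).trans h2C
    · simp only [id_eq, Matrix.fromBlocks_apply₁₂, Matrix.zero_apply, norm_zero]
      positivity
    · simp only [id_eq, Matrix.fromBlocks_apply₂₁, Matrix.smul_apply, smul_eq_mul]
      exact (hinvc _ (ug _ _)).trans h2C
    · simp only [id_eq, Matrix.fromBlocks_apply₂₂, Matrix.smul_apply, smul_eq_mul]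
      rw [norm_mul]
      have h1 := mul_le_mul_of_nonneg_left (hSle a b) hcn.le
      linarith
  · intro s i
    have h2C : 2 * C ≤ 4 * C := by linarith
    rw [Matrix.submatrix_apply, hA']
    rcases hfi : f.symm i with a | a <;> rcases s with b | b
    · simp only [id_eq, Matrix.fromBlocks_apply₁₁, Matrix.smul_apply, smul_eq_mul]
      rw [norm_mul]
      have h1 := mul_le_mul_of_nonneg_left (hPile b a) hcn.le
      linarith
    · simp only [id_eq, Matrix.fromBlocks_apply₂₁, Matrix.neg_apply, Matrix.smul_apply,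
        smul_eq_mul, norm_neg]
      rw [Matrix.mul_apply, Fin.sum_univ_two, mul_add, ← mul_assoc, ← mul_assoc]
      refine (norm_add_le _ _).trans ?_
      have h1 : ∀ t, ‖c⁻¹ * H2 b t * U t a‖ ≤ 2 * C := by
        intro t
        rw [norm_mul]
        calc ‖c⁻¹ * H2 b t‖ * ‖U t a‖ ≤ (2 * C) * 1 :=
              mul_le_mul (hinvc _ (hi_le ug _ _)) (hUle _ _) (norm_nonneg _) (by positivity)
          _ = 2 * C := mul_one _
      linarith [h1 0, h1 1]
    · simp only [id_eq, Matrix.fromBlocks_apply₁₂, Matrix.zero_apply, norm_zero]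
      positivity
    · simp only [id_eq, Matrix.fromBlocks_apply₂₂, Matrix.smul_apply, smul_eq_mul]
      exact (hinvc _ (hi_le ug _ _)).trans h2C

end main

end Vale.Agent.P092.H589.PN
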