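import Vale.Agent.P092.H589.Mul

/-!
P092, TEAM N, block [N-K2] (helper589), part t: the ratio lemma in finite form and the class `Tame`
of homogeneous functions, for `ℝ`, `ℂ` and ultrametric fields.
-/

set_option linter.unusedSectionVars false

namespace Vale.Agent.P092.H589.K2

open Finset Vale.Agent.P092.H589.Mu
open scoped InnerProductSpace

section dgs

variable {K : Type} [NormedAddCommGroup K] [InnerProductSpace ℂ K] [CompleteSpace K]
variable {J : Type}

/-- finite orthogonal family of projections -/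
structure OF (I : Finset J) (Q : J → (K →L[ℂ] K)) : Prop where
  sa : ∀ i ∈ I, star (Q i) = Q i
  idem : ∀ i ∈ I, Q i * Q i = Q i
  orth : ∀ i ∈ I, ∀ j ∈ I, i ≠ j → Q i * Q j = 0

/-- the diagonal operator of a function on the index set -/
noncomputable def dg (I : Finset J) (Q : J → (K →L[ℂ] K)) (f : J → ℂ) : K →L[ℂ] K :=
  ∑ j ∈ I, f j • Q j

variable {I : Finset J} {Q : J → (K →L[ℂ] K)}

theorem OF.sub (h : OF I Q) {I' : Finset J} (hI : I' ⊆ I) : OF I' Q :=
  ⟨fun i hi => h.sa i (hI hi), fun i hi => h.idem i (hI hi),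
    fun i hi j hj => h.orth i (hI hi) j (hI hj)⟩

theorem dg_congr {f g : J → ℂ} (h : ∀ j ∈ I, f j = g j) : dg I Q f = dg I Q g :=
  sum_congr rfl fun j hj => by rw [h j hj]

theorem dg_add (f g : J → ℂ) : dg I Q (fun j => f j + g j) = dg I Q f + dg I Q g := by
  rw [dg, dg, dg, ← sum_add_distrib]
  exact sum_congr rfl fun j _ => by rw [add_smul]

theorem dg_smul (a : ℂ) (f : J → ℂ) : dg I Q (fun j => a * f j) = a • dg I Q f := by
  rw [dg, dg, smul_sum]
  exact sum_congr rfl fun j _ => by rw [mul_smul]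

theorem dg_sum {α : Type*} (s : Finset α) (f : α → J → ℂ) :
    dg I Q (fun j => ∑ a ∈ s, f a j) = ∑ a ∈ s, dg I Q (f a) := by
  simp_rw [dg]
  rw [sum_comm]
  exact sum_congr rfl fun j _ => by rw [sum_smul]

theorem dg_mul (h : OF I Q) (f g : J → ℂ) :
    dg I Q (fun j => f j * g j) = dg I Q f * dg I Q g := by
  classical
  rw [dg, dg, dg, sum_mul]
  refine sum_congr rfl fun i hi => ?_
  rw [mul_sum, sum_eq_single_of_mem i hi]
  · rw [smul_mul_smul_comm, h.idem i hi]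
  · intro j hj hji
    rw [smul_mul_smul_comm, h.orth i hi j hj (Ne.symm hji), smul_zero]

theorem OF.inner_eq (h : OF I Q) {i j : J} (hi : i ∈ I) (hj : j ∈ I) (hij : i ≠ j) (v w : K) :
    ⟪Q i v, Q j w⟫_ℂ = 0 := by
  have e : ⟪Q i v, Q j w⟫_ℂ = ⟪v, (Q i * Q j) w⟫_ℂ := by
    have h1 : ContinuousLinearMap.adjoint (Q i) = Q i := h.sa i hi
    conv_lhs => rw [← h1]
    rw [ContinuousLinearMap.adjoint_inner_left]
    rfl
  rw [e, h.orth i hi j hj hij]
  simp

theorem OF.norm_sum (h : OF I Q) (f : J → ℂ) (v : K) {s : Finset J} (hs : s ⊆ I) :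
    ‖∑ j ∈ s, f j • Q j v‖ ^ 2 = ∑ j ∈ s, ‖f j‖ ^ 2 * ‖Q j v‖ ^ 2 := by
  classical
  induction s using Finset.induction_on with
  | empty => simp
  | insert a s ha ih =>
    rw [sum_insert ha, sum_insert ha, ← ih ((subset_insert a s).trans hs)]
    have h0 : ⟪f a • Q a v, ∑ j ∈ s, f j • Q j v⟫_ℂ = 0 := by
      rw [inner_sum]
      refine sum_eq_zero fun j hj => ?_
      rw [inner_smul_left, inner_smul_right, h.inner_eq (hs (mem_insert_self a s))
        (hs (mem_insert_of_mem hj)) (fun e => ha (e ▸ hj)), mul_zero, mul_zero]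
    have h1 := norm_add_sq_eq_norm_sq_add_norm_sq_of_inner_eq_zero _ _ h0
    simp only [← pow_two] at h1
    rw [h1, norm_smul, mul_pow]

theorem OF.bessel (h : OF I Q) (v : K) : ∑ j ∈ I, ‖Q j v‖ ^ 2 ≤ ‖v‖ ^ 2 := by
  set p := ∑ j ∈ I, Q j v with hp
  have h1 : ‖p‖ ^ 2 = ∑ j ∈ I, ‖Q j v‖ ^ 2 := by
    have := h.norm_sum (fun _ => 1) v (subset_refl I)
    simp only [one_smul, norm_one, one_pow, one_mul] at this
    exact this
  have h2 : (‖p‖ ^ 2 : ℝ) ≤ ‖p‖ * ‖v‖ := by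
    have h3 : ∑ j ∈ I, ‖Q j v‖ ^ 2 = (∑ j ∈ I, ⟪Q j v, v⟫_ℂ).re := by
      rw [Complex.re_sum]
      refine sum_congr rfl fun j hj => ?_
      have e : ⟪Q j v, v⟫_ℂ = ⟪Q j v, Q j v⟫_ℂ := by
        have h4 : ContinuousLinearMap.adjoint (Q j) = Q j := h.sa j hj
        conv_lhs => rw [← h.idem j hj]
        change ⟪(Q j) (Q j v), v⟫_ℂ = _
        conv_lhs => rw [← h4]
        rw [ContinuousLinearMap.adjoint_inner_left, h4]
      rw [e, inner_self_eq_norm_sq_to_K]
      norm_cast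
    rw [h1, h3, ← sum_inner]
    exact (Complex.re_le_norm _).trans (norm_inner_le_norm _ _)
  rw [← h1]
  have h5 : ‖p‖ ≤ ‖v‖ := by
    by_contra hlt
    push Not at hlt
    have : 0 < ‖p‖ := (norm_nonneg v).trans_lt hlt
    nlinarith
  exact pow_le_pow_left₀ (norm_nonneg _) h5 2

theorem dg_norm (h : OF I Q) {f : J → ℂ} {C : ℝ} (hC : 0 ≤ C) (hf : ∀ j ∈ I, ‖f j‖ ≤ C) (v : K) :
    ‖dg I Q f v‖ ≤ C * ‖v‖ := by
  have e : dg I Q f v = ∑ j ∈ I, f j • Q j v := by
    rw [dg, _root_.sum_apply]; rfl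
  refine le_of_sq_le_sq ?_ (by positivity)
  rw [e, h.norm_sum f v (subset_refl I), mul_pow]
  calc ∑ j ∈ I, ‖f j‖ ^ 2 * ‖Q j v‖ ^ 2 ≤ ∑ j ∈ I, C ^ 2 * ‖Q j v‖ ^ 2 :=
        sum_le_sum fun j hj => by gcongr; exact hf j hj
    _ = C ^ 2 * ∑ j ∈ I, ‖Q j v‖ ^ 2 := by rw [mul_sum]
    _ ≤ _ := by gcongr; exact h.bessel v

end dgs

section ratio

/-- **Ratio lemma**, finite form. -/
theorem ratio (α : Type) [Fintype α] (C c : ℝ) (hc : 0 < c) : ∃ M : ℝ, 0 ≤ M ∧
    ∀ (K : Type) [NormedAddCommGroup K] [InnerProductSpace ℂ K] [CompleteSpace K]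
      (κ J : Type) (S : Finset κ) (I : Finset J) (Q : J → (K →L[ℂ] K)) (U : α → J → ℂ)
      (n d : κ → α → ℂ) (F : κ → J → ℂ), OF I Q → (∀ a, ∀ j ∈ I, ‖U a j‖ ≤ 1) →
      (∀ k ∈ S, ∀ a, ‖n k a‖ ≤ C) → (∀ k ∈ S, ∀ a, ‖d k a‖ ≤ C) →
      (∀ k ∈ S, ∀ j ∈ I, c ≤ ‖∑ a, d k a * U a j‖) →
      (∀ k ∈ S, ∀ j ∈ I, F k j * ∑ a, d k a * U a j = ∑ a, n k a * U a j) →
      Mul S (fun k => dg I Q (F k)) M := by
  classical
  set A : ℝ := (Fintype.card α : ℝ) with hA
  have hA0 : 0 ≤ A := Nat.cast_nonneg _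
  set C0 : ℝ := |C| + 1 with hC0
  have hC0p : 0 < C0 := by positivity
  set ε : ℝ := c / (4 * C0 * (A + 1)) with hε
  have hεp : 0 < ε := by positivity
  set N : ℤ := ⌈1 / ε⌉ + 1 with hN
  set 𝒯 : Finset (α → ℤ × ℤ) := Fintype.piFinset fun _ : α => Icc (-N) N ×ˢ Icc (-N) N with h𝒯
  refine ⟨∑ _t ∈ 𝒯, 2 * (C0 / c * ∑ _a : α, (1 : ℝ)), by positivity, ?_⟩
  intro K _ _ _ κ J S I Q U n d F hQ hU hn hd hlow hF
  set g : J → α → ℤ × ℤ := fun j a => (⌊(U a j).re / ε⌋, ⌊(U a j).im / ε⌋) with hg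
  have hfl : ∀ x : ℝ, |x| ≤ 1 → ⌊x / ε⌋ ∈ Icc (-N) N := by
    intro x hx
    rw [abs_le] at hx
    have h1 : x / ε ≤ 1 / ε := div_le_div_of_nonneg_right hx.2 hεp.le
    have h2 : -(1 / ε) ≤ x / ε := by
      rw [← neg_div]; exact div_le_div_of_nonneg_right hx.1 hεp.le
    have h3 : (1 / ε : ℝ) ≤ ⌈1 / ε⌉ := Int.le_ceil _
    rw [mem_Icc]
    constructor
    · rw [Int.le_floor]; push_cast [hN]; linarith
    · have : (⌊x / ε⌋ : ℝ) ≤ x / ε := Int.floor_le _
      have h4 : (⌊x / ε⌋ : ℝ) ≤ ((⌈1 / ε⌉ + 1 : ℤ) : ℝ) := by push_cast; linarith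
      exact_mod_cast h4
  have hmaps : ∀ j ∈ I, g j ∈ 𝒯 := by
    intro j hj
    rw [h𝒯, Fintype.mem_piFinset]
    intro a
    rw [mem_product]
    exact ⟨hfl _ ((Complex.abs_re_le_norm _).trans (hU a j hj)),
      hfl _ ((Complex.abs_im_le_norm _).trans (hU a j hj))⟩
  have hsplit : ∀ k ∈ S, dg I Q (F k) = ∑ t ∈ 𝒯, dg (I.filter fun j => g j = t) Q (F k) := by
    intro k _
    simp_rw [dg]
    rw [sum_fiberwise_of_maps_to hmaps]
  refine Mul.congr (F := fun k => ∑ t ∈ 𝒯, dg (I.filter fun j => g j = t) Q (F k)) ?_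
    fun k hk => (hsplit k hk).symm
  refine Mul.finsum 𝒯 (G := fun t k => dg (I.filter fun j => g j = t) Q (F k)) (fun t _ => ?_)
    fun t _ => by positivity
  set It := I.filter fun j => g j = t with hIt
  have hsub : It ⊆ I := filter_subset _ _
  have hOF := hQ.sub hsub
  rcases It.eq_empty_or_nonempty with h0 | ⟨j0, hj0⟩
  · refine (Mul.zero (S := S)).mono le_rfl (by positivity) |>.congr fun k _ => ?_
    rw [h0, dg, sum_empty]
  have hj0I := hsub hj0
  -- oscillation of the coordinates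
  have hosc : ∀ a, ∀ j ∈ It, ‖U a j - U a j0‖ ≤ 2 * ε := by
    intro a j hj
    have h1 : g j = g j0 := (mem_filter.1 hj).2.trans (mem_filter.1 hj0).2.symm
    have h2 := congrFun h1 a
    simp only [hg, Prod.mk.injEq] at h2
    have key : ∀ x y : ℝ, ⌊x / ε⌋ = ⌊y / ε⌋ → |x - y| ≤ ε := by
      intro x y hxy
      have h3 := (Int.abs_sub_lt_one_of_floor_eq_floor hxy).le
      rw [← sub_div, abs_div, abs_of_pos hεp, div_le_one hεp] at h3
      exact h3
    have h4 := key _ _ h2.1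
    have h5 := key _ _ h2.2
    rw [← Complex.sub_re] at h4
    rw [← Complex.sub_im] at h5
    exact (Complex.norm_le_abs_re_add_abs_im _).trans (by linarith)
  set δ : κ → ℂ := fun k => ∑ a, d k a * U a j0 with hδ
  have hδ0 : ∀ k ∈ S, c ≤ ‖δ k‖ := fun k hk => hlow k hk j0 hj0I
  have hdc : ∀ k ∈ S, ∀ a, ‖-(d k a) / δ k‖ ≤ C0 / c := by
    intro k hk a
    rw [norm_div, norm_neg]
    exact div_le_div₀ hC0p.le ((hd k hk a).trans ((le_abs_self C).trans (by rw [hC0]; linarith)))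
      hc (hδ0 k hk)
  have hnc : ∀ k ∈ S, ∀ a, ‖n k a / δ k‖ ≤ C0 / c := by
    intro k hk a
    rw [norm_div]
    exact div_le_div₀ hC0p.le ((hn k hk a).trans ((le_abs_self C).trans (by rw [hC0]; linarith)))
      hc (hδ0 k hk)
  have hR : Mul S (fun k => dg It Q fun j => ∑ a, -(d k a) / δ k * (U a j - U a j0)) (1 / 2) := by
    have h1 := Mul.lin (S := S) (Finset.univ : Finset α) (fun k a => -(d k a) / δ k)
      (fun a => dg It Q fun j => U a j - U a j0) (C := C0 / c) (by positivity)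
      (fun k hk a _ => hdc k hk a) (n := fun _ => 2 * ε) (fun _ _ => by positivity)
      (fun a _ v => dg_norm hOF (by positivity) (fun j hj => hosc a j hj) v)
    refine (h1.mono (by positivity) ?_).congr fun k _ => ?_
    · rw [sum_const, card_univ, nsmul_eq_mul, ← hA, hε]
      have : C0 / c * (A * (2 * (c / (4 * C0 * (A + 1))))) = A / (A + 1) * (1 / 2) := by
        field_simp; ring
      rw [this]
      have h2 : A / (A + 1) ≤ 1 := by rw [div_le_one (by linarith)]; linarith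
      linarith
    · rw [dg_sum]
      exact sum_congr rfl fun a _ => (dg_smul _ _).symm
  have hP : Mul S (fun k => dg It Q fun j => ∑ a, n k a / δ k * U a j)
      (C0 / c * ∑ _a : α, (1 : ℝ)) := by
    have h1 := Mul.lin (S := S) (Finset.univ : Finset α) (fun k a => n k a / δ k)
      (fun a => dg It Q (U a)) (C := C0 / c) (by positivity)
      (fun k hk a _ => hnc k hk a) (n := fun _ => 1) (fun _ _ => zero_le_one)
      (fun a _ v => dg_norm hOF zero_le_one (fun j hj => hU a j (hsub hj)) v)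
    refine h1.congr fun k _ => ?_
    rw [dg_sum]
    exact sum_congr rfl fun a _ => (dg_smul _ _).symm
  refine Mul.neumann hP (by positivity) hR fun k hk => ?_
  rw [← dg_mul hOF, ← dg_add]
  refine dg_congr fun j hj => ?_
  have hδk : δ k ≠ 0 := by
    intro h; have := hδ0 k hk; rw [h, norm_zero] at this; linarith
  have h2 : ∑ a, -(d k a) / δ k * (U a j - U a j0) = 1 - (∑ a, d k a * U a j) / δ k := by
    have h3 : ∑ a, -(d k a) / δ k * (U a j - U a j0)
        = (∑ a, d k a * U a j0 - ∑ a, d k a * U a j) / δ k := by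
      rw [← sum_sub_distrib, sum_div]
      exact sum_congr rfl fun a _ => by ring
    rw [h3]
    change (δ k - _) / δ k = _
    rw [sub_div, div_self hδk]
  have h4 : ∑ a, n k a / δ k * U a j = (∑ a, n k a * U a j) / δ k := by
    rw [sum_div]; exact sum_congr rfl fun a _ => by ring
  rw [h2, h4, ← hF k hk j (hsub hj)]
  ring

end ratio

end Vale.Agent.P092.H589.K2
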