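import Vale.Agent.P092.H589.K2t

/-!
P092, TEAM N, block [N-K2] (helper589), part u: the class `Tame` of homogeneous functions.
-/

set_option linter.unusedSectionVars false

namespace Vale.Agent.P092.H589.K2

open Finset Vale.Agent.P092.H589.Mu

/-- Homogeneous functions of degree `0` whose families on a cell are multipliers. -/
def Tame (K : Type) [NormedAddCommGroup K] [InnerProductSpace ℂ K] [CompleteSpace K]
    {𝕜 : Type} [NormedField 𝕜] {β : Type} [Fintype β] (φ : (β → 𝕜) → ℂ) : Prop :=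
  (∀ (c : 𝕜) v, c ≠ 0 → φ (c • v) = φ v) ∧ (∃ B : ℝ, 0 ≤ B ∧ ∀ v, ‖φ v‖ ≤ B) ∧
  ∀ (α : Type) [Fintype α] (C c : ℝ), 0 < c → ∃ M : ℝ, 0 ≤ M ∧
    ∀ (κ J : Type) (S : Finset κ) (I : Finset J) (Q : J → (K →L[ℂ] K)) (u : α → J → 𝕜)
      (w : κ → α → β → 𝕜), OF I Q → (∀ a, ∀ j ∈ I, ‖u a j‖ ≤ 1) →
      (∀ k ∈ S, ∀ a, ‖w k a‖ ≤ C) → (∀ k ∈ S, ∀ j ∈ I, c ≤ ‖∑ a, u a j • w k a‖) →
      Mul S (fun k => dg I Q fun j => φ (∑ a, u a j • w k a)) M

section closure

variable {K : Type} [NormedAddCommGroup K] [InnerProductSpace ℂ K] [CompleteSpace K]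
variable {𝕜 : Type} [NormedField 𝕜] {β : Type} [Fintype β] {φ ψ : (β → 𝕜) → ℂ}

theorem Tame.add (hφ : Tame K φ) (hψ : Tame K ψ) : Tame K fun v => φ v + ψ v := by
  obtain ⟨h1, ⟨B, hB0, hB⟩, h3⟩ := hφ
  obtain ⟨h1', ⟨B', hB0', hB'⟩, h3'⟩ := hψ
  refine ⟨fun c v hc => by simp only [h1 c v hc, h1' c v hc], ⟨B + B', by positivity, fun v =>
    (norm_add_le _ _).trans (add_le_add (hB v) (hB' v))⟩, fun α _ C c hc => ?_⟩
  obtain ⟨M, hM0, hM⟩ := h3 α C c hc
  obtain ⟨M', hM0', hM'⟩ := h3' α C c hc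
  refine ⟨M + M', by positivity, fun κ J S I Q u w hQ hu hw hl => ?_⟩
  refine ((hM κ J S I Q u w hQ hu hw hl).add (hM' κ J S I Q u w hQ hu hw hl) hM0 hM0').congr
    fun k _ => ?_
  rw [← dg_add]

theorem Tame.mul (hφ : Tame K φ) (hψ : Tame K ψ) : Tame K fun v => φ v * ψ v := by
  obtain ⟨h1, ⟨B, hB0, hB⟩, h3⟩ := hφ
  obtain ⟨h1', ⟨B', hB0', hB'⟩, h3'⟩ := hψ
  refine ⟨fun c v hc => by simp only [h1 c v hc, h1' c v hc], ⟨B * B', by positivity, fun v => ?_⟩,
    fun α _ C c hc => ?_⟩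
  · rw [norm_mul]
    exact mul_le_mul (hB v) (hB' v) (norm_nonneg _) hB0
  obtain ⟨M, hM0, hM⟩ := h3 α C c hc
  obtain ⟨M', hM0', hM'⟩ := h3' α C c hc
  refine ⟨M * M', by positivity, fun κ J S I Q u w hQ hu hw hl => ?_⟩
  refine ((hM κ J S I Q u w hQ hu hw hl).mul (hM' κ J S I Q u w hQ hu hw hl) hM0).congr
    fun k _ => ?_
  rw [← dg_mul hQ]

theorem Tame.const (a : ℂ) : Tame K fun _ : β → 𝕜 => a := by
  refine ⟨fun _ _ _ => rfl, ⟨‖a‖, norm_nonneg _, fun _ => le_rfl⟩, fun α _ C c _ => ?_⟩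
  refine ⟨‖a‖, norm_nonneg _, fun κ J S I Q u w hQ _ _ _ => ?_⟩
  exact Mul.op _ fun v => dg_norm hQ (norm_nonneg _) (fun _ _ => le_rfl) v

theorem Tame.smul (a : ℂ) (hφ : Tame K φ) : Tame K fun v => a * φ v := (Tame.const a).mul hφ

end closure

section arch

variable {K : Type} [NormedAddCommGroup K] [InnerProductSpace ℂ K] [CompleteSpace K]
variable {𝕜 : Type} [NormedField 𝕜] {β : Type} [Fintype β]

/-- the square of the euclidean norm -/
noncomputable def sq2 (v : β → 𝕜) : ℝ := ∑ b, ‖v b‖ ^ 2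

lemma sq2_nonneg (v : β → 𝕜) : 0 ≤ sq2 v := sum_nonneg fun _ _ => sq_nonneg _

lemma le_sq2 (v : β → 𝕜) {c : ℝ} (hc : 0 < c) (h : c ≤ ‖v‖) : c ^ 2 ≤ sq2 v := by
  have hex : ∃ b, c ≤ ‖v b‖ := by
    by_contra hne
    push Not at hne
    have := (pi_norm_lt_iff hc).2 hne
    linarith
  obtain ⟨b, hb⟩ := hex
  exact (pow_le_pow_left₀ hc.le hb 2).trans
    (single_le_sum (f := fun b => ‖v b‖ ^ 2) (fun _ _ => sq_nonneg _) (mem_univ b))

lemma sq2_pos {v : β → 𝕜} (hv : v ≠ 0) : 0 < sq2 v := by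
  have := le_sq2 v (norm_pos_iff.2 hv) le_rfl
  have h2 := norm_pos_iff.2 hv
  nlinarith

/-- the generators: `v_b * conj v_b' / |v|²`, for an isometric embedding `τ` in `ℂ` -/
noncomputable def gen (τ : 𝕜 →+* ℂ) (b b' : β) (v : β → 𝕜) : ℂ :=
  τ (v b) * star (τ (v b')) / (sq2 v : ℂ)

theorem tame_gen (τ : 𝕜 →+* ℂ) (hτ : ∀ x, ‖τ x‖ = ‖x‖) (b b' : β) : Tame K (gen τ b b') := by
  classical
  have hnb : ∀ (v : β → 𝕜) d, ‖v d‖ ^ 2 ≤ sq2 v := fun v d =>
    single_le_sum (f := fun b => ‖v b‖ ^ 2) (fun _ _ => sq_nonneg _) (mem_univ d)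
  refine ⟨fun c v hc => ?_, ⟨1, zero_le_one, fun v => ?_⟩, fun α _ C c hc => ?_⟩
  · rw [gen, gen]
    have h1 : (sq2 (c • v) : ℂ) = τ c * star (τ c) * sq2 v := by
      have e : sq2 (c • v) = ‖c‖ ^ 2 * sq2 v := by
        rw [sq2, sq2, mul_sum]
        exact sum_congr rfl fun d _ => by rw [Pi.smul_apply, smul_eq_mul, norm_mul, mul_pow]
      have e2 : τ c * star (τ c) = ((‖c‖ ^ 2 : ℝ) : ℂ) := by
        rw [← hτ c]
        exact Complex.mul_conj' (τ c)  |>.trans (by norm_cast)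
      rw [e, e2]; push_cast; ring
    have hc' : τ c ≠ 0 := by
      intro h; apply hc; have := hτ c; rw [h, norm_zero] at this; exact norm_eq_zero.1 this.symm
    have hc'' : star (τ c) ≠ 0 := star_ne_zero.2 hc'
    rw [h1, Pi.smul_apply, Pi.smul_apply, smul_eq_mul, smul_eq_mul, map_mul, map_mul, star_mul]
    have e3 : τ c * τ (v b) * (star (τ (v b')) * star (τ c))
        = τ c * star (τ c) * (τ (v b) * star (τ (v b'))) := by ring
    rw [e3, mul_div_mul_left _ _ (mul_ne_zero hc' hc'')]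
  · rw [gen, norm_div, norm_mul, norm_star, hτ, hτ, Complex.norm_real, Real.norm_of_nonneg
      (sq2_nonneg v)]
    refine div_le_one_of_le₀ ?_ (sq2_nonneg v)
    nlinarith [hnb v b, hnb v b', sq_nonneg (‖v b‖ - ‖v b'‖)]
  · obtain ⟨M, hM0, hM⟩ := ratio (α × α) (Fintype.card β * C ^ 2 + C ^ 2) (c ^ 2) (by positivity)
    refine ⟨M, hM0, fun κ J S I Q u w hQ hu hw hl => ?_⟩
    have hC2 : ∀ k ∈ S, ∀ (a a' : α) d d', ‖τ (w k a d) * star (τ (w k a' d'))‖ ≤ C ^ 2 := by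
      intro k hk a a' d d'
      rw [norm_mul, norm_star, hτ, hτ, sq]
      have h1 := (norm_le_pi_norm (w k a) d).trans (hw k hk a)
      have h2 := (norm_le_pi_norm (w k a') d').trans (hw k hk a')
      exact mul_le_mul h1 h2 (norm_nonneg _) ((norm_nonneg _).trans h1)
    have hexp : ∀ k j d d', τ ((∑ a, u a j • w k a) d) * star (τ ((∑ a, u a j • w k a) d'))
        = ∑ p : α × α, (τ (w k p.1 d) * star (τ (w k p.2 d'))) *
          (τ (u p.1 j) * star (τ (u p.2 j))) := by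
      intro k j d d'
      have e1 : ∀ d, τ ((∑ a, u a j • w k a) d) = ∑ a, τ (u a j) * τ (w k a d) := by
        intro d
        rw [Finset.sum_apply, map_sum]
        exact sum_congr rfl fun a _ => by rw [Pi.smul_apply, smul_eq_mul, map_mul]
      rw [e1, e1, star_sum, sum_mul_sum, ← univ_product_univ, sum_product]
      refine sum_congr rfl fun a _ => sum_congr rfl fun a' _ => ?_
      rw [star_mul]; ring
    have hsq : ∀ v : β → 𝕜, (sq2 v : ℂ) = ∑ d, τ (v d) * star (τ (v d)) := by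
      intro v
      rw [sq2]
      push_cast
      refine sum_congr rfl fun d _ => ?_
      rw [← hτ (v d)]
      exact (Complex.mul_conj' (τ (v d))).symm
    refine hM K κ J S I Q (fun p j => τ (u p.1 j) * star (τ (u p.2 j)))
      (fun k p => τ (w k p.1 b) * star (τ (w k p.2 b')))
      (fun k p => ∑ d, τ (w k p.1 d) * star (τ (w k p.2 d))) _ hQ ?_ ?_ ?_ ?_ ?_
    · intro p j hj
      rw [norm_mul, norm_star, hτ, hτ]
      exact mul_le_one₀ (hu _ j hj) (norm_nonneg _) (hu _ j hj)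
    · intro k hk p
      refine (hC2 k hk _ _ _ _).trans ?_
      have : (0 : ℝ) ≤ Fintype.card β * C ^ 2 := by positivity
      linarith
    · intro k hk p
      calc ‖∑ d, τ (w k p.1 d) * star (τ (w k p.2 d))‖
          ≤ ∑ d, ‖τ (w k p.1 d) * star (τ (w k p.2 d))‖ := norm_sum_le _ _
        _ ≤ ∑ _d : β, C ^ 2 := sum_le_sum fun d _ => hC2 k hk _ _ _ _
        _ = Fintype.card β * C ^ 2 := by rw [sum_const, card_univ, nsmul_eq_mul]
        _ ≤ _ := by nlinarith [sq_nonneg C]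
    · intro k hk j hj
      have e : ∑ p : α × α, (∑ d, τ (w k p.1 d) * star (τ (w k p.2 d))) *
          (τ (u p.1 j) * star (τ (u p.2 j))) = (sq2 (∑ a, u a j • w k a) : ℂ) := by
        rw [hsq]
        simp_rw [hexp k j]
        rw [sum_comm]
        exact sum_congr rfl fun p _ => by rw [sum_mul]
      rw [e, Complex.norm_real, Real.norm_of_nonneg (sq2_nonneg _)]
      exact le_sq2 _ hc (hl k hk j hj)
    · intro k hk j hj
      have e : ∑ p : α × α, (∑ d, τ (w k p.1 d) * star (τ (w k p.2 d))) *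
          (τ (u p.1 j) * star (τ (u p.2 j))) = (sq2 (∑ a, u a j • w k a) : ℂ) := by
        rw [hsq]
        simp_rw [hexp k j]
        rw [sum_comm]
        exact sum_congr rfl fun p _ => by rw [sum_mul]
      have hne : ((sq2 (∑ a, u a j • w k a) : ℝ) : ℂ) ≠ 0 := by
        have := le_sq2 _ hc (hl k hk j hj)
        have h2 : 0 < sq2 (∑ a, u a j • w k a) := lt_of_lt_of_le (by positivity) this
        exact_mod_cast h2.ne'
      rw [e, gen, div_mul_cancel₀ _ hne, hexp k j]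

end arch

section ultra

variable {K : Type} [NormedAddCommGroup K] [InnerProductSpace ℂ K] [CompleteSpace K]
variable {𝕜 : Type} [NormedField 𝕜] [IsUltrametricDist 𝕜] {β : Type} [Fintype β]

/-- homogeneous functions which are constant on the small balls, ultrametric fields -/
theorem tame_lc [ProperSpace 𝕜] {φ : (β → 𝕜) → ℂ} (h1 : ∀ (c : 𝕜) v, c ≠ 0 → φ (c • v) = φ v)
    {B : ℝ} (hB0 : 0 ≤ B) (hB : ∀ v, ‖φ v‖ ≤ B) {ε : ℝ} (hε : 0 < ε)
    (hlc : ∀ v w, ‖v - w‖ ≤ ε * ‖v‖ → φ v = φ w) : Tame K φ := by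
  classical
  refine ⟨h1, ⟨B, hB0, hB⟩, fun α _ C c hc => ?_⟩
  -- a finite `δ`-net of the unit ball
  set C0 : ℝ := |C| + 1 with hC0
  have hC0p : 0 < C0 := by positivity
  set A : ℝ := (Fintype.card α : ℝ) with hA
  set δ : ℝ := ε * c / (C0 * (A + 1)) with hδ
  have hδp : 0 < δ := by positivity
  obtain ⟨t, ht1, ht2, ht3⟩ := (isCompact_closedBall (0 : 𝕜) 1).finite_cover_balls hδp
  set 𝒯 : Finset (α → 𝕜) := Fintype.piFinset fun _ : α => ht2.toFinset with h𝒯
  have hch : ∀ x : 𝕜, ∃ y, ‖x‖ ≤ 1 → y ∈ ht2.toFinset ∧ ‖x - y‖ ≤ δ := by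
    intro x
    by_cases hx : ‖x‖ ≤ 1
    · have hx' : x ∈ Metric.closedBall (0 : 𝕜) 1 := by simpa using hx
      obtain ⟨y, hy1, hy2⟩ := Set.mem_iUnion₂.1 (ht3 hx')
      refine ⟨y, fun _ => ⟨ht2.mem_toFinset.2 hy1, ?_⟩⟩
      rw [← dist_eq_norm]; exact (Metric.mem_ball.1 hy2).le
    · exact ⟨0, fun h => absurd h hx⟩
  choose nr hnr using hch
  refine ⟨∑ _t ∈ 𝒯, B, by positivity, fun κ J S I Q u w hQ hu hw hl => ?_⟩
  set g : J → α → 𝕜 := fun j a => nr (u a j) with hg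
  have hmaps : ∀ j ∈ I, g j ∈ 𝒯 := by
    intro j hj
    rw [h𝒯, Fintype.mem_piFinset]
    exact fun a => (hnr _ (hu a j hj)).1
  refine Mul.congr (F := fun k => ∑ t ∈ 𝒯, dg (I.filter fun j => g j = t) Q
    fun j => φ (∑ a, u a j • w k a)) ?_ fun k hk => ?_
  swap
  · simp_rw [dg]
    rw [sum_fiberwise_of_maps_to hmaps]
  refine Mul.finsum 𝒯 (fun t _ => ?_) fun t _ => hB0
  set It := I.filter fun j => g j = t with hIt
  have hsub : It ⊆ I := filter_subset _ _
  have hOF := hQ.sub hsub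
  rcases It.eq_empty_or_nonempty with h0 | ⟨j0, hj0⟩
  · refine (Mul.zero (S := S)).mono le_rfl hB0 |>.congr fun k _ => ?_
    rw [h0, dg, sum_empty]
  -- on the cell the function does not depend on `j`
  have hconst : ∀ k ∈ S, ∀ j ∈ It, φ (∑ a, u a j • w k a) = φ (∑ a, u a j0 • w k a) := by
    intro k hk j hj
    refine (hlc _ _ ?_).symm
    have h2 : ∀ a, ‖u a j0 - u a j‖ ≤ δ := by
      intro a
      have e1 : g j = g j0 := (mem_filter.1 hj).2.trans (mem_filter.1 hj0).2.symm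
      have e2 := congrFun e1 a
      simp only [hg] at e2
      have h3 := (hnr _ (hu a j (hsub hj))).2
      have h4 := (hnr _ (hu a j0 (hsub hj0))).2
      rw [e2] at h3
      have e3 : u a j0 - u a j = (u a j0 - nr (u a j0)) - (u a j - nr (u a j0)) := by ring
      rw [e3, sub_eq_add_neg]
      exact (IsUltrametricDist.norm_add_le_max _ _).trans (max_le h4 (by rw [norm_neg]; exact h3))
    rw [← sum_sub_distrib]
    calc ‖∑ a, (u a j0 • w k a - u a j • w k a)‖ ≤ ∑ a, ‖u a j0 • w k a - u a j • w k a‖ :=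
          norm_sum_le _ _
      _ ≤ ∑ _a : α, δ * C0 := by
          refine sum_le_sum fun a _ => ?_
          rw [← sub_smul, norm_smul]
          have h5 : ‖w k a‖ ≤ C0 := (hw k hk a).trans ((le_abs_self C).trans (by rw [hC0]; linarith))
          exact mul_le_mul (h2 a) h5 (norm_nonneg _) hδp.le
      _ = A * (δ * C0) := by rw [sum_const, card_univ, nsmul_eq_mul]
      _ ≤ ε * c := by
          rw [hδ]
          have e : A * (ε * c / (C0 * (A + 1)) * C0) = ε * c * (A / (A + 1)) := by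
            field_simp
          rw [e]
          have h6 : A / (A + 1) ≤ 1 := by
            have : 0 ≤ A := Nat.cast_nonneg _
            rw [div_le_one (by linarith)]; linarith
          have h7 : 0 ≤ ε * c := by positivity
          nlinarith
      _ ≤ ε * ‖∑ a, u a j0 • w k a‖ := by
          gcongr; exact hl k hk j0 (hsub hj0)
  have h8 : Mul S (fun k => (φ (∑ a, u a j0 • w k a) • (1 : K →L[ℂ] K)) *
      dg It Q fun _ => 1) (B * 1) :=
    (Mul.scal _ (fun k _ => hB _)).mul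
      (Mul.op _ fun v => dg_norm hOF zero_le_one (fun _ _ => by simp) v) hB0
  rw [mul_one] at h8
  refine h8.congr fun k hk => ?_
  rw [smul_mul_assoc, one_mul, ← dg_smul]
  refine dg_congr fun j hj => ?_
  rw [mul_one, hconst k hk j hj]

end ultra

end Vale.Agent.P092.H589.K2
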