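import Vale.Agent.P092.H589.K2a
import Vale.Agent.P092.H589.K2v
import Vale.Agent.P092.H835.NF

/-!
P092, TEAM N, block [N-K2] (helper589), part w: **the unit lemma** (all cells at one point scale).
-/

set_option linter.unusedSectionVars false

namespace Vale.Agent.P092.H589.K2

open Finset Vale.Agent.P092.H589.Mu
open Vale.Agent.P092.H464 (Pv)

variable {K : Type} [NormedAddCommGroup K] [InnerProductSpace ℂ K] [CompleteSpace K]

/-- Minkowski for finitely many families of vectors -/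
theorem mink_sum {κ ι : Type*} (S : Finset κ) (I : Finset ι) (x : ι → κ → K) (a : ι → ℝ)
    (ha : ∀ i ∈ I, 0 ≤ a i) (h : ∀ i ∈ I, ∑ k ∈ S, ‖x i k‖ ^ 2 ≤ a i ^ 2) :
    ∑ k ∈ S, ‖∑ i ∈ I, x i k‖ ^ 2 ≤ (∑ i ∈ I, a i) ^ 2 := by
  classical
  induction I using Finset.induction_on with
  | empty => simp
  | insert j I hj ih =>
    simp_rw [sum_insert hj]
    exact mink S (fun k => ‖x j k‖) (fun k => ‖∑ i ∈ I, x i k‖) _ (fun _ _ => norm_nonneg _)
      (ha j (mem_insert_self j I)) (sum_nonneg fun i hi => ha i (mem_insert_of_mem hi))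
      (h j (mem_insert_self j I)) (ih (fun i hi => ha i (mem_insert_of_mem hi))
        fun i hi => h i (mem_insert_of_mem hi)) fun k _ => norm_add_le _ _

section unit

variable {𝕜 : Type} [NontriviallyNormedField 𝕜] [ProperSpace 𝕜] [MeasurableSpace 𝕜] [BorelSpace 𝕜]
variable {β γ : Type} [Fintype β] [DecidableEq β] [Fintype γ]
variable {φ : (γ → 𝕜) → ℂ}

/-- the minors of two vectors -/
def mn (v w : β → 𝕜) (a b : β) : 𝕜 := v a * w b - w a * v b

lemma mn_sub_le {ν ω ω' : β → 𝕜} (hν : ‖ν‖ ≤ 1) (a b : β) :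
    ‖mn ν ω a b‖ ≤ ‖mn ν ω' a b‖ + 2 * ‖ω - ω'‖ := by
  have e : mn ν ω a b = mn ν ω' a b + (ν a * (ω - ω') b - (ω - ω') a * ν b) := by
    simp only [mn, Pi.sub_apply]; ring
  have h1 : ∀ c, ‖ν c‖ ≤ 1 := fun c => (norm_le_pi_norm ν c).trans hν
  have h2 : ∀ c, ‖(ω - ω') c‖ ≤ ‖ω - ω'‖ := norm_le_pi_norm _
  rw [e]
  refine (norm_add_le _ _).trans (add_le_add le_rfl ?_)
  refine (norm_sub_le _ _).trans ?_
  rw [norm_mul, norm_mul]
  have h3 : ‖ν a‖ * ‖(ω - ω') b‖ ≤ 1 * ‖ω - ω'‖ :=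
    mul_le_mul (h1 a) (h2 b) (norm_nonneg _) zero_le_one
  have h4 : ‖(ω - ω') a‖ * ‖ν b‖ ≤ ‖ω - ω'‖ * 1 :=
    mul_le_mul (h2 a) (h1 b) (norm_nonneg _) (norm_nonneg _)
  linarith

/-- a measurable condition: all minors with a fixed vector are small -/
lemma meas_mn {Y : Type} [MeasurableSpace Y] {q : Y → β → 𝕜} (hq : Measurable q) (w : β → 𝕜)
    (δ : ℝ) : MeasurableSet {y | ∀ a b, ‖mn (q y) w a b‖ ≤ δ} := by
  have e : {y | ∀ a b, ‖mn (q y) w a b‖ ≤ δ} = ⋂ a, ⋂ b, {y | ‖mn (q y) w a b‖ ≤ δ} := by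
    ext y; simp
  rw [e]
  refine MeasurableSet.iInter fun a => MeasurableSet.iInter fun b => ?_
  have hc : Continuous fun v : β → 𝕜 => ‖mn v w a b‖ := by
    unfold mn
    exact (((continuous_apply a).mul continuous_const).sub
      (continuous_const.mul (continuous_apply b))).norm
  exact hq (isClosed_le hc continuous_const).measurableSet

theorem unit (cl : Cells 𝕜) (hφ : Tame K φ) (C₁ : ℝ) (hC₁ : 1 ≤ C₁) : ∃ C : ℝ, 0 ≤ C ∧
    ∀ (Y : Type) [MeasurableSpace Y] (q : Y → β → 𝕜), Measurable q → (∀ y, Nrm (q y)) →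
    ∀ (Ls Ln : Set Y → (K →L[ℂ] K)), Pv Ls → Pv Ln →
    ∀ (κ : Type) (S : Finset κ) (L : κ → (β → 𝕜) →ₗ[𝕜] (γ → 𝕜)),
    (∀ k ∈ S, ∀ v, ‖L k v‖ ≤ C₁ * ‖v‖) → ∀ J : ℕ, (∀ k ∈ S, ∀ y, (1 / 2) ^ J ≤ ‖L k (q y)‖) →
    ∀ (E W : κ → (K →L[ℂ] K)) (F : κ → Y → ℂ) (N : ℝ), 0 ≤ N → Cap S E N →
    (∀ k ∈ S, ∀ y, F k y = φ (L k (q y))) → (∀ k ∈ S, Measurable (F k)) →
    (∀ k ∈ S, Opf Ls (F k) (W k)) → ∀ Z : K →L[ℂ] K,
    (∀ k ∈ S, ∀ A D : Set Y, MeasurableSet A → MeasurableSet D →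
      (∀ ν ∈ A, ∀ ω ∈ D, ∃ a b, C₁ * ‖L k (q ω)‖ < ‖mn (q ν) (q ω) a b‖) →
      Ln A * (E k * (W k * (Ls D * Z))) = 0) →
    ∀ v, ∑ k ∈ S, ‖E k (W k (Z v))‖ ^ 2 ≤ (C * (J + 1) * N) ^ 2 * ‖Z v‖ ^ 2 := by
  classical
  obtain ⟨τ, hτ⟩ := NormedField.exists_one_lt_norm 𝕜
  have hτ0 : 0 < ‖τ‖ := one_pos.trans hτ
  set U : ℝ := 2 * (1 + C₁) with hU
  have hU0 : 0 < U := by positivity
  set R : ℝ := C₁ * U + 3 with hR
  obtain ⟨M, hM⟩ := code_count (c := cl) (ι := β) R 1
  obtain ⟨MT, hMT0, hMT⟩ := hφ.op (Option β) (max U C₁) (1 / ‖τ‖) (by positivity)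
  refine ⟨Real.sqrt M * MT, by positivity, ?_⟩
  intro Y _ q hq hn Ls Ln hLs hLn κ S L hL J hJ E W F N hN hE hF hFm hW Z hins v
  -- codes
  have hcodes : ∀ m : ℕ, ∃ 𝒞 : Finset (β → cl.T), ∀ y, code cl m (q y) ∈ 𝒞 := by
    intro m
    obtain ⟨M', hM'⟩ := code_count_ball (c := cl) (ι := β) (2 ^ m)
    obtain ⟨𝒞, _, h𝒞⟩ := hM' m 0
    refine ⟨𝒞, fun y => h𝒞 _ ?_⟩
    rw [sub_zero, ← mul_pow]
    norm_num
    exact (hn y).1
  choose 𝒞 h𝒞 using hcodes
  set cell : ℕ → (β → cl.T) → Set Y := fun m t => {y | code cl m (q y) = t} with hcell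
  have hcm : ∀ m t, MeasurableSet (cell m t) := fun m t => measurable_code hq m t
  have hcd : ∀ m t t', t ≠ t' → Disjoint (cell m t) (cell m t') := fun m t t' htt =>
    Set.disjoint_left.2 fun y h1 h2 => htt ((h1 : code cl m (q y) = t).symm.trans h2)
  -- good cells
  set good : κ → ℕ → Y → Prop := fun k m y =>
    ∀ y', code cl m (q y') = code cl m (q y) → (1 / 2) ^ m ≤ ‖L k (q y')‖ with hgood
  have good_congr : ∀ k m y y', code cl m (q y') = code cl m (q y) → (good k m y ↔ good k m y') := by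
    intro k m y y' h
    simp only [hgood, h]
  set FG : κ → ℕ → Y → Prop := fun k m y => good k m y ∧ ∀ m' < m, ¬ good k m' y with hFG
  have FG_congr : ∀ k m y y', code cl m (q y') = code cl m (q y) → FG k m y → FG k m y' := by
    intro k m y y' h hy
    refine ⟨(good_congr k m y y' h).1 hy.1, fun m' hm' hg => hy.2 m' hm' ?_⟩
    exact (good_congr k m' y y' (code_nest_le hm'.le h)).2 hg
  have FG_ex : ∀ k ∈ S, ∀ y, ∃ m ∈ range (J + 1), FG k m y := by
    intro k hk y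
    have hJg : ∃ m, good k m y := ⟨J, fun y' _ => hJ k hk y'⟩
    refine ⟨Nat.find hJg, ?_, Nat.find_spec hJg, fun m' hm' => Nat.find_min hJg hm'⟩
    rw [mem_range, Nat.lt_succ_iff]
    exact Nat.find_min' hJg fun y' _ => hJ k hk y'
  have FG_uniq : ∀ k m m' y, FG k m y → FG k m' y → m = m' := by
    intro k m m' y h h'
    rcases lt_trichotomy m m' with h1 | h1 | h1
    · exact absurd h.1 (h'.2 m h1)
    · exact h1
    · exact absurd h'.1 (h.2 m' h1)
  have FG_up : ∀ k ∈ S, ∀ m y, FG k m y → ‖L k (q y)‖ ≤ U * (1 / 2) ^ m := by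
    intro k hk m y hy
    have hqy : ‖L k (q y)‖ ≤ C₁ := (hL k hk _).trans (by nlinarith [(hn y).1])
    rcases Nat.eq_zero_or_pos m with h0 | h0
    · rw [h0, pow_zero, mul_one, hU]; linarith
    · obtain ⟨m', rfl⟩ : ∃ m', m = m' + 1 := ⟨m - 1, by omega⟩
      have h1 := hy.2 m' (by omega)
      simp only [hgood, not_forall, not_le] at h1
      obtain ⟨y', h2, h3⟩ := h1
      have h4 : ‖q y - q y'‖ ≤ (1 / 2) ^ m' := code_small h2.symm
      have h5 : L k (q y) = L k (q y') + L k (q y - q y') := by rw [map_sub]; abel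
      have h6 : ‖L k (q y)‖ ≤ (1 / 2) ^ m' + C₁ * (1 / 2) ^ m' := by
        rw [h5]
        refine (norm_add_le _ _).trans (add_le_add h3.le ((hL k hk _).trans ?_))
        gcongr
      rw [hU, pow_succ]
      linarith
  set 𝒲 : κ → ℕ → Finset (β → cl.T) := fun k m =>
    (𝒞 m).filter fun t => ∃ y, code cl m (q y) = t ∧ FG k m y with h𝒲
  have h𝒲c : ∀ k m t, t ∈ 𝒲 k m → ∀ y ∈ cell m t, FG k m y := by
    intro k m t ht y hy
    obtain ⟨y', h1, h2⟩ := (mem_filter.1 ht).2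
    exact FG_congr k m y' y ((hy : code cl m (q y) = t).trans h1.symm) h2
  -- decomposition of the identity
  have hdec : ∀ k ∈ S, (1 : K →L[ℂ] K) = ∑ m ∈ range (J + 1), ∑ t ∈ 𝒲 k m, Ls (cell m t) := by
    intro k hk
    have hu : ∀ m, {y | FG k m y} = ⋃ t ∈ 𝒲 k m, cell m t := by
      intro m
      ext y
      simp only [Set.mem_iUnion, exists_prop]
      constructor
      · intro hy
        exact ⟨code cl m (q y), mem_filter.2 ⟨h𝒞 m y, y, rfl, hy⟩, rfl⟩
      · rintro ⟨t, ht, hy⟩; exact h𝒲c k m t ht y hy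
    have h1 : ∀ m, Ls {y | FG k m y} = ∑ t ∈ 𝒲 k m, Ls (cell m t) := by
      intro m
      rw [hu m]
      exact hLs.sum _ _ (fun t _ => hcm m t) fun t _ t' _ htt => hcd m t t' htt
    have hm1 : ∀ m, MeasurableSet {y | FG k m y} := by
      intro m
      rw [hu m]
      exact Finset.measurableSet_biUnion _ fun t _ => hcm m t
    have h2 : (Set.univ : Set Y) = ⋃ m ∈ range (J + 1), {y | FG k m y} := by
      ext y
      simp only [Set.mem_univ, Set.mem_iUnion, exists_prop, true_iff]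
      exact FG_ex k hk y
    rw [← hLs.univ, h2, hLs.sum _ _ (fun m _ => hm1 m) fun m _ m' _ hmm =>
      Set.disjoint_left.2 fun y hy hy' => hmm (FG_uniq k m m' y hy hy')]
    exact sum_congr rfl fun m _ => h1 m
  -- one level
  set x : ℕ → κ → K := fun m k => ∑ t ∈ 𝒲 k m, E k (W k (Ls (cell m t) (Z v))) with hx
  have hsum : ∀ k ∈ S, E k (W k (Z v)) = ∑ m ∈ range (J + 1), x m k := by
    intro k hk
    have e : Z v = ∑ m ∈ range (J + 1), ∑ t ∈ 𝒲 k m, Ls (cell m t) (Z v) := by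
      conv_lhs => rw [← one_apply_eq_self (Z v) (F := K →L[ℂ] K), hdec k hk]
      simp only [_root_.sum_apply]
    conv_lhs => rw [e]
    simp only [map_sum, hx]
  have hlev : ∀ m ∈ range (J + 1), ∑ k ∈ S, ‖x m k‖ ^ 2 ≤ (Real.sqrt M * MT * N * ‖Z v‖) ^ 2 := by
    intro m _
    -- almost orthogonality on the left
    have hleft : ∀ k ∈ S, ‖x m k‖ ^ 2
        ≤ M * ∑ t ∈ 𝒲 k m, ‖E k (W k (Ls (cell m t) (Z v)))‖ ^ 2 := by
      intro k hk
      have hbase : ∀ t : β → cl.T, ∃ w : β → 𝕜, t ∈ 𝒲 k m → ∃ y ∈ cell m t, w = q y := by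
        intro t
        by_cases ht : t ∈ 𝒲 k m
        · obtain ⟨y, h1, _⟩ := (mem_filter.1 ht).2
          exact ⟨q y, fun _ => ⟨y, h1, rfl⟩⟩
        · exact ⟨0, fun h => absurd h ht⟩
      choose w hw using hbase
      set P : (β → cl.T) → Set Y := fun t => {y | ∀ a b, ‖mn (q y) (w t) a b‖ ≤ R * (1 / 2) ^ m}
        with hP
      have hPm : ∀ t, MeasurableSet (P t) := fun t => meas_mn hq _ _
      have hfix : ∀ t ∈ 𝒲 k m, Ln (P t) (E k (W k (Ls (cell m t) (Z v))))
          = E k (W k (Ls (cell m t) (Z v))) := by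
        intro t ht
        obtain ⟨y0, hy0, hwy⟩ := hw t ht
        have h0 : Ln (P t)ᶜ * (E k * (W k * (Ls (cell m t) * Z))) = 0 := by
          refine hins k hk _ _ (hPm t).compl (hcm m t) fun ν hν ω hω => ?_
          simp only [hP, Set.mem_compl_iff, Set.mem_ofPred_eq, not_forall, not_le] at hν
          obtain ⟨a, b, hab⟩ := hν
          refine ⟨a, b, ?_⟩
          have h1 := FG_up k hk m ω (h𝒲c k m t ht ω hω)
          have h2 : ‖w t - q ω‖ ≤ (1 / 2) ^ m := by
            rw [hwy]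
            exact code_small ((hy0 : code cl m (q y0) = t).trans (hω : code cl m (q ω) = t).symm)
          have h3 := mn_sub_le (ω := w t) (ω' := q ω) (hn ν).1 a b
          have hpos : (0 : ℝ) < (1 / 2) ^ m := by positivity
          have h4 : C₁ * ‖L k (q ω)‖ ≤ C₁ * (U * (1 / 2) ^ m) := by gcongr
          rw [hR] at hab
          nlinarith
        have h1 : Ln (P t)ᶜ (E k (W k (Ls (cell m t) (Z v)))) = 0 := by
          have := congrArg (fun T : K →L[ℂ] K => T v) h0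
          simpa using this
        rw [hLn.compl _ (hPm t)] at h1
        have h2 : E k (W k (Ls (cell m t) (Z v))) - Ln (P t) (E k (W k (Ls (cell m t) (Z v)))) = 0 := by
          simpa using h1
        exact (sub_eq_zero.1 h2).symm
      have h1 : x m k = ∑ t ∈ 𝒲 k m, Ln (P t) (E k (W k (Ls (cell m t) (Z v)))) := by
        rw [hx]
        exact sum_congr rfl fun t ht => (hfix t ht).symm
      rw [h1]
      refine hLn.mult' (𝒲 k m) P (fun t _ => hPm t) M ?_ _
      intro ν T hT hTν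
      obtain ⟨Fs, hFs1, hFs2⟩ := hM m (q ν) (hn ν).1 (hn ν).2
      refine (Finset.card_le_card fun t ht => ?_).trans hFs1
      obtain ⟨y0, hy0, hwy⟩ := hw t (hT ht)
      have h2 := hFs2 (q y0) (hn y0) fun a b => by
        have := hTν t ht a b
        rw [hwy] at this
        exact this
      rwa [(hy0 : code cl m (q y0) = t)] at h2
    -- the multiplier bound on one cell
    have hcellb : ∀ t ∈ 𝒞 m, ∑ k ∈ S.filter (fun k => t ∈ 𝒲 k m),
        ‖E k (W k (Ls (cell m t) (Z v)))‖ ^ 2 ≤ (N * MT) ^ 2 * ‖Ls (cell m t) (Z v)‖ ^ 2 := by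
      intro t _
      rcases (S.filter fun k => t ∈ 𝒲 k m).eq_empty_or_nonempty with h0 | ⟨k0, hk0⟩
      · rw [h0, sum_empty]; positivity
      obtain ⟨y0, hy0, _⟩ := (mem_filter.1 (mem_filter.1 hk0).2).2
      obtain ⟨d, hd0, hd1, hd2⟩ := H835.NF.exists_scale hτ
        (show (0 : ℝ) < (1 / 2) ^ m by positivity)
      have hdn : 0 < ‖d‖ := norm_pos_iff.2 hd0
      have hlin : ∀ k y, ∑ a : Option β, (a.elim 1 fun b => (q y b - q y0 b) / d : 𝕜) •
          (a.elim (d⁻¹ • L k (q y0)) fun b => L k (Pi.single b 1)) = d⁻¹ • L k (q y) := by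
        intro k y
        rw [Fintype.sum_option]
        simp only [Option.elim_none, Option.elim_some, one_smul]
        have e : q y = q y0 + ∑ b, (q y b - q y0 b) • (Pi.single b (1 : 𝕜) : β → 𝕜) := by
          funext c
          rw [Pi.add_apply, Finset.sum_apply]
          simp [Pi.single_apply]
        conv_rhs => rw [e, map_add, map_sum, smul_add, smul_sum]
        congr 1
        refine sum_congr rfl fun b _ => ?_
        rw [map_smul, smul_smul, div_eq_inv_mul]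
      have hmul := hMT Y Ls hLs (cell m t) (hcm m t) κ (S.filter fun k => t ∈ 𝒲 k m)
        (fun a y => (a.elim 1 fun b => (q y b - q y0 b) / d : 𝕜))
        (fun k a => a.elim (d⁻¹ • L k (q y0)) fun b => L k (Pi.single b 1)) F W ?_ ?_ ?_ ?_ ?_ ?_
      · have h2 := hmul _ (subset_refl _) E N hN (hE.sub (filter_subset _ _)) (Ls (cell m t) (Z v))
        refine le_trans (le_of_eq ?_) h2
        refine sum_congr rfl fun k _ => ?_
        have h3 : Ls (cell m t) (Ls (cell m t) (Z v)) = Ls (cell m t) (Z v) := by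
          conv_rhs => rw [← hLs.idem (hcm m t)]
          rfl
        change _ = ‖E k (W k (Ls (cell m t) (Ls (cell m t) (Z v))))‖ ^ 2
        rw [h3]
      · intro a y hy
        cases a with
        | none => simp
        | some b =>
          simp only [Option.elim_some]
          rw [norm_div, div_le_one hdn]
          have h3 : ‖q y - q y0‖ ≤ (1 / 2) ^ m :=
            code_small ((hy : code cl m (q y) = t).trans hy0.symm)
          exact ((norm_le_pi_norm (q y - q y0) b).trans h3).trans hd1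
      · intro k hk a
        obtain ⟨hkS, hkt⟩ := mem_filter.1 hk
        cases a with
        | none =>
          simp only [Option.elim_none]
          rw [norm_smul, norm_inv, ← div_eq_inv_mul, div_le_iff₀ hdn]
          refine ((FG_up k hkS m y0 (h𝒲c k m t hkt y0 hy0)).trans ?_)
          exact mul_le_mul (le_max_left _ _) hd1 (by positivity) (le_max_of_le_left hU0.le)
        | some b =>
          simp only [Option.elim_some]
          refine (hL k hkS _).trans (le_trans ?_ (le_max_right _ _))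
          have : ‖(Pi.single b (1 : 𝕜) : β → 𝕜)‖ ≤ 1 := by
            rw [Pi.norm_single, norm_one]
          nlinarith
      · intro k hk y hy
        obtain ⟨hkS, hkt⟩ := mem_filter.1 hk
        rw [hlin, norm_smul, norm_inv, ← div_eq_inv_mul, div_le_div_iff₀ hτ0 hdn, one_mul]
        have h3 : (1 / 2 : ℝ) ^ m ≤ ‖L k (q y)‖ := (h𝒲c k m t hkt y hy).1 y rfl
        calc ‖d‖ ≤ ‖τ‖ * (1 / 2) ^ m := hd2
          _ ≤ ‖τ‖ * ‖L k (q y)‖ := by gcongr
          _ = _ := mul_comm _ _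
      · intro k hk y hy
        rw [hlin, hφ.1 _ _ (inv_ne_zero hd0)]
        exact hF k (mem_filter.1 hk).1 y
      · exact fun k hk => hFm k (mem_filter.1 hk).1
      · exact fun k hk => hW k (mem_filter.1 hk).1
    calc ∑ k ∈ S, ‖x m k‖ ^ 2
        ≤ ∑ k ∈ S, M * ∑ t ∈ 𝒲 k m, ‖E k (W k (Ls (cell m t) (Z v)))‖ ^ 2 := sum_le_sum hleft
      _ = M * ∑ t ∈ 𝒞 m, ∑ k ∈ S.filter (fun k => t ∈ 𝒲 k m),
            ‖E k (W k (Ls (cell m t) (Z v)))‖ ^ 2 := by
          rw [← mul_sum]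
          congr 1
          have h1 : ∀ k ∈ S, ∑ t ∈ 𝒲 k m, ‖E k (W k (Ls (cell m t) (Z v)))‖ ^ 2
              = ∑ t ∈ 𝒞 m, if t ∈ 𝒲 k m then ‖E k (W k (Ls (cell m t) (Z v)))‖ ^ 2 else 0 := by
            intro k _
            rw [← sum_filter]
            refine sum_congr ?_ fun _ _ => rfl
            ext t
            exact ⟨fun h => mem_filter.2 ⟨(mem_filter.1 h).1, h⟩, fun h => (mem_filter.1 h).2⟩
          rw [sum_congr rfl h1, sum_comm]
          exact sum_congr rfl fun t _ => by rw [sum_filter]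
      _ ≤ M * ∑ t ∈ 𝒞 m, (N * MT) ^ 2 * ‖Ls (cell m t) (Z v)‖ ^ 2 := by
          gcongr with t ht
          exact hcellb t ht
      _ = M * ((N * MT) ^ 2 * ∑ t ∈ 𝒞 m, ‖Ls (cell m t) (Z v)‖ ^ 2) := by
          congr 1
          rw [mul_sum]
      _ ≤ M * ((N * MT) ^ 2 * ‖Z v‖ ^ 2) := by
          gcongr
          exact hLs.bessel (𝒞 m) (cell m) (fun t _ => hcm m t)
            (fun t _ t' _ htt => hcd m t t' htt) _
      _ = (Real.sqrt M * MT * N * ‖Z v‖) ^ 2 := by
          have : (Real.sqrt M) ^ 2 = M := Real.sq_sqrt (Nat.cast_nonneg _)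
          calc (M : ℝ) * ((N * MT) ^ 2 * ‖Z v‖ ^ 2)
              = (Real.sqrt M) ^ 2 * ((N * MT) ^ 2 * ‖Z v‖ ^ 2) := by rw [this]
            _ = _ := by ring
  have := mink_sum S (range (J + 1)) x (fun _ => Real.sqrt M * MT * N * ‖Z v‖)
    (fun _ _ => by positivity) hlev
  rw [sum_congr rfl fun k hk => by rw [hsum k hk]]
  refine this.trans (le_of_eq ?_)
  rw [sum_const, card_range, nsmul_eq_mul]
  push_cast
  ring

end unit

end Vale.Agent.P092.H589.K2
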