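import Vale.Agent.P092.H589.K2y

/-!
P092, TEAM N, block [N-K2] (helper589), part z: the zoomed step, operators.
-/

set_option linter.unusedSectionVars false

namespace Vale.Agent.P092.H589.K2

open Finset Matrix Vale.Agent.P092.H589.Mu
open Vale.Agent.P092.H464 (Pv CI)
open Vale.Agent.P092.H820 (wd)
open Vale.Agent.P092.H87.N (cn)
open Vale.Agent.P092.H835.PlF (w3 Alt sq sq_wd alt_wd alt_sq)
open Vale.Agent.P092.H835.NF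

variable (K : Type) [NormedAddCommGroup K] [InnerProductSpace ℂ K] [CompleteSpace K]
variable {𝕜 : Type} [NontriviallyNormedField 𝕜] [ProperSpace 𝕜] [MeasurableSpace 𝕜] [BorelSpace 𝕜]
variable {ι : Type} [Fintype ι] [DecidableEq ι]

/-- the data of the near-wall estimate -/
structure KD (C : ℝ) (φ : (ι × ι → 𝕜) → ℂ) {X Y : Type} [MeasurableSpace X] [MeasurableSpace Y]
    (s : X → ι → 𝕜) (p : Y → ι × ι → 𝕜) (Inc : X → Y → Prop) (Pb Pz : Set X → (K →L[ℂ] K))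
    (Ls Ln : Set Y → (K →L[ℂ] K)) {κ : Type} (S : Finset κ) (i : ι) (η : κ → ι → 𝕜) (ϖ : κ → 𝕜)
    (A A' : κ → Matrix ι ι 𝕜) (r : ℝ) (B : κ → Set X) (E W : κ → (K →L[ℂ] K)) (F : κ → Y → ℂ)
    (N : ℝ) : Prop where
  ms : Measurable s
  mp : Measurable p
  ns : ∀ x, Nrm (s x)
  np : ∀ y, Nrm (p y)
  al : ∀ y, Alt (p y)
  ic : ∀ x y, Inc x y → w3 (s x) (p y) = 0
  pb : Pv Pb
  pz : Pv Pz
  ls : Pv Ls
  ln : Pv Ln
  bn : CI Inc Pb Ln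
  zn : CI Inc Pz Ln
  zs : CI Inc Pz Ls
  r0 : 0 < r
  ei : ∀ k ∈ S, η k i = 1
  el : ∀ k ∈ S, ‖η k‖ ≤ C
  wl : ∀ k ∈ S, r ≤ C * ‖ϖ k‖
  wu : ∀ k ∈ S, ‖ϖ k‖ ≤ C * r
  aa : ∀ k ∈ S, A' k * A k = 1
  al1 : ∀ k ∈ S, ∀ a b, ‖A k a b‖ ≤ C
  al2 : ∀ k ∈ S, ∀ a b, ‖A' k a b‖ ≤ C
  mb : ∀ k ∈ S, MeasurableSet (B k)
  bi : ∀ k ∈ S, ∀ x ∈ B k, s x i ≠ 0 ∧ ‖(s x i)⁻¹ • s x - η k‖ ≤ C * r
  mi : ∀ k ∈ S, MeasurableSet {y | ∃ x ∈ B k, Inc x y}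
  n0 : 0 ≤ N
  eb : ∀ k ∈ S, E k * Pb (B k) = E k
  en : ∀ k ∈ S, ∀ A, MeasurableSet A → E k * Ln A = Ln A * E k
  cap : Cap S E N
  ff : ∀ k ∈ S, ∀ y, F k y = φ (sq (A k * Dm i (η k) (ϖ k)) *ᵥ p y)
  mf : ∀ k ∈ S, Measurable (F k)
  op : ∀ k ∈ S, Opf Ls (F k) (W k)
  wz : ∀ k ∈ S, ∀ A, MeasurableSet A → W k * Pz A = Pz A * W k

variable {K}

theorem KD.sub {C : ℝ} {φ : (ι × ι → 𝕜) → ℂ} {X Y : Type} [MeasurableSpace X] [MeasurableSpace Y]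
    {s : X → ι → 𝕜} {p : Y → ι × ι → 𝕜} {Inc : X → Y → Prop} {Pb Pz : Set X → (K →L[ℂ] K)}
    {Ls Ln : Set Y → (K →L[ℂ] K)} {κ : Type} {S T : Finset κ} {i : ι} {η : κ → ι → 𝕜} {ϖ : κ → 𝕜}
    {A A' : κ → Matrix ι ι 𝕜} {r : ℝ} {B : κ → Set X} {E W : κ → (K →L[ℂ] K)} {F : κ → Y → ℂ}
    {N : ℝ} (h : KD K C φ s p Inc Pb Pz Ls Ln S i η ϖ A A' r B E W F N) (hT : T ⊆ S) :
    KD K C φ s p Inc Pb Pz Ls Ln T i η ϖ A A' r B E W F N where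
  ms := h.ms
  mp := h.mp
  ns := h.ns
  np := h.np
  al := h.al
  ic := h.ic
  pb := h.pb
  pz := h.pz
  ls := h.ls
  ln := h.ln
  bn := h.bn
  zn := h.zn
  zs := h.zs
  r0 := h.r0
  ei := fun k hk => h.ei k (hT hk)
  el := fun k hk => h.el k (hT hk)
  wl := fun k hk => h.wl k (hT hk)
  wu := fun k hk => h.wu k (hT hk)
  aa := fun k hk => h.aa k (hT hk)
  al1 := fun k hk => h.al1 k (hT hk)
  al2 := fun k hk => h.al2 k (hT hk)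
  mb := fun k hk => h.mb k (hT hk)
  bi := fun k hk => h.bi k (hT hk)
  mi := fun k hk => h.mi k (hT hk)
  n0 := h.n0
  eb := fun k hk => h.eb k (hT hk)
  en := fun k hk => h.en k (hT hk)
  cap := h.cap.sub hT
  ff := fun k hk => h.ff k (hT hk)
  mf := fun k hk => h.mf k (hT hk)
  op := fun k hk => h.op k (hT hk)
  wz := fun k hk => h.wz k (hT hk)

/-- the finite partition by codes -/
lemma zpart (cl : Cells 𝕜) {X : Type} [MeasurableSpace X] {s : X → ι → 𝕜} (hs : Measurable s)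
    (hn : ∀ x, Nrm (s x)) {P : Set X → (K →L[ℂ] K)} (hP : Pv P) {Z : Set X}
    (hZ : MeasurableSet Z) (m : ℕ) : ∃ 𝒞 : Finset (ι → cl.T),
      P Z = ∑ t ∈ 𝒞, P (Z ∩ {x | code cl m (s x) = t}) := by
  classical
  obtain ⟨M', hM'⟩ := code_count_ball (c := cl) (ι := ι) (2 ^ m)
  obtain ⟨𝒞, _, h𝒞⟩ := hM' m 0
  refine ⟨𝒞, ?_⟩
  rw [← hP.sum 𝒞 _ (fun t _ => hZ.inter (measurable_code hs m t)) fun t _ t' _ htt =>
    Set.disjoint_left.2 fun x h1 h2 => htt (h1.2.symm.trans h2.2)]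
  congr 1
  ext x
  simp only [Set.mem_iUnion, Set.mem_inter_iff, Set.mem_ofPred_eq, exists_prop]
  refine ⟨fun hx => ⟨code cl m (s x), h𝒞 _ ?_, hx, rfl⟩, fun ⟨t, _, hx, _⟩ => hx⟩
  rw [sub_zero, ← mul_pow]
  norm_num
  exact (hn x).1

lemma alt_smul {ω : ι × ι → 𝕜} (h : Alt ω) (c : 𝕜) : Alt (c • ω) :=
  ⟨fun a => by rw [Pi.smul_apply, h.diag, smul_zero],
    fun a b => by rw [Pi.smul_apply, Pi.smul_apply, h.anti a b, smul_neg]⟩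

lemma sq_one' : H835.PlF.sq (1 : Matrix ι ι 𝕜) = 1 := Matrix.one_kronecker_one

/-- insulation of a point cell -/
lemma zins (cl : Cells 𝕜) {C : ℝ} {φ : (ι × ι → 𝕜) → ℂ} {X Y : Type} [MeasurableSpace X]
    [MeasurableSpace Y] {s : X → ι → 𝕜} {p : Y → ι × ι → 𝕜} {Inc : X → Y → Prop}
    {Pb Pz : Set X → (K →L[ℂ] K)} {Ls Ln : Set Y → (K →L[ℂ] K)} {κ : Type} {S : Finset κ} {i : ι}
    {η : κ → ι → 𝕜} {ϖ : κ → 𝕜} {A A' : κ → Matrix ι ι 𝕜} {r : ℝ} {B : κ → Set X}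
    {E W : κ → (K →L[ℂ] K)} {F : κ → Y → ℂ} {N : ℝ}
    (h : KD K C φ s p Inc Pb Pz Ls Ln S i η ϖ A A' r B E W F N) {k : κ} (hk : k ∈ S) {Z : Set X}
    (hZ : MeasurableSet Z) (m' : ℕ) {A₀ D : Set Y} (hA₀ : MeasurableSet A₀) (hD : MeasurableSet D)
    (habs : ∀ ν ∈ A₀, ∀ ω ∈ D, ∀ x ∈ B k, Inc x ν → ∀ z₁ ∈ Z, ∀ z₂ ∈ Z, Inc z₁ ν →
      Inc z₂ ω → code cl m' (s z₁) = code cl m' (s z₂) → False) :
    Ln A₀ * (E k * (W k * (Ls D * Pz Z))) = 0 := by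
  classical
  set BB : Set Y := {y | ∃ x ∈ B k, Inc x y} with hBB
  have hBBm : MeasurableSet BB := h.mi k hk
  -- the rest of `A₀` is killed by `E k`
  have hE1 : Ln A₀ * E k = Ln (A₀ ∩ BB) * E k := by
    have h1 : A₀ = (A₀ ∩ BB) ∪ (A₀ \ BB) := (Set.inter_union_sdiff A₀ BB).symm
    have h2 : Disjoint (A₀ ∩ BB) (A₀ \ BB) := by
      rw [Set.disjoint_left]
      rintro y ⟨_, h3⟩ ⟨_, h4⟩
      exact h4 h3
    have h3 : Ln A₀ = Ln (A₀ ∩ BB) + Ln (A₀ \ BB) := by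
      conv_lhs => rw [h1]
      exact h.ln.add (hA₀.inter hBBm) (hA₀.diff hBBm) h2
    have h4 : Ln (A₀ \ BB) * E k = 0 := by
      rw [← h.en k hk _ (hA₀.diff hBBm), ← h.eb k hk, mul_assoc,
        h.bn.inc (B k) (A₀ \ BB) (h.mb k hk) (hA₀.diff hBBm) ?_, mul_zero]
      intro x hx y hy hxy
      exact hy.2 ⟨x, hx, hxy⟩
    rw [h3, add_mul, h4, add_zero]
  obtain ⟨𝒞, h𝒞⟩ := zpart cl h.ms h.ns h.pz hZ m'
  have hzero : ∀ t ∈ 𝒞, Ln (A₀ ∩ BB) * (E k * (W k * (Ls D * Pz (Z ∩ {x | code cl m' (s x) = t}))))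
      = 0 := by
    intro t _
    set Zt : Set X := Z ∩ {x | code cl m' (s x) = t} with hZt
    have hZtm : MeasurableSet Zt := hZ.inter (measurable_code h.ms m' t)
    by_cases hc1 : ∀ z ∈ Zt, ∀ ω ∈ D, ¬ Inc z ω
    · have h1 : Pz Zt * Ls D = 0 := h.zs.inc Zt D hZtm hD hc1
      rw [← h.zs.comm Zt D hZtm hD, h1, mul_zero, mul_zero, mul_zero]
    · have hc2 : ∀ z ∈ Zt, ∀ ν ∈ A₀ ∩ BB, ¬ Inc z ν := by
        push Not at hc1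
        obtain ⟨z₂, hz₂, ω, hω, hi₂⟩ := hc1
        rintro z₁ hz₁ ν ⟨hν, x, hx, hxν⟩ hi₁
        exact habs ν hν ω hω x hx hxν z₁ hz₁.1 z₂ hz₂.1 hi₁ hi₂ (hz₁.2.trans hz₂.2.symm)
      have h1 : Pz Zt * Ln (A₀ ∩ BB) = 0 := h.zn.inc Zt _ hZtm (hA₀.inter hBBm) hc2
      have h2 : Ls D * Pz Zt = Pz Zt * (Ls D * Pz Zt) := by
        rw [← mul_assoc, h.zs.comm Zt D hZtm hD, mul_assoc, h.pz.idem hZtm]
      calc Ln (A₀ ∩ BB) * (E k * (W k * (Ls D * Pz Zt)))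
          = (Ln (A₀ ∩ BB) * E k) * (W k * (Pz Zt * (Ls D * Pz Zt))) := by
            rw [← h2, mul_assoc]
        _ = (E k * Ln (A₀ ∩ BB)) * ((W k * Pz Zt) * (Ls D * Pz Zt)) := by
            rw [h.en k hk _ (hA₀.inter hBBm), mul_assoc (W k)]
        _ = E k * ((Pz Zt * Ln (A₀ ∩ BB)) * (W k * (Ls D * Pz Zt))) := by
            rw [h.wz k hk _ hZtm, h.zn.comm Zt _ hZtm (hA₀.inter hBBm)]
            simp only [mul_assoc]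
        _ = 0 := by rw [h1, zero_mul, mul_zero]
  calc Ln A₀ * (E k * (W k * (Ls D * Pz Z)))
      = (Ln A₀ * E k) * (W k * (Ls D * Pz Z)) := by rw [mul_assoc]
    _ = Ln (A₀ ∩ BB) * (E k * (W k * (Ls D * Pz Z))) := by rw [hE1, mul_assoc]
    _ = 0 := by
        rw [h𝒞]
        simp only [mul_sum]
        exact sum_eq_zero hzero

/-- **the zoomed step**: one point cell at the scale `‖ρ‖` -/
theorem zstep (cl : Cells 𝕜) {φ : (ι × ι → 𝕜) → ℂ} (hφ : Tame K φ) (C₂ : ℝ) (hC₂ : 1 ≤ C₂) :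
    ∃ C : ℝ, 0 ≤ C ∧ ∀ (X Y : Type) [MeasurableSpace X] [MeasurableSpace Y]
      (s : X → ι → 𝕜) (p : Y → ι × ι → 𝕜) (Inc : X → Y → Prop) (Pb Pz : Set X → (K →L[ℂ] K))
      (Ls Ln : Set Y → (K →L[ℂ] K)) (κ : Type) (S : Finset κ) (i : ι) (η : κ → ι → 𝕜) (ϖ : κ → 𝕜)
      (A A' : κ → Matrix ι ι 𝕜) (r : ℝ) (B : κ → Set X) (E W : κ → (K →L[ℂ] K)) (F : κ → Y → ℂ)
      (N : ℝ), KD K C₂ φ s p Inc Pb Pz Ls Ln S i η ϖ A A' r B E W F N →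
      ∀ (g : ι → 𝕜) (ρ : 𝕜), g i = 1 → ‖g‖ ≤ C₂ → ρ ≠ 0 → (∀ k ∈ S, ‖η k - g‖ ≤ C₂ * ‖ρ‖) →
      r ≤ C₂ * ‖ρ‖ → ∀ J : ℕ, (1 / 2) ^ J * ‖ρ‖ ≤ r → ∀ Z : Set X, MeasurableSet Z →
      (∀ k ∈ S, ∀ z ∈ Z, ‖s z - s z i • η k‖ ≤ C₂ * ‖ρ‖) →
      (‖ρ‖ ≤ C₂ * r ∨ ∀ k ∈ S, ∀ x ∈ B k, ∀ z ∈ Z, ‖ρ‖ ≤ C₂ * ‖s z - (s z i / s x i) • s x‖) →
      ∀ v, ∑ k ∈ S, ‖E k (W k (Pz Z v))‖ ^ 2 ≤ (C * (J + 1) * N) ^ 2 * ‖Pz Z v‖ ^ 2 := by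
  classical
  have hC0 : 0 ≤ C₂ := zero_le_one.trans hC₂
  have hz0 := zc_pos hC₂
  have hcn : 0 ≤ cn ι := cn_nonneg
  set c1 : ℝ := cn ι ^ 2 * C₂ ^ 2 * (cn ι ^ 2 * (1 + zc C₂) ^ 2) with hc1
  set c2 : ℝ := C₂ * ((C₂ ^ 2 + 2 * zc C₂) * (cn ι ^ 2 * C₂ ^ 2)) with hc2
  set c3 : ℝ := (3 * zc C₂ + 3 * (C₂ + C₂ ^ 2) * (C₂ ^ 2 + 2 * zc C₂)) * (cn ι ^ 2 * C₂ ^ 2)
    with hc3
  set c4 : ℝ := zc C₂ + (C₂ + C₂ ^ 2) * C₂ ^ 2 with hc4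
  have hc1p : 0 ≤ c1 := by positivity
  have hc2p : 0 ≤ c2 := by positivity
  have hc3p : 0 ≤ c3 := by positivity
  have hc4p : 0 ≤ c4 := by positivity
  set C₁ : ℝ := 1 + c1 + 2 * (C₂ * c2) + (C₂ * (2 * (3 * C₂ * c3)) + 1) with hC₁
  have hC₁1 : 1 ≤ C₁ := by
    have : 0 ≤ c1 + 2 * (C₂ * c2) + (C₂ * (2 * (3 * C₂ * c3)) + 1) := by positivity
    linarith
  obtain ⟨J₁, hJ₁⟩ : ∃ J₁ : ℕ, c2 < 2 ^ J₁ := pow_unbounded_of_one_lt c2 one_lt_two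
  obtain ⟨CU, hCU0, hCU⟩ := unit (β := ι × ι) (γ := ι × ι) cl hφ C₁ hC₁1
  refine ⟨CU * (J₁ + 1), by positivity, ?_⟩
  intro X Y _ _ s p Inc Pb Pz Ls Ln κ S i η ϖ A A' r B E W F N h g ρ hgi hgC hρ hηg hrρ J hJ Z hZ
    hnear hsep v
  have zd : ∀ k ∈ S, ZD C₂ i g (η k) ρ (ϖ k) r := fun k hk =>
    ⟨hC₂, hgi, h.ei k hk, hgC, h.el k hk, hρ, hηg k hk, h.wl k hk, h.wu k hk, hrρ⟩
  have hρn : 0 < ‖ρ‖ := norm_pos_iff.2 hρ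
  -- the zoomed representative
  have hback : ∀ y, sq (Hz i g ρ) *ᵥ (sq (Hz i g ρ⁻¹) *ᵥ p y) = p y := by
    intro y
    rw [mulVec_mulVec, ← sq_mul, Hz_mul hgi, mul_inv_cancel₀ hρ, Hz_one, sq_one', one_mulVec]
  have hpm : Measurable fun y => sq (Hz i g ρ⁻¹) *ᵥ p y := by
    have hc : Continuous fun w : ι × ι → 𝕜 => sq (Hz i g ρ⁻¹) *ᵥ w :=
      Continuous.matrix_mulVec continuous_const continuous_id
    exact hc.measurable.comp h.mp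
  obtain ⟨q, hqm, hq⟩ := exists_nrm hpm (fun y h0 => by
    have h1 := hback y
    rw [h0, mulVec_zero] at h1
    exact nrm_ne (h.np y) h1.symm)
  choose hqn c hc0 hqc using hq
  have hqA : ∀ y, Alt (q y) := fun y => by
    rw [hqc y]; exact alt_smul (alt_sq _ (h.al y)) _
  have hpq : ∀ y, p y = (c y)⁻¹ • (sq (Hz i g ρ) *ᵥ q y) := by
    intro y
    rw [hqc y, mulVec_smul, smul_smul, inv_mul_cancel₀ (hc0 y), one_smul, hback]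
  have hlow : ∀ k ∈ S, ∀ y, r ≤ ‖ρ‖ * (c2 * ‖sq (A k * Nm i (zt g (η k) ρ (ϖ k))) *ᵥ q y‖) := by
    intro k hk y
    have := (zd k hk).low (h.aa k hk) (h.al2 k hk) (hqA y)
    rwa [nrm_one (hqn y), mul_one] at this
  have hlow' : ∀ k ∈ S, ∀ y,
      (1 / 2) ^ J ≤ c2 * ‖sq (A k * Nm i (zt g (η k) ρ (ϖ k))) *ᵥ q y‖ := by
    intro k hk y
    have h1 := hJ.trans (hlow k hk y)
    rw [mul_comm] at h1
    exact le_of_mul_le_mul_left h1 hρn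
  have hlow2 : ∀ k ∈ S, ∀ y,
      (1 / 2) ^ (J + J₁) ≤ ‖sq (A k * Nm i (zt g (η k) ρ (ϖ k))) *ᵥ q y‖ := by
    intro k hk y
    have h1 := hlow' k hk y
    have h2 : c2 * ‖sq (A k * Nm i (zt g (η k) ρ (ϖ k))) *ᵥ q y‖
        ≤ 2 ^ J₁ * ‖sq (A k * Nm i (zt g (η k) ρ (ϖ k))) *ᵥ q y‖ :=
      mul_le_mul_of_nonneg_right hJ₁.le (norm_nonneg _)
    have h3 : ((1 : ℝ) / 2) ^ (J + J₁) = (1 / 2) ^ J * (1 / 2) ^ J₁ := pow_add _ _ _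
    have h4 : ((1 : ℝ) / 2) ^ J₁ * 2 ^ J₁ = 1 := by rw [← mul_pow]; norm_num
    calc ((1 : ℝ) / 2) ^ (J + J₁) = (1 / 2) ^ J * (1 / 2) ^ J₁ := h3
      _ ≤ (2 ^ J₁ * ‖sq (A k * Nm i (zt g (η k) ρ (ϖ k))) *ᵥ q y‖) * (1 / 2) ^ J₁ := by
          gcongr; exact h1.trans h2
      _ = ((1 / 2) ^ J₁ * 2 ^ J₁) * ‖sq (A k * Nm i (zt g (η k) ρ (ϖ k))) *ᵥ q y‖ := by ring
      _ = _ := by rw [h4, one_mul]
  have hfin := hCU Y q hqm hqn Ls Ln h.ls h.ln κ S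
    (fun k => (H835.PlF.sq (A k * Nm i (zt g (η k) ρ (ϖ k)))).mulVecLin) ?_ (J + J₁) ?_ E W F N h.n0 h.cap
    ?_ h.mf h.op (Pz Z) ?_ v
  · refine hfin.trans ?_
    have hN := h.n0
    have h1 : (((J + J₁ : ℕ) : ℝ) + 1) ≤ (J₁ + 1) * (J + 1) := by
      push_cast
      nlinarith [mul_nonneg (Nat.cast_nonneg (α := ℝ) J) (Nat.cast_nonneg (α := ℝ) J₁)]
    have h2 : CU * (((J + J₁ : ℕ) : ℝ) + 1) * N ≤ CU * (J₁ + 1) * (J + 1) * N := by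
      calc CU * (((J + J₁ : ℕ) : ℝ) + 1) * N ≤ CU * ((J₁ + 1) * (J + 1)) * N := by gcongr
        _ = _ := by ring
    exact mul_le_mul_of_nonneg_right (pow_le_pow_left₀ (by positivity) h2 2) (sq_nonneg _)
  · intro k hk w
    rw [mulVecLin_apply]
    refine ((zd k hk).up (h.al1 k hk) w).trans ?_
    gcongr
    rw [hC₁, ← hc1]
    have : 0 ≤ 1 + 2 * (C₂ * c2) + (C₂ * (2 * (3 * C₂ * c3)) + 1) := by positivity
    linarith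
  · intro k hk y
    rw [mulVecLin_apply]
    exact hlow2 k hk y
  · intro k hk y
    rw [h.ff k hk y, mulVecLin_apply]
    have e1 : sq (A k * Dm i (η k) (ϖ k)) *ᵥ p y
        = ((c y)⁻¹ * ρ ^ 2) • (sq (A k * Nm i (zt g (η k) ρ (ϖ k))) *ᵥ q y) := by
      rw [hpq y, mulVec_smul, mulVec_mulVec, ← sq_mul, Matrix.mul_assoc, zoom hgi hρ,
        Matrix.mul_smul, sq_smul, smul_smul]
    rw [e1, hφ.1 _ _ (mul_ne_zero (inv_ne_zero (hc0 y)) (pow_ne_zero 2 hρ))]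
  · -- insulation
    intro k hk A₀ D hA₀ hD hAD
    have zk := zd k hk
    -- an absurd pair
    obtain ⟨m', hm'⟩ : ∃ m' : ℕ, C₂ * (4 * (c4 * ((C₂ + ‖ρ⁻¹‖ * (1 + C₂)) * (1 / 2) ^ m')))
        ≤ (1 / 2) ^ (J + J₁) := by
      obtain ⟨m', hm'⟩ := exists_pow_lt_of_lt_one
        (show 0 < (1 / 2 : ℝ) ^ (J + J₁) / (1 + C₂ * (4 * (c4 * (C₂ + ‖ρ⁻¹‖ * (1 + C₂))))) by
          positivity) (show (1 / 2 : ℝ) < 1 by norm_num)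
      refine ⟨m', ?_⟩
      rw [lt_div_iff₀ (by positivity)] at hm'
      have hp : (0 : ℝ) < (1 / 2) ^ m' := by positivity
      calc C₂ * (4 * (c4 * ((C₂ + ‖ρ⁻¹‖ * (1 + C₂)) * (1 / 2) ^ m')))
          = (1 / 2) ^ m' * (C₂ * (4 * (c4 * (C₂ + ‖ρ⁻¹‖ * (1 + C₂))))) := by ring
        _ ≤ (1 / 2) ^ m' * (1 + C₂ * (4 * (c4 * (C₂ + ‖ρ⁻¹‖ * (1 + C₂))))) := by
            gcongr; linarith
        _ ≤ _ := hm'.le
    have habs : ∀ ν ∈ A₀, ∀ ω ∈ D, ∀ x ∈ B k, Inc x ν → ∀ z₁ ∈ Z, ∀ z₂ ∈ Z, Inc z₁ ν →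
        Inc z₂ ω → code cl m' (s z₁) = code cl m' (s z₂) → False := by
      intro ν hν ω hω x hx hxν z₁ hz₁ z₂ hz₂ hi₁ hi₂ hcode
      obtain ⟨P, Q, hPQ⟩ := hAD ν hν ω hω
      set L : ℝ := ‖sq (A k * Nm i (zt g (η k) ρ (ϖ k))) *ᵥ q ω‖ with hL
      have hL0 : 0 ≤ L := norm_nonneg _
      have hPQ' : C₁ * L < ‖mn (q ν) (q ω) P Q‖ := hPQ
      clear hPQ
      rcases hsep with h1 | h1
      · -- no separation: `L` is bounded below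
        have h2 := hlow k hk ω
        rw [← hL] at h2
        have h3 : ‖ρ‖ * 1 ≤ ‖ρ‖ * (C₂ * (c2 * L)) := by
          calc ‖ρ‖ * 1 = ‖ρ‖ := mul_one _
            _ ≤ C₂ * r := h1
            _ ≤ C₂ * (‖ρ‖ * (c2 * L)) := by gcongr
            _ = _ := by ring
        have h4 : 1 ≤ C₂ * (c2 * L) := le_of_mul_le_mul_left h3 hρn
        have h5 : ‖mn (q ν) (q ω) P Q‖ ≤ 2 := by
          have a1 : ∀ y R, ‖q y R‖ ≤ 1 := fun y R => (norm_le_pi_norm _ R).trans (hqn y).1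
          refine (norm_sub_le _ _).trans ?_
          rw [norm_mul, norm_mul]
          have b1 := mul_le_mul (a1 ν P) (a1 ω Q) (norm_nonneg _) zero_le_one
          have b2 := mul_le_mul (a1 ω P) (a1 ν Q) (norm_nonneg _) zero_le_one
          linarith
        have h6 : 2 ≤ C₁ * L := by
          have : 0 ≤ (1 + c1 + (C₂ * (2 * (3 * C₂ * c3)) + 1)) * L := by positivity
          rw [hC₁]; nlinarith
        linarith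
      · obtain ⟨hxi, hxe⟩ := h.bi k hk x hx
        have h2 := zk.key (h.aa k hk) (h.al2 k hk) hxi hxe (h.ns z₁) (h.ns z₂)
          (hnear k hk z₂ hz₂) (h1 k hk x hx z₁ hz₁) (hqn ν) (hqn ω) (hqA ω) (hqc ν) (hqc ω)
          (h.ic x ν hxν) (h.ic z₁ ν hi₁) (h.ic z₂ ω hi₂) P Q
        rw [← hL, ← hc3, ← hc4] at h2
        have h3 : ‖s z₁ - s z₂‖ ≤ (1 / 2) ^ m' := code_small hcode
        have h4 : C₂ * (4 * (c4 * ((C₂ + ‖ρ⁻¹‖ * (1 + C₂)) * ‖s z₁ - s z₂‖))) ≤ L :=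
          le_trans (by gcongr) (hm'.trans (hlow2 k hk ω))
        have h5 : ‖mn (q ν) (q ω) P Q‖ ≤ (C₂ * (2 * (3 * C₂ * c3)) + 1) * L := by
          calc _ ≤ _ := h2
            _ = C₂ * (2 * (3 * C₂ * c3)) * L
                + C₂ * (4 * (c4 * ((C₂ + ‖ρ⁻¹‖ * (1 + C₂)) * ‖s z₁ - s z₂‖))) := by ring
            _ ≤ C₂ * (2 * (3 * C₂ * c3)) * L + L := by gcongr
            _ = _ := by ring
        have h6 : (C₂ * (2 * (3 * C₂ * c3)) + 1) * L ≤ C₁ * L := by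
          gcongr
          rw [hC₁]
          have : 0 ≤ 1 + c1 + 2 * (C₂ * c2) := by positivity
          linarith
        linarith
    exact zins cl h hk hZ m' hA₀ hD habs

end Vale.Agent.P092.H589.K2
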