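import Vale.Agent.P092.H820.Pn
import Vale.Agent.P092.H414.Near

/-!
P092, TEAM D, block (K3) (helper589), part a: points and lines of the real projective plane in
coordinates, the action on functions, transport of star homomorphisms by homeomorphisms, the
permutations of the coordinates.
-/

namespace Vale.Agent.P092.H589.KT

open Topology Matrix Projectivization
open scoped LinearAlgebra.Projectivization

noncomputable section

/-- points (or lines, in dual coordinates) of the real projective plane -/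
abbrev P := ℙ ℝ (Fin 3 → ℝ)

/-- the class of a nonzero vector -/
def cl (v : Fin 3 → ℝ) (hv : v ≠ 0) : P := H820.pj ℝ (Fin 3) ⟨v, hv⟩

lemma cl_surj (x : P) : ∃ (v : Fin 3 → ℝ) (hv : v ≠ 0), x = cl v hv := by
  obtain ⟨v, rfl⟩ := H820.pj_surj x
  exact ⟨v.1, v.2, rfl⟩

lemma cl_eq {v w : Fin 3 → ℝ} (hv : v ≠ 0) (hw : w ≠ 0) {c : ℝ} (hc : c ≠ 0) (h : v = c • w) :
    cl v hv = cl w hw := (H820.pj_eq _ _).2 ⟨Units.mk0 c hc, h.symm⟩

lemma exists_of_cl_eq {v w : Fin 3 → ℝ} {hv : v ≠ 0} {hw : w ≠ 0} (h : cl v hv = cl w hw) :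
    ∃ c : ℝ, c ≠ 0 ∧ v = c • w := by
  obtain ⟨c, hc⟩ := (H820.pj_eq _ _).1 h
  exact ⟨c, c.ne_zero, hc.symm⟩

/-- normalised representative with one coordinate `1` -/
lemma cl_norm (x : P) : ∃ (v : Fin 3 → ℝ) (hv : v ≠ 0) (i : Fin 3), x = cl v hv ∧ v i = 1 ∧
    ∀ j, |v j| ≤ 1 := by
  obtain ⟨v, hv, rfl⟩ := cl_surj x
  obtain ⟨i, hi⟩ := Finite.exists_max fun i => |v i|
  have h0 : v i ≠ 0 := by
    intro h0
    apply hv
    funext j
    have := hi j
    rw [h0, abs_zero] at this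
    exact abs_eq_zero.1 (le_antisymm this (abs_nonneg _))
  have hne : (v i)⁻¹ • v ≠ 0 := smul_ne_zero (inv_ne_zero h0) hv
  refine ⟨(v i)⁻¹ • v, hne, i, ?_, ?_, ?_⟩
  · exact cl_eq hv hne h0 (by rw [smul_smul, mul_inv_cancel₀ h0, one_smul])
  · simp [h0]
  · intro j
    rw [Pi.smul_apply, smul_eq_mul, abs_mul, abs_inv]
    rw [inv_mul_le_iff₀ (abs_pos.2 h0), mul_one]
    exact hi j

section Act

/-- the action of a matrix group on functions on the plane: `(rot g f) x = f (g • x)` -/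
def rot {G : Type*} [Group G] [TopologicalSpace G] [MulAction G P] [ContinuousConstSMul G P]
    (g : G) (f : C(P, ℂ)) : C(P, ℂ) := f.comp ⟨fun x => g • x, continuous_const_smul g⟩

@[simp] lemma rot_apply {G : Type*} [Group G] [TopologicalSpace G] [MulAction G P]
    [ContinuousConstSMul G P] (g : G) (f : C(P, ℂ)) (x : P) : rot g f x = f (g • x) := rfl

/-- the contragredient of `g` (the action on lines) -/
def du (g : H414.SL3) : H414.SL3 := (g⁻¹).transpose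

lemma smul_cl (g : H414.SL3) (v : Fin 3 → ℝ) (hv : v ≠ 0) :
    ∃ h : g.1 *ᵥ v ≠ 0, g • cl v hv = cl (g.1 *ᵥ v) h :=
  ⟨(smul_ne_zero_iff_ne g).2 hv, rfl⟩

lemma du_smul_cl (g : H414.SL3) (n : Fin 3 → ℝ) (hn : n ≠ 0) :
    ∃ h : n ᵥ* (g⁻¹).1 ≠ 0, du g • cl n hn = cl (n ᵥ* (g⁻¹).1) h := by
  have e : (du g).1 *ᵥ n = n ᵥ* (g⁻¹).1 := by
    change ((g⁻¹).1)ᵀ *ᵥ n = _
    rw [Matrix.mulVec_transpose]
  obtain ⟨h, h1⟩ := smul_cl (du g) n hn
  refine ⟨e ▸ h, ?_⟩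
  rw [h1]
  congr 1

end Act

section Transport

variable {K : Type*} [NormedAddCommGroup K] [InnerProductSpace ℂ K] [CompleteSpace K]

/-- transport of a calculus by a homeomorphism: `(tp e b) F = b (F ∘ e)` -/
def tp (e : P ≃ₜ P) (b : C(P, ℂ) →⋆ₐ[ℂ] (K →L[ℂ] K)) : C(P, ℂ) →⋆ₐ[ℂ] (K →L[ℂ] K) :=
  b.comp (ContinuousMap.compStarAlgHom' ℂ ℂ (e : C(P, P)))

@[simp] lemma tp_apply (e : P ≃ₜ P) (b : C(P, ℂ) →⋆ₐ[ℂ] (K →L[ℂ] K)) (F : C(P, ℂ)) :
    tp e b F = b (F.comp (e : C(P, P))) := rfl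

/-- commuting calculi carried by the incidence relation -/
structure Inc2 (b l : C(P, ℂ) →⋆ₐ[ℂ] (K →L[ℂ] K)) : Prop where
  comm : ∀ f g : C(P, ℂ), b f * l g = l g * b f
  supp : ∀ f g : C(P, ℂ),
    (∀ x ∈ tsupport f, ∀ n ∈ tsupport g, (x, n) ∉ H820.inc3 (k := ℝ)) → b f * l g = 0

lemma tsupport_comp (e : P ≃ₜ P) (f : C(P, ℂ)) :
    tsupport (f.comp (e : C(P, P))) = e ⁻¹' tsupport f := by
  have h : Function.support (f.comp (e : C(P, P))) = e ⁻¹' Function.support f := rfl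
  rw [tsupport, h, tsupport, e.preimage_closure]

lemma Inc2.tp {b l : C(P, ℂ) →⋆ₐ[ℂ] (K →L[ℂ] K)} (h : Inc2 b l) (e e' : P ≃ₜ P)
    (he : ∀ x n, (e x, e' n) ∈ H820.inc3 (k := ℝ) ↔ (x, n) ∈ H820.inc3 (k := ℝ)) :
    Inc2 (tp e b) (tp e' l) := by
  refine ⟨fun f g => ?_, fun f g hfg => ?_⟩
  · simp only [tp_apply]
    exact h.comm _ _
  · simp only [tp_apply]
    refine h.supp _ _ fun x hx n hn hi => ?_
    rw [tsupport_comp] at hx hn
    exact hfg (e x) hx (e' n) hn ((he x n).2 hi)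

end Transport

section Perm

lemma permMatrix_mul_inv (σ : Equiv.Perm (Fin 3)) :
    σ.permMatrix ℝ * (σ⁻¹).permMatrix ℝ = 1 := by
  rw [← Matrix.transpose_permMatrix]
  ext i j
  rw [Matrix.mul_apply, Matrix.one_apply]
  simp only [Matrix.transpose_apply]
  simp [PEquiv.toMatrix_apply, Equiv.toPEquiv_apply]
  

/-- the permutation of coordinates as an element of `GL` -/
def permG (σ : Equiv.Perm (Fin 3)) : GL (Fin 3) ℝ :=
  ⟨σ.permMatrix ℝ, (σ⁻¹).permMatrix ℝ, permMatrix_mul_inv σ, by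
    simpa using permMatrix_mul_inv σ⁻¹⟩

/-- the permutation of coordinates as a homeomorphism of the plane -/
def permP (σ : Equiv.Perm (Fin 3)) : P ≃ₜ P := H820.hP (permG σ)

lemma comp_ne {v : Fin 3 → ℝ} (hv : v ≠ 0) (σ : Equiv.Perm (Fin 3)) : v ∘ σ ≠ 0 := by
  intro h
  apply hv
  funext i
  have := congrFun h (σ.symm i)
  simpa using this

lemma permP_cl (σ : Equiv.Perm (Fin 3)) (v : Fin 3 → ℝ) (hv : v ≠ 0) :
    permP σ (cl v hv) = cl (v ∘ σ) (comp_ne hv σ) := by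
  have e : (permG σ).1 *ᵥ v = v ∘ σ := Matrix.permMatrix_mulVec _
  have h1 : permP σ (cl v hv) = cl ((permG σ).1 *ᵥ v) (e ▸ comp_ne hv σ) := rfl
  rw [h1]
  congr 1

end Perm

end

end Vale.Agent.P092.H589.KT
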