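import Vale.Agent.P092.H589.K3a

/-!
P092, TEAM D, block (K3) (helper589), part b: uniform transversality by compactness, and the
attracting direction of a near-wall matrix.
-/

namespace Vale.Agent.P092.H589.KT

open Topology Matrix Projectivization
open scoped LinearAlgebra.Projectivization

noncomputable section

/-- A homogeneous function which is positive on a closed set of pairs is bounded below. -/
lemma unif (Z : Set (P × P)) (hZ : IsClosed Z) (G : (Fin 3 → ℝ) × (Fin 3 → ℝ) → ℝ)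
    (hG : Continuous G) (hom : ∀ (c c' : ℝ) (u v : Fin 3 → ℝ), G (c • u, c' • v) =
      |c| * |c'| * G (u, v))
    (hpos : ∀ u v (hu : u ≠ 0) (hv : v ≠ 0), (cl u hu, cl v hv) ∈ Z → 0 < G (u, v)) :
    ∃ δ : ℝ, 0 < δ ∧ ∀ u v (hu : u ≠ 0) (hv : v ≠ 0), (cl u hu, cl v hv) ∈ Z →
      δ * ‖u‖ * ‖v‖ ≤ G (u, v) := by
  let S : Type := Metric.sphere (0 : Fin 3 → ℝ) 1
  have hne : ∀ u : S, (u : Fin 3 → ℝ) ≠ 0 := fun u h => by
    have := u.2
    rw [h] at this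
    simp at this
  let q : S → P := fun u => cl u.1 (hne u)
  have hq : Continuous q := H820.pj_continuous.comp (Continuous.subtype_mk continuous_subtype_val _)
  have hcS : CompactSpace S := isCompact_iff_compactSpace.1 (isCompact_sphere _ _)
  let Z' : Set (S × S) := (Prod.map q q) ⁻¹' Z
  have hZ' : IsCompact Z' := (hZ.preimage (hq.prodMap hq)).isCompact
  have key : ∃ δ : ℝ, 0 < δ ∧ ∀ p ∈ Z', δ ≤ G (p.1.1, p.2.1) := by
    rcases Z'.eq_empty_or_nonempty with h | h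
    · exact ⟨1, one_pos, fun p hp => by rw [h] at hp; exact hp.elim⟩
    · have hc : Continuous fun p : S × S => G (p.1.1, p.2.1) :=
        hG.comp ((continuous_subtype_val.comp continuous_fst).prodMk
          (continuous_subtype_val.comp continuous_snd))
      obtain ⟨p, hp, hmin⟩ := hZ'.exists_isMinOn h hc.continuousOn
      exact ⟨_, hpos p.1.1 p.2.1 (hne _) (hne _) hp, fun p' hp' => hmin hp'⟩
  obtain ⟨δ, hδ, hmin⟩ := key
  refine ⟨δ, hδ, fun u v hu hv huv => ?_⟩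
  have hu0 : ‖u‖ ≠ 0 := norm_ne_zero_iff.2 hu
  have hv0 : ‖v‖ ≠ 0 := norm_ne_zero_iff.2 hv
  let u' : S := ⟨‖u‖⁻¹ • u, by
    rw [mem_sphere_zero_iff_norm, norm_smul, norm_inv, norm_norm, inv_mul_cancel₀ hu0]⟩
  let v' : S := ⟨‖v‖⁻¹ • v, by
    rw [mem_sphere_zero_iff_norm, norm_smul, norm_inv, norm_norm, inv_mul_cancel₀ hv0]⟩
  have hu' : q u' = cl u hu := (cl_eq hu (hne u') hu0 (by
    change u = ‖u‖ • (‖u‖⁻¹ • u)
    rw [smul_smul, mul_inv_cancel₀ hu0, one_smul])).symm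
  have hv' : q v' = cl v hv := (cl_eq hv (hne v') hv0 (by
    change v = ‖v‖ • (‖v‖⁻¹ • v)
    rw [smul_smul, mul_inv_cancel₀ hv0, one_smul])).symm
  have hm : (u', v') ∈ Z' := by
    change (q u', q v') ∈ Z
    rw [hu', hv']; exact huv
  have h1 := hmin _ hm
  have h2 : G (u'.1, v'.1) = ‖u‖⁻¹ * ‖v‖⁻¹ * G (u, v) := by
    change G (‖u‖⁻¹ • u, ‖v‖⁻¹ • v) = _
    rw [hom, abs_of_nonneg (inv_nonneg.2 (norm_nonneg _)),
      abs_of_nonneg (inv_nonneg.2 (norm_nonneg _))]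
  change δ ≤ G (u'.1, v'.1) at h1
  rw [h2] at h1
  have hup : 0 < ‖u‖ := norm_pos_iff.2 hu
  have hvp : 0 < ‖v‖ := norm_pos_iff.2 hv
  calc δ * ‖u‖ * ‖v‖ ≤ (‖u‖⁻¹ * ‖v‖⁻¹ * G (u, v)) * ‖u‖ * ‖v‖ := by gcongr
    _ = G (u, v) := by field_simp

/-- two disjoint closed sets of points -/
lemma sep_pt (U S : Set P) (hU : IsClosed U) (hS : IsClosed S) (hd : Disjoint U S) :
    ∃ δ : ℝ, 0 < δ ∧ ∀ u v (hu : u ≠ 0) (hv : v ≠ 0), cl u hu ∈ U → cl v hv ∈ S →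
      δ * ‖u‖ * ‖v‖ ≤ ‖crossProduct u v‖ := by
  obtain ⟨δ, hδ, h⟩ := unif (U ×ˢ S) (hU.prod hS) (fun p => ‖crossProduct p.1 p.2‖)
    (by
      refine Continuous.norm ?_
      refine continuous_pi fun i => ?_
      fin_cases i <;> simp only [cross_apply] <;> simp <;> fun_prop)
    (by
      intro c c' u v
      simp only [map_smul, LinearMap.smul_apply, norm_smul, Real.norm_eq_abs]
      ring)
    (by
      intro u v hu hv huv
      refine norm_pos_iff.2 fun h0 => ?_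
      have e : cl u hu = cl v hv :=
        (mk_eq_mk_iff_crossProduct_eq_zero hu hv).2 h0
      exact Set.disjoint_left.1 hd huv.1 (e ▸ huv.2))
  exact ⟨δ, hδ, fun u v hu hv h1 h2 => h u v hu hv ⟨h1, h2⟩⟩

/-- closed sets of points and lines without incidence -/
lemma sep_ln (U N : Set P) (hU : IsClosed U) (hN : IsClosed N)
    (hd : ∀ x ∈ U, ∀ n ∈ N, (x, n) ∉ H820.inc3 (k := ℝ)) :
    ∃ δ : ℝ, 0 < δ ∧ ∀ u n (hu : u ≠ 0) (hn : n ≠ 0), cl u hu ∈ U → cl n hn ∈ N →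
      δ * ‖u‖ * ‖n‖ ≤ |u ⬝ᵥ n| := by
  obtain ⟨δ, hδ, h⟩ := unif (U ×ˢ N) (hU.prod hN) (fun p => |p.1 ⬝ᵥ p.2|)
    (continuous_fst.dotProduct continuous_snd).abs
    (by
      intro c c' u v
      simp only [smul_dotProduct, dotProduct_smul, smul_eq_mul, abs_mul]
      ring)
    (by
      intro u v hu hv huv
      refine abs_pos.2 fun h0 => hd _ huv.1 _ huv.2 ?_
      exact (H820.orthogonal_iff ⟨u, hu⟩ ⟨v, hv⟩).2 h0)
  exact ⟨δ, hδ, fun u v hu hv h1 h2 => h u v hu hv ⟨h1, h2⟩⟩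

/-- `x` is an approximate attracting point of `g`: it is the class of `g v` for some `v`
in the unit ball which `g` expands as much as possible up to the constant `C`. -/
def Att (C : ℝ) (g : H414.SL3) (x : P) : Prop :=
  ∃ v : Fin 3 → ℝ, (∀ j, |v j| ≤ 1) ∧ (∀ a b, |g.1 a b| ≤ C * ‖g.1 *ᵥ v‖) ∧
    ∃ h : g.1 *ᵥ v ≠ 0, x = cl (g.1 *ᵥ v) h

/-- column `j` of `g` -/
def col (g : H414.SL3) (j : Fin 3) : Fin 3 → ℝ := fun a => g.1 a j

/-- normalised pivot row of `g` -/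
def yr (g : H414.SL3) (i j : Fin 3) : Fin 3 → ℝ := fun m => g.1 i m / g.1 i j

lemma yr_abs {g : H414.SL3} {i j : Fin 3} (hp : H414.Piv g i j) (m : Fin 3) :
    |yr g i j m| ≤ 1 := by
  rw [yr, abs_div]
  exact div_le_one_of_le₀ (hp i m) (abs_nonneg _)

/-- `g x = ⟨y, x⟩ u + E x` -/
lemma mulVec_dec {C b : ℝ} (hC : 0 < C) (hb : 0 < b) {g : H414.SL3} (h : H414.Sh C b g)
    {i j : Fin 3} (hp : H414.Piv g i j) (x : Fin 3 → ℝ) :
    ∃ e : Fin 3 → ℝ, g.1 *ᵥ x = (yr g i j ⬝ᵥ x) • col g j + e ∧ ‖e‖ ≤ 3 * (C ^ 2 / b) * ‖x‖ := by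
  refine ⟨g.1 *ᵥ x - (yr g i j ⬝ᵥ x) • col g j, by abel, ?_⟩
  have hc : 0 ≤ 3 * (C ^ 2 / b) * ‖x‖ := by positivity
  refine (pi_norm_le_iff_of_nonneg hc).2 fun a => ?_
  have e1 : (g.1 *ᵥ x - (yr g i j ⬝ᵥ x) • col g j) a =
      ∑ m, (g.1 a m - g.1 a j * (g.1 i m / g.1 i j)) * x m := by
    simp only [Pi.sub_apply, Matrix.mulVec, dotProduct, Pi.smul_apply, smul_eq_mul, yr, col,
      Fin.sum_univ_three]
    ring
  rw [e1, Real.norm_eq_abs]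
  refine (Finset.abs_sum_le_sum_abs _ _).trans ?_
  have : ∀ m ∈ (Finset.univ : Finset (Fin 3)),
      |(g.1 a m - g.1 a j * (g.1 i m / g.1 i j)) * x m| ≤ (C ^ 2 / b) * ‖x‖ := by
    intro m _
    rw [abs_mul]
    exact mul_le_mul (h.err hC hb hp a m) (norm_le_pi_norm x m) (abs_nonneg _) (by positivity)
  refine (Finset.sum_le_sum this).trans (le_of_eq ?_)
  simp
  ring

lemma dot_abs_le (y x : Fin 3 → ℝ) {c : ℝ} (hy : ∀ m, |y m| ≤ c) : |y ⬝ᵥ x| ≤ 3 * c * ‖x‖ := by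
  rw [dotProduct]
  refine (Finset.abs_sum_le_sum_abs _ _).trans ?_
  have : ∀ m ∈ (Finset.univ : Finset (Fin 3)), |y m * x m| ≤ c * ‖x‖ := by
    intro m _
    rw [abs_mul]
    exact mul_le_mul (hy m) (norm_le_pi_norm x m) (abs_nonneg _) ((abs_nonneg _).trans (hy m))
  refine (Finset.sum_le_sum this).trans (le_of_eq ?_)
  simp
  ring

/-- transversality to `g v` implies transversality to the pivot column -/
lemma col_abs {C b C₂ δ : ℝ} (hC : 0 < C) (hC₂ : 0 < C₂) (hδ : 0 < δ) (hb : 0 < b)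
    (hbig : 18 * C ^ 3 * C₂ ≤ δ * b ^ 3) {g : H414.SL3} (h : H414.Sh C b g)
    {i j : Fin 3} (hp : H414.Piv g i j) {v : Fin 3 → ℝ} (hv : ∀ m, |v m| ≤ 1)
    (hgv : ∀ a c, |g.1 a c| ≤ C₂ * ‖g.1 *ᵥ v‖) (N : (Fin 3 → ℝ) → ℝ) (W : ℝ) (hW : 0 ≤ W)
    (hadd : ∀ x y, N (x + y) ≤ N x + N y) (hsm : ∀ (c : ℝ) x, N (c • x) = |c| * N x)
    (hN : ∀ x, N x ≤ 3 * ‖x‖ * W) (hN0 : ∀ x, 0 ≤ N x) (h1 : δ * ‖g.1 *ᵥ v‖ * W ≤ N (g.1 *ᵥ v)) :
    δ / (6 * C ^ 2 * C₂) * ‖col g j‖ * W ≤ N (col g j) := by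
  obtain ⟨e, he, hen⟩ := mulVec_dec hC hb h hp v
  have hvn : ‖v‖ ≤ 1 := (pi_norm_le_iff_of_nonneg zero_le_one).2 hv
  have hs : |yr g i j ⬝ᵥ v| ≤ 3 := by
    refine (dot_abs_le _ v (yr_abs hp)).trans ?_
    nlinarith [norm_nonneg v]
  have hen' : ‖e‖ ≤ 3 * (C ^ 2 / b) := by
    refine hen.trans ?_
    have : 0 ≤ 3 * (C ^ 2 / b) := by positivity
    nlinarith
  have h2 : N (g.1 *ᵥ v) ≤ 3 * N (col g j) + 9 * (C ^ 2 / b) * W := by
    calc N (g.1 *ᵥ v) = N ((yr g i j ⬝ᵥ v) • col g j + e) := by rw [← he]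
      _ ≤ N ((yr g i j ⬝ᵥ v) • col g j) + N e := hadd _ _
      _ ≤ 3 * N (col g j) + 3 * ‖e‖ * W := by
          rw [hsm]
          gcongr
          · exact hN0 _
          · exact hN e
      _ ≤ 3 * N (col g j) + 3 * (3 * (C ^ 2 / b)) * W := by gcongr
      _ = _ := by ring
  have hlow : b ^ 2 ≤ C * (C₂ * ‖g.1 *ᵥ v‖) :=
    (h.piv_low hC.le hp).trans (mul_le_mul_of_nonneg_left (hgv i j) hC.le)
  have hcol : ‖col g j‖ ≤ C * b ^ 2 :=
    (pi_norm_le_iff_of_nonneg (by positivity)).2 fun a => h.up a j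
  have h3 : b ^ 2 / (C * C₂) ≤ ‖g.1 *ᵥ v‖ := by
    rw [div_le_iff₀ (by positivity)]
    linarith
  have h4 : 9 * (C ^ 2 / b) ≤ δ * (b ^ 2 / (C * C₂)) / 2 := by
    rw [le_div_iff₀ two_pos, ← mul_div_assoc, ← mul_div_assoc, div_mul_eq_mul_div,
      div_le_div_iff₀ hb (by positivity)]
    nlinarith
  have h5 : δ * (b ^ 2 / (C * C₂)) * W ≤ 3 * N (col g j) + 9 * (C ^ 2 / b) * W :=
    (mul_le_mul_of_nonneg_right (mul_le_mul_of_nonneg_left h3 hδ.le) hW).trans (h1.trans h2)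
  have h6 : δ * (b ^ 2 / (C * C₂)) / 2 * W ≤ 3 * N (col g j) := by
    have := mul_le_mul_of_nonneg_right h4 hW
    linarith
  calc δ / (6 * C ^ 2 * C₂) * ‖col g j‖ * W ≤ δ / (6 * C ^ 2 * C₂) * (C * b ^ 2) * W := by gcongr
    _ = δ * (b ^ 2 / (C * C₂)) / 2 * W / 3 := by field_simp; ring
    _ ≤ N (col g j) := by linarith

end

end Vale.Agent.P092.H589.KT
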