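import Vale.Agent.P092.H589.K3b
import Vale.Agent.P092.H414.Near2
import Vale.Agent.P092.H696.Geo
import Vale.Agent.P092.SD.Defs

/-!
P092, TEAM D, block (K3) (helper589), part c: the geometry of one near-wall element in a chart.
-/

namespace Vale.Agent.P092.H589.KT

open Topology Matrix Projectivization
open scoped LinearAlgebra.Projectivization

open Vale.Agent.P092.H696 (yy uu cS cA cD)

noncomputable section

lemma nw_of {C b : ℝ} {g : H414.SL3} (hC : 0 < C) (h : H414.Sh C b g) {i j : Fin 3}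
    (hp : H414.Piv g i j) : H696.NW C b g.1 i j :=
  ⟨g.2, hp, h.piv_low hC.le hp, h.up i j, h.adj⟩

lemma sum3 {j m l : Fin 3} (hm : m ≠ j) (hl : l ≠ j) (hml : m ≠ l) (F : Fin 3 → ℝ) :
    ∑ b, F b = F j + F m + F l := by
  rw [Fin.sum_univ_three]
  revert hm hl hml
  fin_cases j <;> fin_cases m <;> fin_cases l <;> simp <;> ring

lemma cases3 {j m l : Fin 3} (hm : m ≠ j) (hl : l ≠ j) (hml : m ≠ l) (a : Fin 3) :
    a = j ∨ a = m ∨ a = l := by
  revert hm hl hml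
  fin_cases a <;> fin_cases j <;> fin_cases m <;> fin_cases l <;> simp

section vec

variable {C t δ L M : ℝ} {g : Matrix (Fin 3) (Fin 3) ℝ} {i j : Fin 3}

lemma yy_dot (h : H696.NW C t g i j) (ht : 1 ≤ t) {m l : Fin 3} (hm : m ≠ j) (hl : l ≠ j)
    (hml : m ≠ l) (z : Fin 3 → ℝ) :
    yy g i j ⬝ᵥ z = z j + yy g i j m * z m + yy g i j l * z l := by
  rw [dotProduct, sum3 hm hl hml, H696.yy_self (h.ne ht), one_mul]

/-- support of `f ∘ g` in a chart -/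
lemma supp_chart (h : H696.NW C t g i j) (ht : 1 ≤ t) (hδ : 0 < δ)
    (hbig : cS C δ * (t ^ 3)⁻¹ ≤ 1 / 2) {f : (Fin 3 → ℝ) → ℂ}
    (hs : ∀ a, a ≠ 0 → f a ≠ 0 → δ * ‖a‖ ≤ ‖uu g i j ⨯₃ a‖)
    {m l : Fin 3} (hm : m ≠ j) (hl : l ≠ j) (hml : m ≠ l) {z : Fin 3 → ℝ} (hz : z m = 1)
    (hzl : |z l| ≤ 1) (hf : f (g *ᵥ z) ≠ 0) :
    ‖z‖ ≤ 4 ∧ |yy g i j ⬝ᵥ z| ≤ 4 * cS C δ * (t ^ 3)⁻¹ := by
  have hC := h.C_pos ht
  have ht0 : 0 < t := by linarith
  have hcS : 0 ≤ cS C δ := by unfold cS; positivity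
  have hz0 : z ≠ 0 := fun h0 => by rw [h0] at hz; simp at hz
  have hgz : g *ᵥ z ≠ 0 := fun h00 => by
    have h2 := h.norm_le z
    rw [h00, norm_zero, mul_zero] at h2
    exact hz0 (norm_le_zero_iff.1 h2)
  have hw := h.strip ht hδ (hs _ hgz hf)
  have hw2 : |yy g i j ⬝ᵥ z| ≤ 1 / 2 * ‖z‖ :=
    hw.trans (mul_le_mul_of_nonneg_right hbig (norm_nonneg _))
  have e := yy_dot h ht hm hl hml z
  have hzj : |z j| ≤ 1 / 2 * ‖z‖ + 2 := by
    have e1 : z j = yy g i j ⬝ᵥ z - yy g i j m * z m - yy g i j l * z l := by rw [e]; ring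
    have e2 : |yy g i j m * z m| ≤ 1 := by
      rw [hz, mul_one]; exact h.yy_le m
    have e3 : |yy g i j l * z l| ≤ 1 := by
      rw [abs_mul]
      exact mul_le_one₀ (h.yy_le l) (abs_nonneg _) hzl
    calc |z j| = |yy g i j ⬝ᵥ z - yy g i j m * z m - yy g i j l * z l| := by rw [e1]
      _ ≤ |yy g i j ⬝ᵥ z - yy g i j m * z m| + |yy g i j l * z l| := abs_sub _ _
      _ ≤ |yy g i j ⬝ᵥ z| + |yy g i j m * z m| + |yy g i j l * z l| := by
          gcongr; exact abs_sub _ _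
      _ ≤ _ := by linarith
  have h4 : ‖z‖ ≤ 4 := by
    have hle : ‖z‖ ≤ max (1 / 2 * ‖z‖ + 2) 1 := by
      refine (pi_norm_le_iff_of_nonneg (le_max_of_le_right zero_le_one)).2 fun a => ?_
      rw [Real.norm_eq_abs]
      rcases cases3 hm hl hml a with rfl | rfl | rfl
      · exact hzj.trans (le_max_left _ _)
      · rw [hz, abs_one]; exact le_max_right _ _
      · exact hzl.trans (le_max_right _ _)
    rcases le_max_iff.1 hle with h5 | h5 <;> linarith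
  refine ⟨h4, hw.trans ?_⟩
  have : 0 ≤ cS C δ * (t ^ 3)⁻¹ := by positivity
  nlinarith

/-- anisotropic Lipschitz bound in a whole chart -/
lemma lip_chart (h : H696.NW C t g i j) (ht : 1 ≤ t) (hδ : 0 < δ)
    (hbig : cS C δ * (t ^ 3)⁻¹ ≤ 1 / 2) (hL0 : 0 ≤ L) (hM0 : 0 ≤ M) {f : (Fin 3 → ℝ) → ℂ}
    (hL : ∀ a b, a ≠ 0 → b ≠ 0 → ‖f a - f b‖ * (‖a‖ * ‖b‖) ≤ L * ‖a ⨯₃ b‖)
    (hs : ∀ a, a ≠ 0 → f a ≠ 0 → δ * ‖a‖ ≤ ‖uu g i j ⨯₃ a‖) (hM : ∀ a, ‖f a‖ ≤ M)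
    {m l : Fin 3} (hm : m ≠ j) (hl : l ≠ j) (hml : m ≠ l) {z z' : Fin 3 → ℝ} (hz : z m = 1)
    (hz' : z' m = 1) (hzl : |z l| ≤ 1) (hzl' : |z' l| ≤ 1) :
    ‖f (g *ᵥ z) - f (g *ᵥ z')‖ ≤ (cA C δ L 8 + M) *
      (|z l - z' l| + t ^ 3 * |yy g i j ⬝ᵥ z - yy g i j ⬝ᵥ z'|) := by
  have hC := h.C_pos ht
  have ht0 : 0 < t := by linarith
  have hcS : 0 ≤ cS C δ := by unfold cS; positivity
  have hcA : 0 ≤ cA C δ L 8 := by unfold cA; positivity
  have ht3 : (1 : ℝ) ≤ t ^ 3 := one_le_pow₀ ht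
  have key : ∀ {z z' : Fin 3 → ℝ}, z m = 1 → z' m = 1 → |z l| ≤ 1 → |z' l| ≤ 1 → 8 < ‖z‖ →
      ‖f (g *ᵥ z) - f (g *ᵥ z')‖ ≤ (cA C δ L 8 + M) *
      (|z l - z' l| + t ^ 3 * |yy g i j ⬝ᵥ z - yy g i j ⬝ᵥ z'|) := by
    intro z z' hz hz' hzl hzl' hbz
    have hfz : f (g *ᵥ z) = 0 := by
      by_contra hne
      have := (supp_chart h ht hδ hbig hs hm hl hml hz hzl hne).1
      linarith
    by_cases hfz' : f (g *ᵥ z') = 0
    · rw [hfz, hfz', sub_zero, norm_zero]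
      positivity
    · obtain ⟨h4, hw4⟩ := supp_chart h ht hδ hbig hs hm hl hml hz' hzl' hfz'
      have hw4' : |yy g i j ⬝ᵥ z'| ≤ 2 := by
        refine hw4.trans ?_
        linarith
      have e := yy_dot h ht hm hl hml z
      have hzj : ‖z‖ ≤ |z j| := by
        by_contra hlt
        rw [not_le] at hlt
        have hle : ‖z‖ ≤ max |z j| 1 := by
          refine (pi_norm_le_iff_of_nonneg (le_max_of_le_right zero_le_one)).2 fun a => ?_
          rw [Real.norm_eq_abs]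
          rcases cases3 hm hl hml a with rfl | rfl | rfl
          · exact le_max_left _ _
          · rw [hz, abs_one]; exact le_max_right _ _
          · exact hzl.trans (le_max_right _ _)
        rcases le_max_iff.1 hle with h5 | h5 <;> linarith
      have e2 : |yy g i j m * z m| ≤ 1 := by
        rw [hz, mul_one]; exact h.yy_le m
      have e3 : |yy g i j l * z l| ≤ 1 := by
        rw [abs_mul]
        exact mul_le_one₀ (h.yy_le l) (abs_nonneg _) hzl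
      have hdiff : 1 ≤ |yy g i j ⬝ᵥ z - yy g i j ⬝ᵥ z'| := by
        have h6 : |z j| ≤ |yy g i j ⬝ᵥ z - yy g i j ⬝ᵥ z'| + |yy g i j ⬝ᵥ z'| +
            |yy g i j m * z m| + |yy g i j l * z l| := by
          have e1 : z j = (yy g i j ⬝ᵥ z - yy g i j ⬝ᵥ z') + yy g i j ⬝ᵥ z' -
              yy g i j m * z m - yy g i j l * z l := by rw [e]; ring
          calc |z j| = |(yy g i j ⬝ᵥ z - yy g i j ⬝ᵥ z') + yy g i j ⬝ᵥ z' -
              yy g i j m * z m - yy g i j l * z l| := by rw [e1]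
            _ ≤ |(yy g i j ⬝ᵥ z - yy g i j ⬝ᵥ z') + yy g i j ⬝ᵥ z' - yy g i j m * z m| +
                |yy g i j l * z l| := abs_sub _ _
            _ ≤ |(yy g i j ⬝ᵥ z - yy g i j ⬝ᵥ z') + yy g i j ⬝ᵥ z'| + |yy g i j m * z m| +
                |yy g i j l * z l| := by gcongr; exact abs_sub _ _
            _ ≤ _ := by gcongr; exact abs_add_le _ _
        linarith
      rw [hfz, zero_sub, norm_neg]
      have hprod : 1 ≤ t ^ 3 * |yy g i j ⬝ᵥ z - yy g i j ⬝ᵥ z'| := by nlinarith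
      calc ‖f (g *ᵥ z')‖ ≤ M * 1 := by rw [mul_one]; exact hM _
        _ ≤ (cA C δ L 8 + M) * (|z l - z' l| +
            t ^ 3 * |yy g i j ⬝ᵥ z - yy g i j ⬝ᵥ z'|) := by
            have := abs_nonneg (z l - z' l)
            gcongr
            · linarith
            · linarith
  by_cases h1 : 8 < ‖z‖
  · exact key hz hz' hzl hzl' h1
  · by_cases h2 : 8 < ‖z'‖
    · have := key hz' hz hzl' hzl h2
      rwa [norm_sub_rev, abs_sub_comm (z l), abs_sub_comm (yy g i j ⬝ᵥ z)]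
    · rw [not_lt] at h1 h2
      refine (h.aniso ht hδ hL0 hL hs hm hl hml hz hz' h1 h2).trans ?_
      have := abs_nonneg (z l - z' l)
      have := abs_nonneg (yy g i j ⬝ᵥ z - yy g i j ⬝ᵥ z')
      gcongr
      linarith

/-- the pulled back lines in the dual chart -/
lemma disc_chart (h : H696.NW C t g i j) (ht : 1 ≤ t) (hδ : 0 < δ)
    (hs : 6 * C ^ 3 ≤ δ * t ^ 3) {n : Fin 3 → ℝ} (hn : n ᵥ* g.adjugate ≠ 0)
    (hx : δ * ‖n ᵥ* g.adjugate‖ ≤ |(n ᵥ* g.adjugate) ⬝ᵥ uu g i j|) :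
    n j ≠ 0 ∧ ∀ b, |n b / n j - yy g i j b| ≤ cD C δ * (t ^ 3)⁻¹ := by
  have e : (n ᵥ* g.adjugate) ᵥ* g = n := by
    rw [vecMul_vecMul, adjugate_mul, h.det, one_smul, vecMul_one]
  obtain ⟨h1, h2⟩ := h.disc ht hδ hs hn hx
  rw [e] at h1 h2
  refine ⟨h1, fun b => ?_⟩
  have hp : 0 < |n j| := abs_pos.2 h1
  have e2 : n b / n j - yy g i j b = (n b - n j * yy g i j b) / n j := by
    field_simp
  rw [e2, abs_div, div_le_iff₀ hp]
  exact h2 b

end vec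

end

end Vale.Agent.P092.H589.KT
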