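import Vale.Agent.P092.H589.K3c
import Vale.Agent.P092.H464.Coef
import Vale.Agent.P092.H604.Kp

/-!
P092, TEAM D, block (K3) (helper589), part d: one shell and one pivot column, from the chart form
of the Kakeya lemma.
-/

namespace Vale.Agent.P092.H589.KT

open Topology Matrix Projectivization MeasureTheory
open scoped LinearAlgebra.Projectivization

open Vale.Agent.P092.H696 (yy uu cS cA cD)
open Vale.Agent.P092.H464 (Pv CI Adm Fun Ch)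
open Vale.Agent.P092.H466 (pv)
open Vale.Agent.P092.H604 (sec)

noncomputable section

/-- The chart form of the Kakeya lemma, for one Hilbert space. -/
def KakStmt (K : Type) [NormedAddCommGroup K] [InnerProductSpace ℂ K] [CompleteSpace K] : Prop :=
  ∀ C₁ : ℝ, 1 ≤ C₁ → ∃ C : ℝ, 0 ≤ C ∧
    ∀ (s t : P → Fin 3 → ℝ),
    Measurable s → Measurable t → (∀ x, s x ≠ 0) → (∀ ν, t ν ≠ 0) →
    ∀ (Pb Pc Ll Lm : Set P → (K →L[ℂ] K)), Pv Pb → Pv Pc → Pv Ll → Pv Lm →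
    CI (fun x ν => s x ⬝ᵥ t ν = 0) Pb Ll → CI (fun x ν => s x ⬝ᵥ t ν = 0) Pc Ll →
    CI (fun x ν => s x ⬝ᵥ t ν = 0) Pc Lm →
    ∀ (S : Finset H414.SL3) (y : H414.SL3 → ℝ × ℝ) (F : H414.SL3 → P → ℂ)
      (W : H414.SL3 → (K →L[ℂ] K)) (r : ℝ) (N : ℕ), 0 < r → r ≤ 1 →
    (∀ k ∈ S, |(y k).1| ≤ 1 ∧ |(y k).2| ≤ 1) →
    (∀ n : ℝ × ℝ, ∀ T ⊆ S, (∀ k ∈ T, |(y k).1 - n.1| ≤ r ∧ |(y k).2 - n.2| ≤ r) → T.card ≤ N) →
    (∀ k ∈ S, Adm s r C₁ (y k) (F k)) → (∀ k ∈ S, Fun s Pb (F k) (W k)) →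
    ∀ ξ, ∑ k ∈ S, ‖Lm {ν | t ν 0 ≠ 0 ∧ |-(t ν 1) / t ν 0 - (y k).1| ≤ C₁ * r ∧
      |-(t ν 2) / t ν 0 - (y k).2| ≤ C₁ * r} (W k ξ)‖ ^ 2 ≤
        C * N * (1 + Real.log (1 / r)) ^ 4 * ‖ξ‖ ^ 2

/-! ### permuted coordinates -/

/-- the coordinates `j, m, l` of a vector -/
def pr (j m l : Fin 3) (v : Fin 3 → ℝ) : Fin 3 → ℝ := ![v j, v m, v l]

lemma pr_dot {j m l : Fin 3} (hm : m ≠ j) (hl : l ≠ j) (hml : m ≠ l) (v n : Fin 3 → ℝ) :
    pr j m l v ⬝ᵥ pr j m l n = v ⬝ᵥ n := by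
  have e : v ⬝ᵥ n = v j * n j + v m * n m + v l * n l := sum3 hm hl hml fun a => v a * n a
  rw [e, dotProduct, Fin.sum_univ_three]
  rfl

lemma pr_ne {j m l : Fin 3} (hm : m ≠ j) (hl : l ≠ j) (hml : m ≠ l) {v : Fin 3 → ℝ}
    (hv : v ≠ 0) : pr j m l v ≠ 0 := by
  intro h
  apply hv
  funext a
  rcases cases3 hm hl hml a with rfl | rfl | rfl
  · exact congrFun h 0
  · exact congrFun h 1
  · exact congrFun h 2

lemma pr_meas {X : Type*} [MeasurableSpace X] {s : X → Fin 3 → ℝ} (hs : Measurable s)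
    (j m l : Fin 3) : Measurable fun x => pr j m l (s x) := by
  refine measurable_pi_iff.2 fun a => ?_
  fin_cases a
  · exact (measurable_pi_apply j).comp hs
  · exact (measurable_pi_apply m).comp hs
  · exact (measurable_pi_apply l).comp hs

lemma ci_pr {K : Type} [NormedAddCommGroup K] [InnerProductSpace ℂ K] [CompleteSpace K]
    {X Y : Type*} [MeasurableSpace X] [MeasurableSpace Y] {s : X → Fin 3 → ℝ}
    {t : Y → Fin 3 → ℝ} {j m l : Fin 3} (hm : m ≠ j) (hl : l ≠ j) (hml : m ≠ l)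
    {A : Set X → (K →L[ℂ] K)} {B : Set Y → (K →L[ℂ] K)}
    (h : CI (fun x ν => s x ⬝ᵥ t ν = 0) A B) :
    CI (fun x ν => pr j m l (s x) ⬝ᵥ pr j m l (t ν) = 0) A B := by
  simp_rw [pr_dot hm hl hml]
  exact h

/-- the section in the coordinates `j, m, l` -/
def sj (j m l : Fin 3) (x : P) : Fin 3 → ℝ := pr j m l (sec x)

lemma sj_meas (j m l : Fin 3) : Measurable (sj j m l) := pr_meas H604.measurable_sec j m l

/-- the function on vectors -/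
def lift (f : C(P, ℂ)) (a : Fin 3 → ℝ) : ℂ := by
  classical
  exact if h : a ≠ 0 then f (cl a h) else 0

lemma lift_of (f : C(P, ℂ)) {a : Fin 3 → ℝ} (h : a ≠ 0) : lift f a = f (cl a h) := by
  rw [lift, dif_pos h]

lemma lift_smul (f : C(P, ℂ)) {a : Fin 3 → ℝ} {c : ℝ} (hc : c ≠ 0) :
    lift f (c • a) = lift f a := by
  by_cases h : a = 0
  · rw [h, smul_zero]
  · rw [lift_of f h, lift_of f (smul_ne_zero hc h)]
    congr 1
    exact cl_eq _ _ hc rfl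

lemma cl_sec (x : P) : cl (sec x) (H604.sec_ne x) = x := H604.pj_sec x

/-- values of `f` at `g • x`, in the chart -/
lemma act_eq (g : H414.SL3) (f : C(P, ℂ)) (x : P) {c : ℝ} (hc : c ≠ 0) :
    f (g • x) = lift f (g.1 *ᵥ (c • sec x)) := by
  have h1 : f (g • x) = lift f (g.1 *ᵥ sec x) := by
    conv_lhs => rw [← cl_sec x]
    obtain ⟨h, e⟩ := smul_cl g (sec x) (H604.sec_ne x)
    rw [e, lift_of f h]
  rw [h1, Matrix.mulVec_smul, lift_smul f hc]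

/-- The data of one element `g` of a shell: a pivot row in the column `j`, near-wall, and the
directions of `f` and `h` separated from the attracting point. -/
structure Good (C t δ L : ℝ) (f h : C(P, ℂ)) (g : H414.SL3) (i j : Fin 3) : Prop where
  nw : H696.NW C t g.1 i j
  lip : ∀ a b, a ≠ 0 → b ≠ 0 → ‖lift f a - lift f b‖ * (‖a‖ * ‖b‖) ≤ L * ‖a ⨯₃ b‖
  sf : ∀ a, a ≠ 0 → lift f a ≠ 0 → δ * ‖a‖ ≤ ‖uu g.1 i j ⨯₃ a‖
  sh : ∀ a, a ≠ 0 → lift h a ≠ 0 → δ * ‖a‖ ≤ |a ⬝ᵥ uu g.1 i j|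
  one : ∀ x, ‖f x‖ ≤ 1

/-- the line coordinates -/
def yc (g : H414.SL3) (i m l : Fin 3) (j : Fin 3) : ℝ × ℝ := (-(yy g.1 i j m), -(yy g.1 i j l))

section adm

variable {C t δ L : ℝ} {f h : C(P, ℂ)} {g : H414.SL3} {i j m l : Fin 3}

lemma norm_lift_le (hf : ∀ x, ‖f x‖ ≤ 1) (a : Fin 3 → ℝ) : ‖lift f a‖ ≤ 1 := by
  by_cases h : a ≠ 0
  · rw [lift_of f h]; exact hf _
  · rw [lift, dif_neg h, norm_zero]; exact zero_le_one

/-- the normalised representative in the chart -/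
def zz (m : Fin 3) (x : P) : Fin 3 → ℝ := (sec x m)⁻¹ • sec x

lemma zz_m {x : P} (hx : sec x m ≠ 0) : zz m x m = 1 := by
  rw [zz, Pi.smul_apply, smul_eq_mul, inv_mul_cancel₀ hx]

lemma zz_a {x : P} (a : Fin 3) : zz m x a = sec x a / sec x m := by
  rw [zz, Pi.smul_apply, smul_eq_mul, inv_mul_eq_div]

lemma uq_zz (hG : Good C t δ L f h g i j) (ht : 1 ≤ t) (hm : m ≠ j) (hl : l ≠ j) (hml : m ≠ l)
    {x : P} (hx : x ∈ Ch (sj j m l)) :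
    H464.uq (sj j m l) (yc g i m l j) x = yy g.1 i j ⬝ᵥ zz m x := by
  have hx1 : sec x m ≠ 0 := hx.1
  rw [yy_dot hG.nw ht hm hl hml, zz_m hx1, zz_a, zz_a]
  change sec x j / sec x m - -(yy g.1 i j m) - -(yy g.1 i j l) * (sec x l / sec x m) = _
  ring

lemma adm_of (hG : Good C t δ L f h g i j) (ht : 1 ≤ t) (hδ : 0 < δ) (hL : 0 ≤ L)
    (hbig : cS C δ * (t ^ 3)⁻¹ ≤ 1 / 2) (hm : m ≠ j) (hl : l ≠ j) (hml : m ≠ l) {C₁ : ℝ}
    (hC1 : 4 * cS C δ ≤ C₁) (hC2 : cA C δ L 8 + 1 ≤ C₁) :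
    Adm (sj j m l) (t ^ 3)⁻¹ C₁ (yc g i m l j) (fun x => f (g • x)) := by
  have ht0 : 0 < t := by linarith
  have hM := norm_lift_le hG.one
  have hz : ∀ x ∈ Ch (sj j m l), f (g • x) = lift f (g.1 *ᵥ zz m x) := fun x hx =>
    act_eq g f x (inv_ne_zero hx.1)
  have hzl : ∀ x ∈ Ch (sj j m l), |zz m x l| ≤ 1 := fun x hx => by
    rw [zz_a]; exact hx.2
  refine ⟨fun x _ => hG.one _, fun x hx hlt => ?_, fun x hx x' hx' => ?_⟩
  · by_contra hne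
    have hne' : lift f (g.1 *ᵥ zz m x) ≠ 0 := by rwa [← hz x hx]
    have h1 := (supp_chart hG.nw ht hδ hbig hG.sf hm hl hml (zz_m hx.1) (hzl x hx) hne').2
    rw [uq_zz hG ht hm hl hml hx] at hlt
    have h2 : 4 * cS C δ * (t ^ 3)⁻¹ ≤ C₁ * (t ^ 3)⁻¹ := by gcongr
    exact absurd (h1.trans h2) (not_le.2 hlt)
  · change ‖f (g • x) - f (g • x')‖ ≤ _
    rw [hz x hx, hz x' hx', uq_zz hG ht hm hl hml hx, uq_zz hG ht hm hl hml hx']
    refine (lip_chart hG.nw ht hδ hbig hL zero_le_one hG.lip hG.sf hM hm hl hml (zz_m hx.1)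
      (zz_m hx'.1) (hzl x hx) (hzl x' hx')).trans ?_
    have e1 : H464.pp (sj j m l) x - H464.pp (sj j m l) x' = zz m x l - zz m x' l := by
      rw [zz_a, zz_a]; rfl
    rw [e1, div_inv_eq_mul, mul_comm |yy g.1 i j ⬝ᵥ zz m x - yy g.1 i j ⬝ᵥ zz m x'| (t ^ 3),
      add_comm (t ^ 3 * |yy g.1 i j ⬝ᵥ zz m x - yy g.1 i j ⬝ᵥ zz m x'|)]
    exact mul_le_mul_of_nonneg_right hC2 (by positivity)

/-- the ball of lines around `y` in the coordinates `j, m, l` -/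
def BB (j m l : Fin 3) (y : ℝ × ℝ) (ρ : ℝ) : Set P :=
  {ν | sj j m l ν 0 ≠ 0 ∧ |-(sj j m l ν 1) / sj j m l ν 0 - y.1| ≤ ρ ∧
      |-(sj j m l ν 2) / sj j m l ν 0 - y.2| ≤ ρ}

lemma disc_of (hG : Good C t δ L f h g i j) (ht : 1 ≤ t) (hδ : 0 < δ)
    (hs : 6 * C ^ 3 ≤ δ * t ^ 3) {C₁ : ℝ} (hC1 : cD C δ ≤ C₁) {ν : P}
    (hν : h (du g • ν) ≠ 0) : ν ∈ BB j m l (yc g i m l j) (C₁ * (t ^ 3)⁻¹) := by
  have ht0 : 0 < t := by linarith
  obtain ⟨hne, e⟩ := du_smul_cl g (sec ν) (H604.sec_ne ν)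
  rw [cl_sec] at e
  have hadj : (g⁻¹).1 = g.1.adjugate := Matrix.SpecialLinearGroup.coe_inv g
  rw [e, ← lift_of h hne] at hν
  have hsep := hG.sh _ hne hν
  rw [hadj] at hne hsep
  obtain ⟨h1, h2⟩ := disc_chart hG.nw ht hδ hs hne hsep
  have h3 : ∀ b, |sec ν b / sec ν j - yy g.1 i j b| ≤ C₁ * (t ^ 3)⁻¹ := fun b =>
    (h2 b).trans (by gcongr)
  refine ⟨h1, ?_, ?_⟩
  · have e2 : -(sec ν m) / sec ν j - -(yy g.1 i j m) = -(sec ν m / sec ν j - yy g.1 i j m) := by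
      ring
    change |-(sec ν m) / sec ν j - -(yy g.1 i j m)| ≤ _
    rw [e2, abs_neg]
    exact h3 m
  · have e2 : -(sec ν l) / sec ν j - -(yy g.1 i j l) = -(sec ν l / sec ν j - yy g.1 i j l) := by
      ring
    change |-(sec ν l) / sec ν j - -(yy g.1 i j l)| ≤ _
    rw [e2, abs_neg]
    exact h3 l

end adm

end

end Vale.Agent.P092.H589.KT
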