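import Vale.Agent.P092.H589.K3d

/-!
P092, TEAM D, block (K3) (helper589), part e: the estimate of one shell and one pivot column.
-/

namespace Vale.Agent.P092.H589.KT

open Topology Matrix Projectivization MeasureTheory
open scoped LinearAlgebra.Projectivization

open Vale.Agent.P092.H696 (yy uu cS cA cD)
open Vale.Agent.P092.H464 (Pv CI Adm Fun Ch)
open Vale.Agent.P092.H466 (pv)
open Vale.Agent.P092.H604 (sec)

noncomputable section

variable {K : Type} [NormedAddCommGroup K] [InnerProductSpace ℂ K] [CompleteSpace K]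

lemma ch_meas (j m l : Fin 3) : MeasurableSet (Ch (sj j m l)) := by
  have h0 : Measurable fun x => sj j m l x 1 := (measurable_pi_apply _).comp (sj_meas j m l)
  have h2 : Measurable fun x => sj j m l x 2 := (measurable_pi_apply _).comp (sj_meas j m l)
  have e : Ch (sj j m l) = {x | sj j m l x 1 ≠ 0} ∩ {x | |sj j m l x 2 / sj j m l x 1| ≤ 1} := rfl
  rw [e]
  exact (h0 (measurableSet_singleton 0).compl).inter
    (measurableSet_le (h2.div h0).abs measurable_const)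

lemma bb_meas (j m l : Fin 3) (y : ℝ × ℝ) (ρ : ℝ) : MeasurableSet (BB j m l y ρ) := by
  have h0 : Measurable fun x => sj j m l x 0 := (measurable_pi_apply _).comp (sj_meas j m l)
  have h1 : Measurable fun x => sj j m l x 1 := (measurable_pi_apply _).comp (sj_meas j m l)
  have h2 : Measurable fun x => sj j m l x 2 := (measurable_pi_apply _).comp (sj_meas j m l)
  have e : BB j m l y ρ = {x | sj j m l x 0 ≠ 0} ∩
      ({x | |-(sj j m l x 1) / sj j m l x 0 - y.1| ≤ ρ} ∩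
        {x | |-(sj j m l x 2) / sj j m l x 0 - y.2| ≤ ρ}) := rfl
  rw [e]
  exact (h0 (measurableSet_singleton 0).compl).inter
    ((measurableSet_le ((h1.neg.div h0).sub_const _).abs measurable_const).inter
      (measurableSet_le ((h2.neg.div h0).sub_const _).abs measurable_const))

/-- `W = φ F * pv φ Ch` is the integral of `F` over the chart. -/
lemma fun_of (φ : C(P, ℂ) →⋆ₐ[ℂ] (K →L[ℂ] K)) (F : C(P, ℂ)) (j m l : Fin 3) :
    Fun (sj j m l) (pv φ) (fun x => F x) (φ F * pv φ (Ch (sj j m l))) := by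
  refine ⟨fun A _ => ?_, ?_, fun A hA hAm c ε hε h => ?_⟩
  · rw [mul_assoc, H466.pv_comm, ← mul_assoc, ← mul_assoc, H466.phi_pv_comm]
  · rw [mul_assoc, H466.pv_disj φ disjoint_compl_right, mul_zero]
  · have e : (φ F * pv φ (Ch (sj j m l)) - c • 1) * pv φ A = φ (F - c • 1) * pv φ A := by
      rw [sub_mul, mul_assoc, H466.pv_sub_right φ hAm (ch_meas j m l) hA, map_sub, map_smul,
        map_one, sub_mul]
    rw [e]
    refine ContinuousLinearMap.opNorm_le_bound _ hε fun ξ => ?_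
    have h1 := H466.norm_phi_pv_le φ (A := A) (f := F - c • 1) hε (fun x hx => by
      simpa using h x hx) ξ
    refine h1.trans ?_
    gcongr
    exact H466.norm_pv_le φ A ξ

/-- bound of `φ h` by the projection of a set that carries `h` -/
lemma norm_carry (φ : C(P, ℂ) →⋆ₐ[ℂ] (K →L[ℂ] K)) {F : C(P, ℂ)} {A : Set P} (hA : MeasurableSet A)
    (h : ∀ x, x ∉ A → F x = 0) {H : ℝ} (hH : 0 ≤ H) (hF : ∀ x, ‖F x‖ ≤ H) (v : K) :
    ‖φ F v‖ ≤ H * ‖pv φ A v‖ := by
  have e : φ F v = φ F (pv φ A v) := by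
    conv_lhs => rw [← H466.phi_pv_supp φ hA h]
    rfl
  rw [e]
  exact H466.norm_phi_le φ hH hF _

/-- the incidence relation in the coordinates -/
lemma ci_of {b n : C(P, ℂ) →⋆ₐ[ℂ] (K →L[ℂ] K)} (h : Inc2 b n) {j m l : Fin 3} (hm : m ≠ j)
    (hl : l ≠ j) (hml : m ≠ l) :
    CI (fun x ν => sj j m l x ⬝ᵥ sj j m l ν = 0) (pv b) (pv n) := by
  refine ci_pr hm hl hml ?_
  have h1 : CI (fun x ν => (x, ν) ∈ H820.inc3 (k := ℝ)) (pv b) (pv n) :=
    H604.pv_CI b n (I := fun x ν => (x, ν) ∈ H820.inc3 (k := ℝ)) H820.inc3_closed h.comm h.supp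
  simpa only [H604.inc3_sec] using h1

/-- the remaining point is not in the support -/
lemma rest_zero {C t δ L : ℝ} {f h : C(P, ℂ)} {g : H414.SL3} {i j m l : Fin 3}
    (hG : Good C t δ L f h g i j) (ht : 1 ≤ t) (hδ : 0 < δ)
    (hbig : cS C δ * (t ^ 3)⁻¹ ≤ 1 / 2) (hm : m ≠ j) (hl : l ≠ j) (hml : m ≠ l) {x : P}
    (h1 : x ∉ Ch (sj j m l)) (h2 : x ∉ Ch (sj j l m)) : f (g • x) = 0 := by
  have hm0 : sec x m = 0 ∧ sec x l = 0 := by
    have h1' : ¬ (sec x m ≠ 0 ∧ |sec x l / sec x m| ≤ 1) := h1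
    have h2' : ¬ (sec x l ≠ 0 ∧ |sec x m / sec x l| ≤ 1) := h2
    by_cases ha : sec x m = 0
    · refine ⟨ha, ?_⟩
      by_contra hb
      apply h2'
      refine ⟨hb, ?_⟩
      rw [ha, zero_div, abs_zero]
      exact zero_le_one
    · exfalso
      have h3 : 1 < |sec x l / sec x m| := not_le.1 fun h4 => h1' ⟨ha, h4⟩
      have hb : sec x l ≠ 0 := by
        intro hb
        rw [hb, zero_div, abs_zero] at h3
        linarith
      apply h2'
      refine ⟨hb, ?_⟩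
      have e : sec x m / sec x l = (sec x l / sec x m)⁻¹ := (inv_div _ _).symm
      rw [e, abs_inv]
      exact inv_le_one_of_one_le₀ h3.le
  obtain ⟨hm0, hl0⟩ := hm0
  by_contra hne
  have e := act_eq g f x (one_ne_zero)
  rw [one_smul] at e
  rw [e] at hne
  have hgz : g.1 *ᵥ sec x ≠ 0 := by
    intro h0
    rw [h0, lift, dif_neg (by simp)] at hne
    exact hne rfl
  have hw := hG.nw.strip ht hδ (hG.sf _ hgz hne)
  rw [yy_dot hG.nw ht hm hl hml, hm0, hl0, mul_zero, mul_zero, add_zero, add_zero] at hw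
  have hn : ‖sec x‖ ≤ |sec x j| := by
    refine (pi_norm_le_iff_of_nonneg (abs_nonneg _)).2 fun a => ?_
    rw [Real.norm_eq_abs]
    rcases cases3 hm hl hml a with rfl | rfl | rfl
    · exact le_rfl
    · rw [hm0, abs_zero]; exact abs_nonneg _
    · rw [hl0, abs_zero]; exact abs_nonneg _
  have hpos : 0 < ‖sec x‖ := norm_pos_iff.2 (H604.sec_ne x)
  have : cS C δ * (t ^ 3)⁻¹ * ‖sec x‖ ≤ 1 / 2 * ‖sec x‖ :=
    mul_le_mul_of_nonneg_right hbig hpos.le
  linarith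

/-- the count of the lines in a square -/
def Count (t : ℝ) (j : Fin 3) (N : ℕ) (T : Finset H414.SL3) : Prop :=
  ∀ (y0 : Fin 3 → ℝ) (T' : Finset H414.SL3), T' ⊆ T →
    (∀ g ∈ T', ∃ i, H414.Piv g i j ∧ ∀ l, |g.1 i l / g.1 i j - y0 l| * t ^ 3 ≤ 1) → T'.card ≤ N

section main

variable {b c ln mn : C(P, ℂ) →⋆ₐ[ℂ] (K →L[ℂ] K)}

/-- one shell, one column, one piece -/
theorem piece (kak : KakStmt K) (h1 : Inc2 b ln) (h2 : Inc2 c ln) (h3 : Inc2 c mn) {C δ L H : ℝ}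
    (hC : 0 < C) (hδ : 0 < δ) (hL : 0 ≤ L) (hH : 0 ≤ H) (f h : C(P, ℂ)) (hh : ∀ x, ‖h x‖ ≤ H) :
    ∃ D : ℝ, 0 ≤ D ∧ ∀ (t : ℝ), 1 ≤ t → cS C δ * (t ^ 3)⁻¹ ≤ 1 / 2 → 6 * C ^ 3 ≤ δ * t ^ 3 →
      ∀ (j m l : Fin 3), m ≠ j → l ≠ j → m ≠ l → ∀ (N : ℕ) (T : Finset H414.SL3),
      (∀ g ∈ T, ∃ i, Good C t δ L f h g i j) → Count t j N T → ∀ ξ : K,
      ∑ g ∈ T, ‖mn (rot (du g) h) ((b (rot g f) * pv b (Ch (sj j m l))) ξ)‖ ^ 2 ≤
        D * N * (1 + Real.log (t ^ 3)) ^ 4 * ‖ξ‖ ^ 2 := by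
  classical
  have hcS : 0 ≤ cS C δ := by unfold cS; positivity
  have hcA : 0 ≤ cA C δ L 8 := by unfold cA; positivity
  have hcD : 0 ≤ cD C δ := by unfold cD; positivity
  set C₁ : ℝ := 4 * cS C δ + (cA C δ L 8 + 1) + cD C δ with hC1
  obtain ⟨D, hD, hkak⟩ := kak C₁ (by linarith)
  refine ⟨H ^ 2 * D, by positivity, ?_⟩
  intro t ht hbig hs j m l hm hl hml N T hT hN ξ
  have ht0 : 0 < t := by linarith
  have ht3 : (1 : ℝ) ≤ t ^ 3 := one_le_pow₀ ht
  let i : H414.SL3 → Fin 3 := fun g => if hg : g ∈ T then (hT g hg).choose else 0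
  have hi : ∀ g ∈ T, Good C t δ L f h g (i g) j := fun g hg => by
    have : i g = (hT g hg).choose := dif_pos hg
    rw [this]; exact (hT g hg).choose_spec
  have key := hkak (sj j m l) (sj j m l) (sj_meas j m l) (sj_meas j m l)
    (fun x => pr_ne hm hl hml (H604.sec_ne x)) (fun x => pr_ne hm hl hml (H604.sec_ne x))
    (pv b) (pv c) (pv ln) (pv mn) (H604.pv_Pv b) (H604.pv_Pv c) (H604.pv_Pv ln) (H604.pv_Pv mn)
    (ci_of h1 hm hl hml) (ci_of h2 hm hl hml) (ci_of h3 hm hl hml) T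
    (fun g => yc g (i g) m l j) (fun g x => f (g • x))
    (fun g => b (rot g f) * pv b (Ch (sj j m l))) (t ^ 3)⁻¹ N (by positivity)
    (inv_le_one_of_one_le₀ ht3)
    (fun g hg => ⟨by rw [yc, abs_neg]; exact (hi g hg).nw.yy_le m,
      by rw [yc, abs_neg]; exact (hi g hg).nw.yy_le l⟩)
    (fun n T' hT' hn => by
      refine hN (fun a => if a = j then 1 else if a = m then -n.1 else -n.2) T' hT' fun g hg => ?_
      have hgT := hT' hg
      have hgood := hi g hgT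
      refine ⟨i g, hgood.nw.piv, fun a => ?_⟩
      obtain ⟨h4, h5⟩ := hn g hg
      have h4' : |-(yy g.1 (i g) j m) - n.1| ≤ (t ^ 3)⁻¹ := h4
      have h5' : |-(yy g.1 (i g) j l) - n.2| ≤ (t ^ 3)⁻¹ := h5
      have hfin : ∀ z : ℝ, |z| ≤ (t ^ 3)⁻¹ → |z| * t ^ 3 ≤ 1 := fun z hz => by
        calc |z| * t ^ 3 ≤ (t ^ 3)⁻¹ * t ^ 3 := by gcongr
          _ = 1 := inv_mul_cancel₀ (by positivity)
      rcases cases3 hm hl hml a with rfl | rfl | rfl
      · rw [if_pos rfl, div_self (hgood.nw.ne ht), sub_self, abs_zero, zero_mul]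
        exact zero_le_one
      · rw [if_neg hm, if_pos rfl]
        refine hfin _ ?_
        have e : g.1 (i g) a / g.1 (i g) j - -n.1 = -(-(yy g.1 (i g) j a) - n.1) := by
          rw [yy]; ring
        rw [e, abs_neg]; exact h4'
      · rw [if_neg hl, if_neg hml.symm]
        refine hfin _ ?_
        have e : g.1 (i g) a / g.1 (i g) j - -n.2 = -(-(yy g.1 (i g) j a) - n.2) := by
          rw [yy]; ring
        rw [e, abs_neg]; exact h5')
    (fun g hg => adm_of (hi g hg) ht hδ hL hbig hm hl hml (by linarith) (by linarith))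
    (fun g _ => fun_of b (rot g f) j m l) ξ
  have hstep : ∀ g ∈ T, ‖mn (rot (du g) h) ((b (rot g f) * pv b (Ch (sj j m l))) ξ)‖ ^ 2 ≤
      H ^ 2 * ‖pv mn (BB j m l (yc g (i g) m l j) (C₁ * (t ^ 3)⁻¹))
        ((b (rot g f) * pv b (Ch (sj j m l))) ξ)‖ ^ 2 := by
    intro g hg
    rw [← mul_pow]
    refine pow_le_pow_left₀ (norm_nonneg _) ?_ 2
    refine norm_carry mn (F := rot (du g) h) (bb_meas j m l _ _) (fun ν hν => ?_) hH
      (fun ν => hh (du g • ν)) _
    by_contra hne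
    exact hν (disc_of (hi g hg) ht hδ hs (by linarith) hne)
  refine (Finset.sum_le_sum hstep).trans ?_
  rw [← Finset.mul_sum]
  have e : (1 : ℝ) / (t ^ 3)⁻¹ = t ^ 3 := by rw [one_div, inv_inv]
  rw [e] at key
  calc H ^ 2 * _ ≤ H ^ 2 * (D * N * (1 + Real.log (t ^ 3)) ^ 4 * ‖ξ‖ ^ 2) :=
        mul_le_mul_of_nonneg_left key (by positivity)
    _ = _ := by ring

end main

end

end Vale.Agent.P092.H589.KT
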