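import Vale.Agent.P092.H589.K3e
import Vale.Agent.P092.H696.SDGeo
import Vale.Agent.P092.H964.SumSh

/-!
P092, TEAM D, block (K3) (helper589), part f: the count of near-wall elements is polynomial
(literal `NJ` of helper68), from the chart form of the Kakeya lemma.
-/

namespace Vale.Agent.P092.H589.KT

open Topology Matrix Projectivization MeasureTheory
open scoped LinearAlgebra.Projectivization

open Vale.Agent.P092.H696 (yy uu cS cA cD sc)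
open Vale.Agent.P092.H464 (Ch)
open Vale.Agent.P092.H466 (pv)
open Vale.Agent.P092.H604 (sec)

noncomputable section

variable {K : Type} [NormedAddCommGroup K] [InnerProductSpace ℂ K] [CompleteSpace K]

section main

variable {b c ln mn : C(P, ℂ) →⋆ₐ[ℂ] (K →L[ℂ] K)}

/-- one shell, one column -/
theorem col_shell (kak : KakStmt K) (h1 : Inc2 b ln) (h2 : Inc2 c ln) (h3 : Inc2 c mn)
    {C δ L H : ℝ} (hC : 0 < C) (hδ : 0 < δ) (hL : 0 ≤ L) (hH : 0 ≤ H) (f h : C(P, ℂ))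
    (hh : ∀ x, ‖h x‖ ≤ H) :
    ∃ D : ℝ, 0 ≤ D ∧ ∀ (t : ℝ), 1 ≤ t → cS C δ * (t ^ 3)⁻¹ ≤ 1 / 2 → 6 * C ^ 3 ≤ δ * t ^ 3 →
      ∀ (j : Fin 3) (N : ℕ) (T : Finset H414.SL3),
      (∀ g ∈ T, ∃ i, Good C t δ L f h g i j) → Count t j N T → ∀ ξ : K,
      ∑ g ∈ T, ‖mn (rot (du g) h) (b (rot g f) ξ)‖ ^ 2 ≤
        D * N * (1 + Real.log (t ^ 3)) ^ 4 * ‖ξ‖ ^ 2 := by
  obtain ⟨D, hD, hp⟩ := piece kak h1 h2 h3 hC hδ hL hH f h hh
  refine ⟨4 * D, by positivity, ?_⟩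
  intro t ht hbig hs j N T hT hN ξ
  have ht3 : (1 : ℝ) ≤ t ^ 3 := one_le_pow₀ ht
  have hlog : 0 ≤ Real.log (t ^ 3) := Real.log_nonneg ht3
  obtain ⟨m, l, hm, hl, hml⟩ : ∃ m l : Fin 3, m ≠ j ∧ l ≠ j ∧ m ≠ l := by
    fin_cases j
    · exact ⟨1, 2, by decide, by decide, by decide⟩
    · exact ⟨0, 2, by decide, by decide, by decide⟩
    · exact ⟨0, 1, by decide, by decide, by decide⟩
  set ξ' : K := pv b (Ch (sj j m l))ᶜ ξ with hξ'
  have e1 := hp t ht hbig hs j m l hm hl hml N T hT hN ξ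
  have e2 := hp t ht hbig hs j l m hl hm hml.symm N T hT hN ξ'
  have hsplit : ∀ g ∈ T, b (rot g f) ξ = (b (rot g f) * pv b (Ch (sj j m l))) ξ +
      (b (rot g f) * pv b (Ch (sj j l m))) ξ' := by
    intro g hg
    obtain ⟨i, hG⟩ := hT g hg
    have hz : b (rot g f) * pv b ((Ch (sj j m l))ᶜ ∩ (Ch (sj j l m))ᶜ) = 0 :=
      H466.phi_pv_zero b fun x hx => rest_zero hG ht hδ hbig hm hl hml hx.1 hx.2
    have hm1 := ch_meas j m l
    have hm2 := ch_meas j l m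
    have hd : pv b (Ch (sj j m l))ᶜ = pv b (Ch (sj j l m)) * pv b (Ch (sj j m l))ᶜ +
        pv b ((Ch (sj j m l))ᶜ ∩ (Ch (sj j l m))ᶜ) := by
      rw [H466.pv_inter b hm1.compl hm2.compl, H466.pv_comm b (Ch (sj j l m)),
        H466.pv_compl b hm2]
      rw [mul_sub, mul_one, add_sub_cancel]
    have h1' : (1 : K →L[ℂ] K) = pv b (Ch (sj j m l)) + pv b (Ch (sj j m l))ᶜ := by
      rw [H466.pv_compl b hm1, add_sub_cancel]
    have e : b (rot g f) = b (rot g f) * pv b (Ch (sj j m l)) +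
        b (rot g f) * pv b (Ch (sj j l m)) * pv b (Ch (sj j m l))ᶜ := by
      calc b (rot g f) = b (rot g f) * (pv b (Ch (sj j m l)) + pv b (Ch (sj j m l))ᶜ) := by
            rw [← h1', mul_one]
        _ = _ := by
            rw [mul_add]
            congr 1
            conv_lhs => rw [hd]
            rw [mul_add, hz, add_zero, mul_assoc]
    conv_lhs => rw [e]
    rfl
  have hstep : ∀ g ∈ T, ‖mn (rot (du g) h) (b (rot g f) ξ)‖ ^ 2 ≤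
      2 * ‖mn (rot (du g) h) ((b (rot g f) * pv b (Ch (sj j m l))) ξ)‖ ^ 2 +
      2 * ‖mn (rot (du g) h) ((b (rot g f) * pv b (Ch (sj j l m))) ξ')‖ ^ 2 := by
    intro g hg
    rw [hsplit g hg, map_add]
    set u := mn (rot (du g) h) ((b (rot g f) * pv b (Ch (sj j m l))) ξ)
    set w := mn (rot (du g) h) ((b (rot g f) * pv b (Ch (sj j l m))) ξ')
    have h4 := norm_add_le u w
    have h5 := norm_nonneg (u + w)
    nlinarith [sq_nonneg (‖u‖ - ‖w‖), norm_nonneg u, norm_nonneg w]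
  refine (Finset.sum_le_sum hstep).trans ?_
  rw [Finset.sum_add_distrib, ← Finset.mul_sum, ← Finset.mul_sum]
  have hξ : ‖ξ'‖ ^ 2 ≤ ‖ξ‖ ^ 2 := by
    have := H466.norm_pv_le b (Ch (sj j m l))ᶜ ξ
    gcongr
  have hfac : 0 ≤ D * N * (1 + Real.log (t ^ 3)) ^ 4 := by positivity
  have e3 := e2.trans (mul_le_mul_of_nonneg_left hξ hfac)
  calc _ ≤ 2 * (D * N * (1 + Real.log (t ^ 3)) ^ 4 * ‖ξ‖ ^ 2) +
        2 * (D * N * (1 + Real.log (t ^ 3)) ^ 4 * ‖ξ‖ ^ 2) := by linarith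
    _ = _ := by ring

end main

/-- the literal of helper68 -/
def NJ {Γ : Type} [Group Γ] (K : Type) [NormedAddCommGroup K] [InnerProductSpace ℂ K]
    [CompleteSpace K] (q : Γ →* SD.G3 ℝ) : Prop :=
  ∀ (Eb Ea Fn Fl : SD.CP ℝ →⋆ₐ[ℂ] (K →L[ℂ] K)),
    SD.Supp Eb Fn → (∀ f g, Commute (Eb f) (Fn g)) →
    SD.Supp Ea Fn → (∀ f g, Commute (Ea f) (Fn g)) →
    SD.Supp Ea Fl → (∀ f g, Commute (Ea f) (Fl g)) →
    ∀ (f h : SD.CP ℝ), SD.LipP f → ∀ A : Set (SD.PP ℝ), IsClosed A → Disjoint A (tsupport f) →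
    SD.NInc A (tsupport h) → ∀ R : ℝ, ∃ T > 0, ∃ C : ℝ, ∀ (J : ℕ) (D : Finset Γ),
    (∀ γ ∈ D, SD.NW R (q γ) ∧ SD.Att T A (q γ) ∧ SD.nm (q γ) ≤ Real.exp J) →
    ∀ ξ, ∑ γ ∈ D, ‖Fl (SD.act (SD.tau ℝ (q γ))⁻¹ h) (Eb (SD.act (q γ)⁻¹ f) ξ)‖ ^ 2 ≤
      C * (1 + J) ^ 5 * ‖ξ‖ ^ 2

lemma act_rot (g : SD.G3 ℝ) (f : SD.CP ℝ) : SD.act g⁻¹ f = rot g f := by
  ext x
  change f ((g⁻¹)⁻¹ • x) = f (g • x)
  rw [inv_inv]

lemma tau_du (g : SD.G3 ℝ) : SD.tau ℝ g = du g := rfl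

lemma inc2_of {β ℓ : SD.CP ℝ →⋆ₐ[ℂ] (K →L[ℂ] K)} (h : SD.Supp β ℓ)
    (hc : ∀ f g, Commute (β f) (ℓ g)) : Inc2 β ℓ := ⟨fun f g => hc f g, fun f g h' => h f g h'⟩

/-- the shells are small from some point on -/
lemma exists_s0 (c c' δ : ℝ) (hδ : 0 < δ) : ∃ s₀ : ℕ, ∀ s : ℕ, s₀ ≤ s →
    c * ((Real.exp ((s : ℝ) / 2)) ^ 3)⁻¹ ≤ 1 / 2 ∧ c' ≤ δ * (Real.exp ((s : ℝ) / 2)) ^ 3 := by
  obtain ⟨s₀, hs⟩ := exists_nat_ge (2 * |c| + |c'| / δ)
  refine ⟨s₀, fun s hss => ?_⟩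
  have h1 : (s₀ : ℝ) ≤ s := by exact_mod_cast hss
  have h2 : (s : ℝ) ≤ (Real.exp ((s : ℝ) / 2)) ^ 3 := by
    rw [← Real.exp_nat_mul]
    have h3 := Real.add_one_le_exp (((3 : ℕ) : ℝ) * ((s : ℝ) / 2))
    have h4 : (0 : ℝ) ≤ s := Nat.cast_nonneg s
    push_cast at h3 ⊢
    linarith
  have h0 : 0 < (Real.exp ((s : ℝ) / 2)) ^ 3 := by positivity
  have h5 : 0 ≤ |c'| / δ := by positivity
  constructor
  · have h6 : 2 * |c| ≤ (Real.exp ((s : ℝ) / 2)) ^ 3 := by linarith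
    rw [← div_eq_mul_inv, div_le_iff₀ h0]
    have := le_abs_self c
    linarith
  · have h6 : |c'| / δ ≤ (Real.exp ((s : ℝ) / 2)) ^ 3 := by
      have := abs_nonneg c
      linarith
    rw [div_le_iff₀ hδ] at h6
    have := le_abs_self c'
    linarith

theorem nj {Γ : Type} [Group Γ] (q : Γ →* SD.G3 ℝ) (hq : Function.Injective q)
    [DiscreteTopology q.range] (kak : KakStmt K) : NJ K q := by
  classical
  intro Eb Ea Fn Fl s1 c1 s2 c2 s3 c3 f h hf A hA hAf hAh R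
  have i1 := inc2_of s1 c1
  have i2 := inc2_of s2 c2
  have i3 := inc2_of s3 c3
  -- normalisation
  set M : ℝ := 1 + ‖f‖ with hM
  have hM0 : 0 < M := by positivity
  set f₁ : SD.CP ℝ := ((M⁻¹ : ℝ) : ℂ) • f with hf1
  have hMc : ((M⁻¹ : ℝ) : ℂ) ≠ 0 := by exact_mod_cast (inv_ne_zero hM0.ne')
  have hf1' : ∀ x, ‖f₁ x‖ ≤ 1 := by
    intro x
    have hx : ‖f x‖ ≤ ‖f‖ := f.norm_coe_le_norm x
    rw [hf1, ContinuousMap.smul_apply, norm_smul, Complex.norm_real, Real.norm_eq_abs,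
      abs_of_pos (inv_pos.2 hM0), inv_mul_le_iff₀ hM0]
    linarith
  have hsupp : ∀ x, f₁ x ≠ 0 → f x ≠ 0 := by
    intro x hx h0
    apply hx
    rw [hf1, ContinuousMap.smul_apply, h0, smul_zero]
  obtain ⟨δ, hδ, T₀, hT₀, hunif⟩ := H696.unif hA hAf hAh
  obtain ⟨L₀, hL0, hL⟩ := H696.lip_of_sd hf
  -- constants
  set R' : ℝ := max R 0 with hR'
  have hR0 : 0 ≤ R' := le_max_right _ _
  set C : ℝ := 3 + 3 * R' with hC
  have hC0 : 0 < C := by positivity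
  have hcS : 0 ≤ cS C δ := by unfold cS; positivity
  set L : ℝ := M⁻¹ * L₀ with hLdef
  have hL1 : 0 ≤ L := by positivity
  have hlip : ∀ a b, a ≠ 0 → b ≠ 0 → ‖lift f₁ a - lift f₁ b‖ * (‖a‖ * ‖b‖) ≤ L * ‖a ⨯₃ b‖ := by
    intro a b ha hb
    rw [lift_of f₁ ha, lift_of f₁ hb, hf1, ContinuousMap.smul_apply, ContinuousMap.smul_apply,
      ← smul_sub, norm_smul, Complex.norm_real, Real.norm_eq_abs, abs_of_pos (inv_pos.2 hM0),
      mul_assoc, hLdef, mul_assoc]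
    exact mul_le_mul_of_nonneg_left (hL ⟨a, ha⟩ ⟨b, hb⟩) (inv_pos.2 hM0).le
  let Q : H414.SL3 → Prop := fun g => g ∈ q.range ∧ SD.NW R' g ∧ SD.Att T₀ A g
  have hgood : ∀ g, Q g → ∀ i j, H414.Piv g i j → Good C (sc g) δ L f₁ h g i j := by
    intro g hg i j hp
    have hnw : H696.NW C (sc g) g.1 i j := H696.of_nw hR0 hg.2.1 hp
    obtain ⟨h4, h5⟩ := hunif T₀ le_rfl g hg.2.2 i j hp (hnw.ne (H696.one_le_sc g))
    refine ⟨hnw, hlip, fun a ha hfa => h4 a ha ?_, fun a ha hha => h5 a ha ?_, hf1'⟩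
    · rw [lift_of f₁ ha] at hfa
      exact hsupp _ hfa
    · rw [lift_of h ha] at hha
      exact hha
  obtain ⟨D, hD, hcol⟩ := col_shell (H := ‖h‖) kak i1 i2 i3 hC0 hδ hL1 (norm_nonneg h) f₁ h
    h.norm_coe_le_norm
  obtain ⟨s₀, hs₀⟩ := exists_s0 (cS C δ) (6 * C ^ 3) δ hδ
  obtain ⟨N, hN⟩ := H414.exists_card_le' q.range hC0 1
  obtain ⟨Cf, hCf⟩ := H964.sum_shells
    (fun (ξ : K) (g : H414.SL3) => ‖Fl (rot (du g) h) (Eb (rot g f₁) ξ)‖ ^ 2)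
    (fun ξ => ‖ξ‖ ^ 2) (fun _ _ => by positivity) (fun _ => by positivity) Q
    (by
      refine ⟨D * N * 16, s₀, fun s hs j T hT ξ => ?_⟩
      set t : ℝ := Real.exp ((s : ℝ) / 2) with ht
      have ht1 : 1 ≤ t := H414.one_le_b s
      have htg : ∀ g ∈ T, sc g = t := fun g hg => by
        rw [sc, (hT g hg).2.1]
      have key := hcol t ht1 (hs₀ s hs).1 (hs₀ s hs).2 j N T
        (fun g hg => by
          obtain ⟨i, hi⟩ := (hT g hg).2.2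
          refine ⟨i, ?_⟩
          have := hgood g (hT g hg).1 i j hi
          rwa [htg g hg] at this)
        (by
          intro y0 T' hT' hc
          refine hN t (by linarith) j y0 T' fun g hg => ?_
          have hg' := hT g (hT' hg)
          refine ⟨hg'.1.1, ?_, hc g hg⟩
          have := H696.sh_of_nw hR0 hg'.1.2.1
          rwa [htg g (hT' hg)] at this) ξ
      refine key.trans ?_
      have hlog : Real.log (t ^ 3) = 3 / 2 * s := by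
        rw [Real.log_pow, ht, Real.log_exp]
        push_cast
        ring
      rw [hlog]
      have hs4 : (1 + 3 / 2 * (s : ℝ)) ^ 4 ≤ 16 * (1 + s) ^ 4 := by
        have h0 : (0 : ℝ) ≤ s := Nat.cast_nonneg s
        calc (1 + 3 / 2 * (s : ℝ)) ^ 4 ≤ (2 * (1 + s)) ^ 4 := by
              gcongr
              linarith
          _ = _ := by ring
      have hx : 0 ≤ ‖ξ‖ ^ 2 := by positivity
      calc D * N * (1 + 3 / 2 * (s : ℝ)) ^ 4 * ‖ξ‖ ^ 2 ≤ D * N * (16 * (1 + s) ^ 4) * ‖ξ‖ ^ 2 := by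
            gcongr
        _ = _ := by ring)
    (H964.card_low_of q.range Q fun g hg => hg.1)
    (by
      refine ⟨‖h‖ ^ 2, fun g _ ξ => ?_⟩
      have h6 : ‖Fl (rot (du g) h) (Eb (rot g f₁) ξ)‖ ≤ ‖h‖ * (1 * ‖ξ‖) :=
        (H466.norm_phi_le Fl (f := rot (du g) h) (norm_nonneg h)
          (fun x => h.norm_coe_le_norm (du g • x)) _).trans
          (mul_le_mul_of_nonneg_left
            (H466.norm_phi_le Eb (f := rot g f₁) zero_le_one (fun x => hf1' (g • x)) _)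
            (norm_nonneg h))
      calc ‖Fl (rot (du g) h) (Eb (rot g f₁) ξ)‖ ^ 2 ≤ (‖h‖ * (1 * ‖ξ‖)) ^ 2 := by gcongr
        _ = _ := by ring)
  refine ⟨T₀, hT₀, M ^ 2 * Cf, fun J S hS ξ => ?_⟩
  have hmap := hCf J (S.map ⟨q, hq⟩) (by
    intro g hg
    obtain ⟨γ, hγ, rfl⟩ := Finset.mem_map.1 hg
    obtain ⟨h7, h8, h9⟩ := hS γ hγ
    refine ⟨⟨⟨γ, rfl⟩, ?_, h8⟩, ?_⟩
    · change SD.nm (q γ)⁻¹ ^ 2 ≤ R' * SD.nm (q γ)
      have h10 : SD.nm (q γ)⁻¹ ^ 2 ≤ R * SD.nm (q γ) := h7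
      have h11 : 0 ≤ SD.nm (q γ) := norm_nonneg _
      exact h10.trans (mul_le_mul_of_nonneg_right (le_max_left _ _) h11)
    · rw [← H696.nm_eq]; exact h9) ξ
  rw [Finset.sum_map] at hmap
  have hterm : ∀ γ ∈ S, ‖Fl (SD.act (SD.tau ℝ (q γ))⁻¹ h) (Eb (SD.act (q γ)⁻¹ f) ξ)‖ ^ 2 =
      M ^ 2 * ‖Fl (rot (du (q γ)) h) (Eb (rot (q γ) f₁) ξ)‖ ^ 2 := by
    intro γ _
    rw [act_rot, tau_du, act_rot]
    have e : rot (q γ) f₁ = ((M⁻¹ : ℝ) : ℂ) • rot (q γ) f := by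
      ext x; rfl
    rw [e, map_smul, _root_.smul_apply, map_smul, norm_smul, Complex.norm_real,
      Real.norm_eq_abs, abs_of_pos (inv_pos.2 hM0), mul_pow, ← mul_assoc, ← mul_pow,
      mul_inv_cancel₀ hM0.ne', one_pow, one_mul]
  rw [Finset.sum_congr rfl hterm, ← Finset.mul_sum]
  calc M ^ 2 * _ ≤ M ^ 2 * (Cf * (1 + J) ^ 5 * ‖ξ‖ ^ 2) :=
        mul_le_mul_of_nonneg_left hmap (by positivity)
    _ = _ := by ring

end

end Vale.Agent.P092.H589.KT
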