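import Mathlib

/-!
P092, TEAM N, blocks [N-K], [N-W0] (helper589), part 1: **capacity families and multipliers**.

A family `E k` (`k ∈ S`, `S` finite) of operators has capacity `N` if `∑ k, ‖E k v‖² ≤ N² ‖v‖²`.
A family `F k` is a multiplier of norm `≤ M` if `E k * F k` has capacity `N M` as soon as `E` has
capacity `N` (also on subsets of `S`).  Multipliers form a Banach algebra; the geometric series is
`Mul.neumann`; the Whitney sum is `Mul.fiber`.
-/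

namespace Vale.Agent.P092.H589.Mu

open Finset

variable {K : Type*} [NormedAddCommGroup K] [InnerProductSpace ℂ K]
variable {κ : Type*}

/-- capacity -/
def Cap (S : Finset κ) (E : κ → (K →L[ℂ] K)) (N : ℝ) : Prop :=
  ∀ v, ∑ k ∈ S, ‖E k v‖ ^ 2 ≤ N ^ 2 * ‖v‖ ^ 2

/-- multiplier norm `≤ M` -/
def Mul (S : Finset κ) (F : κ → (K →L[ℂ] K)) (M : ℝ) : Prop :=
  ∀ T ⊆ S, ∀ (E : κ → (K →L[ℂ] K)) (N : ℝ), 0 ≤ N → Cap T E N →
    Cap T (fun k => E k * F k) (N * M)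

/-- Minkowski for finite sums of squares. -/
theorem mink {ι : Type*} (S : Finset ι) (a b c : ι → ℝ) {A B : ℝ}
    (hc : ∀ k ∈ S, 0 ≤ c k) (hA : 0 ≤ A) (hB : 0 ≤ B)
    (h1 : ∑ k ∈ S, a k ^ 2 ≤ A ^ 2) (h2 : ∑ k ∈ S, b k ^ 2 ≤ B ^ 2)
    (h : ∀ k ∈ S, c k ≤ a k + b k) : ∑ k ∈ S, c k ^ 2 ≤ (A + B) ^ 2 := by
  have hcs : (∑ k ∈ S, a k * b k) ^ 2 ≤ (A * B) ^ 2 := by
    calc (∑ k ∈ S, a k * b k) ^ 2 ≤ (∑ k ∈ S, a k ^ 2) * ∑ k ∈ S, b k ^ 2 :=
          Finset.sum_mul_sq_le_sq_mul_sq S a b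
      _ ≤ A ^ 2 * B ^ 2 := mul_le_mul h1 h2 (sum_nonneg fun k _ => sq_nonneg _) (sq_nonneg _)
      _ = _ := by ring
  have hcs' : ∑ k ∈ S, a k * b k ≤ A * B :=
    le_of_sq_le_sq hcs (mul_nonneg hA hB)
  calc ∑ k ∈ S, c k ^ 2 ≤ ∑ k ∈ S, (a k + b k) ^ 2 :=
        sum_le_sum fun k hk => pow_le_pow_left₀ (hc k hk) (h k hk) 2
    _ = ∑ k ∈ S, a k ^ 2 + 2 * ∑ k ∈ S, a k * b k + ∑ k ∈ S, b k ^ 2 := by
        rw [mul_sum, ← sum_add_distrib, ← sum_add_distrib]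
        exact sum_congr rfl fun k _ => by ring
    _ ≤ A ^ 2 + 2 * (A * B) + B ^ 2 := by linarith
    _ = _ := by ring

namespace Cap

variable {S T : Finset κ} {E E' : κ → (K →L[ℂ] K)} {N N' : ℝ}

theorem sub (h : Cap S E N) (hT : T ⊆ S) : Cap T E N := fun v =>
  (sum_le_sum_of_subset_of_nonneg hT fun _ _ _ => sq_nonneg _).trans (h v)

theorem mono (h : Cap S E N) (h0 : 0 ≤ N) (hN : N ≤ N') : Cap S E N' := fun v =>
  (h v).trans (by gcongr)

theorem congr (h : Cap S E N) (he : ∀ k ∈ S, E k = E' k) : Cap S E' N := fun v => by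
  have e : ∑ k ∈ S, ‖E k v‖ ^ 2 = ∑ k ∈ S, ‖E' k v‖ ^ 2 :=
    sum_congr rfl fun k hk => by rw [he k hk]
  rw [← e]
  exact h v

theorem norm_le (h : Cap S E N) (h0 : 0 ≤ N) {k : κ} (hk : k ∈ S) (v : K) :
    ‖E k v‖ ≤ N * ‖v‖ := by
  have h1 : ‖E k v‖ ^ 2 ≤ (N * ‖v‖) ^ 2 := by
    rw [mul_pow]
    exact (single_le_sum (f := fun k => ‖E k v‖ ^ 2) (fun _ _ => sq_nonneg _) hk).trans (h v)
  exact le_of_sq_le_sq h1 (by positivity)

theorem add (h : Cap S E N) (h' : Cap S E' N') (h0 : 0 ≤ N) (h0' : 0 ≤ N') :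
    Cap S (fun k => E k + E' k) (N + N') := fun v => by
  have := mink S (fun k => ‖E k v‖) (fun k => ‖E' k v‖) (fun k => ‖(E k + E' k) v‖)
    (A := N * ‖v‖) (B := N' * ‖v‖) (fun _ _ => norm_nonneg _) (by positivity) (by positivity)
    (by rw [mul_pow]; exact h v) (by rw [mul_pow]; exact h' v) (fun k _ => norm_add_le _ _)
  rw [← add_mul, mul_pow] at this
  exact this

theorem zero : Cap S (fun _ => (0 : K →L[ℂ] K)) 0 := fun v => by simp

theorem finsum {ι : Type*} (I : Finset ι) {G : ι → κ → (K →L[ℂ] K)} {n : ι → ℝ}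
    (h : ∀ i ∈ I, Cap S (G i) (n i)) (h0 : ∀ i ∈ I, 0 ≤ n i) :
    Cap S (fun k => ∑ i ∈ I, G i k) (∑ i ∈ I, n i) := by
  classical
  induction I using Finset.induction_on with
  | empty => simpa using (zero : Cap S (fun _ => (0 : K →L[ℂ] K)) 0)
  | insert a I ha ih =>
    simp_rw [sum_insert ha]
    exact (h a (mem_insert_self a I)).add (ih (fun i hi => h i (mem_insert_of_mem hi))
      fun i hi => h0 i (mem_insert_of_mem hi)) (h0 a (mem_insert_self a I))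
      (sum_nonneg fun i hi => h0 i (mem_insert_of_mem hi))

end Cap

namespace Mul

variable {S T : Finset κ} {F G : κ → (K →L[ℂ] K)} {M M' : ℝ}

theorem sub (h : Mul S F M) (hT : T ⊆ S) : Mul T F M := fun T' hT' => h T' (hT'.trans hT)

theorem mono (h : Mul S F M) (h0 : 0 ≤ M) (hM : M ≤ M') : Mul S F M' := fun T hT E N hN hE =>
  (h T hT E N hN hE).mono (mul_nonneg hN h0) (mul_le_mul_of_nonneg_left hM hN)

theorem congr (h : Mul S F M) (he : ∀ k ∈ S, F k = G k) : Mul S G M := fun T hT E N hN hE =>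
  (h T hT E N hN hE).congr fun k hk => by rw [he k (hT hk)]

theorem add (h : Mul S F M) (h' : Mul S G M') (h0 : 0 ≤ M) (h0' : 0 ≤ M') :
    Mul S (fun k => F k + G k) (M + M') := fun T hT E N hN hE => by
  have := (h T hT E N hN hE).add (h' T hT E N hN hE) (mul_nonneg hN h0) (mul_nonneg hN h0')
  rw [← mul_add] at this
  exact this.congr fun k _ => by rw [mul_add]

theorem mul (h : Mul S F M) (h' : Mul S G M') (h0 : 0 ≤ M) :
    Mul S (fun k => F k * G k) (M * M') := fun T hT E N hN hE => by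
  have := h' T hT _ _ (mul_nonneg hN h0) (h T hT E N hN hE)
  rw [mul_assoc] at this
  exact this.congr fun k _ => by rw [mul_assoc]

theorem zero : Mul S (fun _ => (0 : K →L[ℂ] K)) 0 := fun T _ E N _ _ v => by simp

/-- one operator for all `k` -/
theorem op (A : K →L[ℂ] K) (hA : ∀ v, ‖A v‖ ≤ M * ‖v‖) :
    Mul S (fun _ => A) M := fun T _ E N _ hE v => by
  refine (hE (A v)).trans ?_
  calc N ^ 2 * ‖A v‖ ^ 2 ≤ N ^ 2 * (M * ‖v‖) ^ 2 := by gcongr; exact hA v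
    _ = _ := by ring

/-- scalars -/
theorem scal (c : κ → ℂ) (hc : ∀ k ∈ S, ‖c k‖ ≤ M) :
    Mul S (fun k => c k • (1 : K →L[ℂ] K)) M := fun T hT E N _ hE v => by
  calc ∑ k ∈ T, ‖(E k * (c k • (1 : K →L[ℂ] K))) v‖ ^ 2 ≤ ∑ k ∈ T, M ^ 2 * ‖E k v‖ ^ 2 := by
        refine sum_le_sum fun k hk => ?_
        have e : (E k * (c k • (1 : K →L[ℂ] K))) v = c k • E k v := by simp
        rw [e, norm_smul, mul_pow]
        gcongr
        exact hc k (hT hk)
    _ = M ^ 2 * ∑ k ∈ T, ‖E k v‖ ^ 2 := by rw [mul_sum]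
    _ ≤ M ^ 2 * (N ^ 2 * ‖v‖ ^ 2) := by gcongr; exact hE v
    _ = _ := by ring

theorem finsum {ι : Type*} (I : Finset ι) {G : ι → κ → (K →L[ℂ] K)} {n : ι → ℝ}
    (h : ∀ i ∈ I, Mul S (G i) (n i)) (h0 : ∀ i ∈ I, 0 ≤ n i) :
    Mul S (fun k => ∑ i ∈ I, G i k) (∑ i ∈ I, n i) := by
  classical
  induction I using Finset.induction_on with
  | empty => simpa using (zero : Mul S (fun _ => (0 : K →L[ℂ] K)) 0)
  | insert a I ha ih =>
    simp_rw [sum_insert ha]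
    exact (h a (mem_insert_self a I)).add (ih (fun i hi => h i (mem_insert_of_mem hi))
      fun i hi => h0 i (mem_insert_of_mem hi)) (h0 a (mem_insert_self a I))
      (sum_nonneg fun i hi => h0 i (mem_insert_of_mem hi))

/-- scalar coefficients: `∑ i, c k i • A i` -/
theorem lin {ι : Type*} (I : Finset ι) (c : κ → ι → ℂ) (A : ι → (K →L[ℂ] K)) {C : ℝ}
    (hC : 0 ≤ C) (hc : ∀ k ∈ S, ∀ i ∈ I, ‖c k i‖ ≤ C) {n : ι → ℝ} (h0 : ∀ i ∈ I, 0 ≤ n i)
    (hA : ∀ i ∈ I, ∀ v, ‖A i v‖ ≤ n i * ‖v‖) :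
    Mul S (fun k => ∑ i ∈ I, c k i • A i) (C * ∑ i ∈ I, n i) := by
  have := finsum (S := S) I (G := fun i k => (c k i • (1 : K →L[ℂ] K)) * A i)
    (n := fun i => C * n i)
    (fun i hi => (scal (S := S) (fun k => c k i) (fun k hk => hc k hk i hi)).mul
      (op (A i) (hA i hi)) hC) (fun i hi => mul_nonneg hC (h0 i hi))
  rw [← mul_sum] at this
  exact this.congr fun k _ => sum_congr rfl fun i _ => by rw [smul_mul_assoc, one_mul]

/-- Every finite family is a multiplier; here with an explicit (bad) constant. -/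
theorem crude {ε : ℝ} (hF : ∀ k ∈ S, ∀ v, ‖F k v‖ ≤ ε * ‖v‖) :
    Mul S F (Real.sqrt S.card * ε) := fun T hT E N hN hE v => by
  have h1 : ∀ k ∈ T, ‖(E k * F k) v‖ ^ 2 ≤ N ^ 2 * (ε * ‖v‖) ^ 2 := fun k hk => by
    have e : (E k * F k) v = E k (F k v) := rfl
    rw [e, ← mul_pow]
    refine pow_le_pow_left₀ (norm_nonneg _) ((hE.norm_le hN hk _).trans ?_) 2
    exact mul_le_mul_of_nonneg_left (hF k (hT hk) v) hN
  calc ∑ k ∈ T, ‖(E k * F k) v‖ ^ 2 ≤ ∑ _k ∈ T, N ^ 2 * (ε * ‖v‖) ^ 2 := sum_le_sum h1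
    _ = T.card * (N ^ 2 * (ε * ‖v‖) ^ 2) := by rw [sum_const, nsmul_eq_mul]
    _ ≤ S.card * (N ^ 2 * (ε * ‖v‖) ^ 2) := by
        gcongr
    _ = (N * (Real.sqrt S.card * ε)) ^ 2 * ‖v‖ ^ 2 := by
        have : (Real.sqrt S.card) ^ 2 = S.card := Real.sq_sqrt (Nat.cast_nonneg _)
        calc (S.card : ℝ) * (N ^ 2 * (ε * ‖v‖) ^ 2)
            = (Real.sqrt S.card) ^ 2 * (N ^ 2 * (ε * ‖v‖) ^ 2) := by rw [this]
          _ = _ := by ring

/-- Multipliers of norm `≤ M` are closed under norm limits. -/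
theorem closed (hM : 0 ≤ M) (h : ∀ ε : ℝ, 0 < ε → ∃ G : κ → (K →L[ℂ] K), Mul S G M ∧
    ∀ k ∈ S, ∀ v, ‖F k v - G k v‖ ≤ ε * ‖v‖) : Mul S F M := by
  intro T hT E N hN hE v
  have key : ∀ ε : ℝ, 0 < ε →
      ∑ k ∈ T, ‖(E k * F k) v‖ ^ 2 ≤ (N * (M + ε)) ^ 2 * ‖v‖ ^ 2 := by
    intro ε hε
    set q : ℝ := Real.sqrt S.card + 1 with hq
    have hq0 : 0 < q := by positivity
    obtain ⟨G, hG, hFG⟩ := h (ε / q) (by positivity)
    have h1 : Mul S (fun k => F k - G k) ε := by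
      refine (crude (S := S) (F := fun k => F k - G k) (ε := ε / q)
        fun k hk v => hFG k hk v).mono (by positivity) ?_
      rw [mul_div_assoc', div_le_iff₀ hq0, mul_comm]
      have : Real.sqrt S.card ≤ q := by rw [hq]; linarith
      exact mul_le_mul_of_nonneg_left this hε.le
    have h2 := (hG.add h1 hM hε.le).congr (G := F) fun k _ => by abel
    exact h2 T hT E N hN hE v
  have hlim : Filter.Tendsto (fun ε : ℝ => (N * (M + ε)) ^ 2 * ‖v‖ ^ 2)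
      (nhdsWithin 0 (Set.Ioi 0)) (nhds ((N * (M + 0)) ^ 2 * ‖v‖ ^ 2)) := by
    apply Filter.Tendsto.mono_left _ nhdsWithin_le_nhds
    exact Continuous.tendsto (by fun_prop) 0
  rw [add_zero] at hlim
  exact ge_of_tendsto hlim (Filter.eventually_of_mem self_mem_nhdsWithin fun ε hε => key ε hε)

/-- **Neumann series**: `F = P + F R` with `R` of norm `≤ 1/2`. -/
theorem neumann {P R : κ → (K →L[ℂ] K)} (hP : Mul S P M) (hM : 0 ≤ M) (hR : Mul S R (1 / 2))
    (h : ∀ k ∈ S, F k = P k + F k * R k) : Mul S F (2 * M) := by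
  intro T hT E N hN hE
  -- a first finite bound
  obtain ⟨B, hB0, hB⟩ : ∃ B : ℝ, 0 ≤ B ∧ ∀ k ∈ S, ∀ v, ‖F k v‖ ≤ B * ‖v‖ := by
    refine ⟨∑ k ∈ S, ‖F k‖, sum_nonneg fun _ _ => norm_nonneg _, fun k hk v => ?_⟩
    refine ((F k).le_opNorm v).trans ?_
    gcongr
    exact single_le_sum (f := fun k => ‖F k‖) (fun _ _ => norm_nonneg _) hk
  have h0 : Cap T (fun k => E k * F k) (N * (Real.sqrt S.card * B)) :=
    crude hB T hT E N hN hE
  set A : ℝ := N * (Real.sqrt S.card * B) with hA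
  have hA0 : 0 ≤ A := by positivity
  have step : ∀ n : ℕ, Cap T (fun k => E k * F k) (2 * (N * M) + A / 2 ^ n) := by
    intro n
    induction n with
    | zero =>
      refine h0.mono hA0 ?_
      have : 0 ≤ N * M := mul_nonneg hN hM
      simp only [pow_zero, div_one]
      linarith
    | succ n ih =>
      have hn0 : 0 ≤ 2 * (N * M) + A / 2 ^ n := by
        have : 0 ≤ N * M := mul_nonneg hN hM
        positivity
      have h1 := hP T hT E N hN hE
      have h2 := hR T hT _ _ hn0 ih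
      have h3 := h1.add h2 (mul_nonneg hN hM) (by positivity)
      have e : N * M + (2 * (N * M) + A / 2 ^ n) * (1 / 2) = 2 * (N * M) + A / 2 ^ (n + 1) := by
        rw [pow_succ]; field_simp; ring
      rw [e] at h3
      refine h3.congr fun k hk => ?_
      conv_rhs => rw [h k (hT hk)]
      rw [mul_add, mul_assoc]
  intro v
  have hlim : Filter.Tendsto (fun n : ℕ => (2 * (N * M) + A / 2 ^ n) ^ 2 * ‖v‖ ^ 2)
      Filter.atTop (nhds ((2 * (N * M) + 0) ^ 2 * ‖v‖ ^ 2)) := by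
    refine Filter.Tendsto.mul_const _ (Filter.Tendsto.pow (Filter.Tendsto.const_add _ ?_) 2)
    have := tendsto_pow_atTop_nhds_zero_of_lt_one (r := (1 / 2 : ℝ)) (by norm_num) (by norm_num)
    have := this.const_mul A
    rw [mul_zero] at this
    refine this.congr fun n => ?_
    rw [one_div, inv_pow, div_eq_mul_inv]
  rw [add_zero] at hlim
  have := ge_of_tendsto' hlim fun n => step n v
  have e : 2 * (N * M) = N * (2 * M) := by ring
  rwa [e] at this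

/-- **Whitney sum**: the family is a multiplier on every fibre of `g`, and on the fibre over `i`
it starts with the projection `P i`. -/
theorem fiber {γ : Type*} [DecidableEq γ] (g : κ → γ) (P : γ → (K →L[ℂ] K)) {C : ℝ}
    (hF : ∀ k ∈ S, F k * P (g k) = F k)
    (hfib : ∀ i ∈ S.image g, Mul (S.filter fun k => g k = i) F M)
    (hP : ∀ v, ∑ i ∈ S.image g, ‖P i v‖ ^ 2 ≤ C ^ 2 * ‖v‖ ^ 2) : Mul S F (C * M) := by
  classical
  intro T hT E N hN hE v
  have h1 : ∑ k ∈ T, ‖(E k * F k) v‖ ^ 2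
      = ∑ i ∈ S.image g, ∑ k ∈ T.filter fun k => g k = i, ‖(E k * F k) v‖ ^ 2 := by
    rw [sum_fiberwise_of_maps_to]
    exact fun k hk => mem_image_of_mem g (hT hk)
  have h2 : ∀ i ∈ S.image g, ∑ k ∈ T.filter (fun k => g k = i), ‖(E k * F k) v‖ ^ 2
      ≤ (N * M) ^ 2 * ‖P i v‖ ^ 2 := by
    intro i hi
    have hsub : T.filter (fun k => g k = i) ⊆ S.filter fun k => g k = i :=
      filter_subset_filter _ hT
    have := hfib i hi _ hsub E N hN (hE.sub (filter_subset _ _)) (P i v)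
    refine le_trans (le_of_eq ?_) this
    refine sum_congr rfl fun k hk => ?_
    obtain ⟨hk1, hk2⟩ := mem_filter.1 hk
    have e : (E k * F k) (P i v) = (E k * (F k * P (g k))) v := by rw [hk2]; rfl
    rw [e, hF k (hT hk1)]
  rw [h1]
  calc ∑ i ∈ S.image g, ∑ k ∈ T.filter (fun k => g k = i), ‖(E k * F k) v‖ ^ 2
      ≤ ∑ i ∈ S.image g, (N * M) ^ 2 * ‖P i v‖ ^ 2 := sum_le_sum h2
    _ = (N * M) ^ 2 * ∑ i ∈ S.image g, ‖P i v‖ ^ 2 := by rw [mul_sum]
    _ ≤ (N * M) ^ 2 * (C ^ 2 * ‖v‖ ^ 2) := by gcongr; exact hP v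
    _ = _ := by ring

end Mul

end Vale.Agent.P092.H589.Mu
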