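import Vale.Agent.P092.H789.S2.Cap
import Vale.Agent.P092.H835.NF

/-!
P092, STAGE 2, count half of KEY_0 (helper589), part a: linear algebra of one near-1-wall isometry
`g` of a sesquilinear form. `g = A * Dm i η ϖ` on the orthogonal complement of the contracted
vector `η`, with `A`, `A⁻¹` bounded.
-/

set_option linter.unusedSectionVars false

namespace Vale.Agent.P092.H589.P2

open Matrix
open Vale.Agent.P092.H789.S2
open Vale.Agent.P092.H835.NF (Dm Dm_mulVec)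

section algebra

variable {k : Type*} [NontriviallyNormedField k] {ι : Type*} [Fintype ι] [DecidableEq ι]
  {σ : k →+* k} {K : Matrix ι ι k} {β : ℝ}

/-- a coordinate of maximal norm -/
theorem exists_max [Nonempty ι] (v : ι → k) : ∃ m, ‖v m‖ = ‖v‖ := by
  obtain ⟨b, -, hb⟩ := Finset.exists_mem_eq_sup' (Finset.univ_nonempty (α := ι)) (fun b => ‖v b‖₊)
  refine ⟨b, ?_⟩
  have h2 : ‖v‖₊ = ‖v b‖₊ := by
    rw [Pi.nnnorm_def, ← Finset.sup'_eq_sup Finset.univ_nonempty, hb]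
  have := congrArg NNReal.toReal h2
  exact this.symm

theorem norm_mulVec_le {g : Matrix ι ι k} {M : ℝ} (hM : 0 ≤ M) (up : ∀ i j, ‖g i j‖ ≤ M)
    (z : ι → k) : ‖g *ᵥ z‖ ≤ Fintype.card ι * M * ‖z‖ := by
  refine (pi_norm_le_iff_of_nonneg (by positivity)).2 fun i => ?_
  have h : ∀ m, ‖g i m * z m‖ ≤ M * ‖z‖ := fun m => by
    rw [norm_mul]
    exact mul_le_mul (up i m) (norm_le_pi_norm z m) (norm_nonneg _) hM
  calc ‖(g *ᵥ z) i‖ = ‖∑ m, g i m * z m‖ := rfl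
    _ ≤ ∑ m, ‖g i m * z m‖ := norm_sum_le _ _
    _ ≤ ∑ _m : ι, M * ‖z‖ := Finset.sum_le_sum fun m _ => h m
    _ = _ := by rw [Finset.sum_const, Finset.card_univ, nsmul_eq_mul]; ring

/-- vectors orthogonal to the contracted vector are not expanded -/
theorem perp (hB : Bd σ K β) {C M : ℝ} (hC : 1 ≤ C) (hM : 0 < M) {g g' : Matrix ι ι k}
    (hg : NW σ K C M g) {v : ι → k} (hv : v ≠ 0) (hc : M * ‖g *ᵥ v‖ ≤ C * ‖v‖)
    (hi : g * g' = 1) {y : ι → k} (hy : bf σ K y v = 0) :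
    ‖g *ᵥ y‖ ≤ β ^ 5 * C ^ 2 * ‖y‖ := by
  have hβ := hB.one_le
  have h0 : (0 : ℝ) ≤ β := by linarith
  have h1 := hB.lo (g *ᵥ y) (β ^ 4 * C ^ 2 * ‖y‖) (by positivity) (fun i => by
    have e1 : (ee i : ι → k) = g *ᵥ (g' *ᵥ ee i) := by
      rw [Matrix.mulVec_mulVec, hi, Matrix.one_mulVec]
    obtain ⟨a, d, e2, -, hd, -, -⟩ := split hB hC hM hg hv hc (g' *ᵥ ee i)
    have e3 : bf σ K (g *ᵥ y) (ee i) = bf σ K y d := by
      conv_lhs => rw [e1]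
      rw [hg.iso.bf, e2, bf_add_right, bf_smul_right, hy, mul_zero, zero_add]
    rw [e3]
    have h2 : ‖d‖ ≤ β ^ 3 * C ^ 2 * 1 := by
      refine hd.trans ?_
      rw [← e1]
      have := norm_ee (k := k) i
      gcongr
    calc ‖bf σ K y d‖ ≤ β * ‖y‖ * ‖d‖ := hB.up _ _
      _ ≤ β * ‖y‖ * (β ^ 3 * C ^ 2 * 1) := by gcongr
      _ = _ := by ring)
  refine h1.trans (le_of_eq ?_)
  ring

/-- the dilation: `D x = x + (ϖ⁻¹ - 1) x_i η + (ϖ - 1) τ(x) h`, `τ x = bf x η` -/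
def Hd (σ : k →+* k) (K : Matrix ι ι k) (i : ι) (η h : ι → k) (ϖ : k) : Matrix ι ι k :=
  Matrix.of fun a b => (if a = b then 1 else 0) + (ϖ⁻¹ - 1) * (if b = i then 1 else 0) * η a +
    (ϖ - 1) * bf σ K (ee b) η * h a

theorem bf_sum (x η : ι → k) : bf σ K x η = ∑ b, x b * bf σ K (ee b) η := by
  unfold bf
  rw [dotProduct]
  refine Finset.sum_congr rfl fun b _ => ?_
  congr 1
  simp [ee]

theorem Hd_mulVec (i : ι) (η h : ι → k) (ϖ : k) (x : ι → k) :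
    Hd σ K i η h ϖ *ᵥ x = x + ((ϖ⁻¹ - 1) * x i) • η + ((ϖ - 1) * bf σ K x η) • h := by
  funext a
  rw [bf_sum x η]
  simp only [Matrix.mulVec, dotProduct, Hd, Matrix.of_apply, Pi.add_apply, Pi.smul_apply,
    smul_eq_mul, add_mul, Finset.sum_add_distrib, Finset.mul_sum, Finset.sum_mul]
  congr 1
  · congr 1
    · simp
    · rw [Finset.sum_eq_single i]
      · simp; ring
      · intro b _ hb; simp [hb]
      · intro hi; exact absurd (Finset.mem_univ i) hi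
  · refine Finset.sum_congr rfl fun b _ => ?_
    ring

theorem Hd_mul {i : ι} {η h : ι → k} (hη : η i = 1) (hηη : bf σ K η η = 0) (hh : h i = 0)
    (hτ : bf σ K h η = 1) {ϖ ϖ' : k} (h0 : ϖ ≠ 0) (h0' : ϖ' ≠ 0) (hw : ϖ * ϖ' = 1) :
    Hd σ K i η h ϖ * Hd σ K i η h ϖ' = 1 := by
  refine (Matrix.toLin' (R := k)).injective (LinearMap.ext fun x => ?_)
  simp only [Matrix.toLin'_apply, ← Matrix.mulVec_mulVec, Hd_mulVec, Matrix.one_mulVec]
  have e1 : (x + ((ϖ'⁻¹ - 1) * x i) • η + ((ϖ' - 1) * bf σ K x η) • h) i = ϖ'⁻¹ * x i := by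
    simp only [Pi.add_apply, Pi.smul_apply, smul_eq_mul, hη, hh]
    ring
  have e2 : bf σ K (x + ((ϖ'⁻¹ - 1) * x i) • η + ((ϖ' - 1) * bf σ K x η) • h) η =
      ϖ' * bf σ K x η := by
    rw [bf_add_left, bf_add_left, bf_smul_left, bf_smul_left, hηη, hτ]
    ring
  rw [e1, e2]
  have hi : ϖ'⁻¹ = ϖ := by
    field_simp
    linear_combination -hw
  have hi' : ϖ⁻¹ = ϖ' := by
    field_simp
    linear_combination -hw
  rw [hi, hi']
  funext a
  simp only [Pi.add_apply, Pi.smul_apply, smul_eq_mul]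
  linear_combination (x i * η a + bf σ K x η * h a) * hw

/-- **normal form of a near-1-wall isometry on the orthogonal complement of the contracted
vector** -/
theorem nf0 [Nonempty ι] (hB : Bd σ K β) (hsy : ∀ x y, ‖bf σ K x y‖ = ‖bf σ K y x‖) {C : ℝ}
    (hC : 1 ≤ C) : ∃ C' : ℝ, 1 ≤ C' ∧ ∀ (M : ℝ) (g g' : Matrix ι ι k) (i : ι) (η : ι → k),
      1 ≤ M → NW σ K C M g → g * g' = 1 → η i = 1 → ‖η‖ ≤ 1 → bf σ K η η = 0 →
      M * ‖g *ᵥ η‖ ≤ C →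
      ∃ (ϖ : k) (w h : ι → k) (A A' : Matrix ι ι k), ϖ ≠ 0 ∧ M⁻¹ ≤ C' * ‖ϖ‖ ∧ ‖ϖ‖ ≤ C' * M⁻¹ ∧
        g *ᵥ η = ϖ • w ∧ ‖w‖ = 1 ∧ ‖h‖ ≤ C' ∧ A' * A = 1 ∧ A * A' = 1 ∧
        (∀ a b, ‖A a b‖ ≤ C' ∧ ‖A' a b‖ ≤ C') ∧
        (∀ x, (A * Dm i η ϖ) *ᵥ x = g *ᵥ x + ((ϖ - 1) * bf σ K x η) • (g *ᵥ h)) ∧
        ∀ v, v ≠ 0 → M * ‖g *ᵥ v‖ ≤ C * ‖v‖ → ‖v - v i • η‖ ≤ C' * M⁻¹ * ‖v‖ := by
  have hβ := hB.one_le
  have hβ0 : (0 : ℝ) < β := by linarith
  have hC0 : (0 : ℝ) < C := by linarith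
  set n : ℝ := ((Fintype.card ι : ℕ) : ℝ) with hn
  have hn0 : 0 ≤ n := Nat.cast_nonneg _
  set C₁ : ℝ := β ^ 5 * C ^ 2 * (2 + 4 * β ^ 2) + 1 + C * (β * (n * (4 * β))) with hC1
  set C₂ : ℝ := 2 * (β ^ 3 * C ^ 2) + C * (β ^ 2 + β ^ 3 * C ^ 2) +
    (β ^ 2 + 1) * (2 * β ^ 3 * C ^ 2) * (4 * β) with hC2
  set C' : ℝ := 1 + β ^ 2 + C + 4 * β + C₁ + C₂ + 2 * (β ^ 3 * C ^ 3) with hC'
  have hC10 : 0 ≤ C₁ := by positivity
  have hC20 : 0 ≤ C₂ := by positivity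
  have q3 : 0 ≤ β ^ 3 * C ^ 3 := by positivity
  have q2 : 0 ≤ β ^ 2 := by positivity
  refine ⟨C', by linarith, ?_⟩
  intro M g g' i η hM hg hi hη hηn hηη hc
  have hM0 : 0 < M := one_pos.trans_le hM
  have hMi : M⁻¹ ≤ 1 := inv_le_one_of_one_le₀ hM
  have hMi0 : 0 < M⁻¹ := inv_pos.2 hM0
  have hη1 : ‖η‖ = 1 := le_antisymm hηn (by
    have := norm_le_pi_norm η i
    rwa [hη, norm_one] at this)
  have hη0 : η ≠ 0 := by
    intro h
    rw [h, norm_zero] at hη1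
    exact zero_ne_one hη1
  have f1 : ‖g *ᵥ η‖ ≤ C * M⁻¹ := by
    rw [← div_eq_mul_inv, le_div_iff₀ hM0, mul_comm]; exact hc
  have f2 : 1 ≤ β ^ 2 * M * ‖g *ᵥ η‖ := by
    have h1 := hB.lo η (β * ‖g *ᵥ η‖ * M) (by positivity) (fun b => by
      rw [← hg.iso.bf]
      refine (hB.up _ _).trans ?_
      have := norm_mulVec_ee hM0.le hg.up b
      gcongr)
    rw [hη1] at h1
    linarith
  obtain ⟨m, hm⟩ := exists_max (g *ᵥ η)
  set ϖ : k := (g *ᵥ η) m with hϖ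
  have hϖ0 : ϖ ≠ 0 := by
    rw [← norm_pos_iff, hm]
    by_contra h
    have : ‖g *ᵥ η‖ = 0 := le_antisymm (not_lt.1 h) (norm_nonneg _)
    rw [this, mul_zero] at f2
    linarith
  have hϖn : 0 < ‖ϖ‖ := norm_pos_iff.2 hϖ0
  have hϖi : ‖ϖ⁻¹‖ ≤ β ^ 2 * M := by
    rw [norm_inv, inv_le_iff_one_le_mul₀ hϖn, hm]
    exact f2
  -- the vector `h`
  obtain ⟨b, hb⟩ : ∃ b, (2 * β)⁻¹ ≤ ‖bf σ K (ee b) η‖ := by
    by_contra hcon
    push Not at hcon
    have h1 := hB.lo η (2 * β)⁻¹ (by positivity) (fun b => by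
      rw [hsy]; exact (hcon b).le)
    rw [hη1] at h1
    have : β * (2 * β)⁻¹ = 1 / 2 := by field_simp
    rw [this] at h1
    norm_num at h1
  have hb0 : bf σ K (ee b) η ≠ 0 := by
    rw [← norm_pos_iff]
    exact lt_of_lt_of_le (by positivity) hb
  obtain ⟨h₀, hh₀⟩ : ∃ h₀ : ι → k, h₀ = (bf σ K (ee b) η)⁻¹ • ee b := ⟨_, rfl⟩
  have hh₀n : ‖h₀‖ ≤ 2 * β := by
    rw [hh₀, norm_smul, norm_inv]
    calc ‖bf σ K (ee b) η‖⁻¹ * ‖(ee b : ι → k)‖ ≤ (2 * β) * 1 := by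
          refine mul_le_mul ?_ (norm_ee b) (norm_nonneg _) (by positivity)
          rw [inv_le_comm₀ (norm_pos_iff.2 hb0) (by positivity)]
          exact hb
      _ = _ := mul_one _
  obtain ⟨h, hh⟩ : ∃ h : ι → k, h = h₀ - h₀ i • η := ⟨_, rfl⟩
  have hhn : ‖h‖ ≤ 4 * β := by
    rw [hh]
    refine (norm_sub_le _ _).trans ?_
    rw [norm_smul, hη1, mul_one]
    have := norm_le_pi_norm h₀ i
    linarith
  have hhi : h i = 0 := by
    rw [hh, Pi.sub_apply, Pi.smul_apply, hη, smul_eq_mul, mul_one, sub_self]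
  have hτ : bf σ K h η = 1 := by
    rw [hh, bf_sub_left, bf_smul_left (h₀ i), hηη, mul_zero, sub_zero, hh₀, bf_smul_left,
      inv_mul_cancel₀ hb0]
  have hi' : g' * g = 1 := mul_eq_one_comm.1 hi
  have hpp : ∀ y, bf σ K y η = 0 → ‖g *ᵥ y‖ ≤ β ^ 5 * C ^ 2 * ‖y‖ := fun y hy =>
    perp hB hC hM0 hg hη0 (by rw [hη1, mul_one]; exact hc) hi hy
  have hgh : ‖g *ᵥ h‖ ≤ n * M * (4 * β) := (norm_mulVec_le hM0.le hg.up h).trans (by gcongr)
  refine ⟨ϖ, ϖ⁻¹ • (g *ᵥ η), h, g * Hd σ K i η h ϖ, Hd σ K i η h ϖ⁻¹ * g', hϖ0, ?_, ?_, ?_, ?_,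
    ?_, ?_, ?_, ?_, ?_, ?_⟩
  · rw [hm]
    have : M⁻¹ ≤ β ^ 2 * ‖g *ᵥ η‖ := by
      rw [inv_le_iff_one_le_mul₀ hM0]
      linarith
    refine this.trans (mul_le_mul_of_nonneg_right ?_ (norm_nonneg _))
    linarith
  · rw [hm]
    refine f1.trans (mul_le_mul_of_nonneg_right ?_ hMi0.le)
    linarith
  · rw [smul_smul, mul_inv_cancel₀ hϖ0, one_smul]
  · rw [norm_smul, norm_inv, ← hm, inv_mul_cancel₀ hϖn.ne']
  · linarith
  · calc Hd σ K i η h ϖ⁻¹ * g' * (g * Hd σ K i η h ϖ)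
        = Hd σ K i η h ϖ⁻¹ * (g' * g) * Hd σ K i η h ϖ := by simp only [Matrix.mul_assoc]
      _ = 1 := by
          rw [hi', Matrix.mul_one]
          exact Hd_mul hη hηη hhi hτ (inv_ne_zero hϖ0) hϖ0 (inv_mul_cancel₀ hϖ0)
  · calc g * Hd σ K i η h ϖ * (Hd σ K i η h ϖ⁻¹ * g')
        = g * (Hd σ K i η h ϖ * Hd σ K i η h ϖ⁻¹) * g' := by simp only [Matrix.mul_assoc]
      _ = 1 := by
          rw [Hd_mul hη hηη hhi hτ hϖ0 (inv_ne_zero hϖ0) (mul_inv_cancel₀ hϖ0), Matrix.mul_one,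
            hi]
  · intro a c
    have hec : ‖(ee c : ι → k)‖ ≤ 1 := norm_ee c
    have hτc : ‖bf σ K (ee c) η‖ ≤ β := by
      refine (hB.up _ _).trans ?_
      rw [hη1, mul_one]
      calc β * ‖(ee c : ι → k)‖ ≤ β * 1 := by gcongr
        _ = β := mul_one _
    have hci : ‖(ee c : ι → k) i‖ ≤ 1 := (norm_le_pi_norm _ i).trans hec
    constructor
    · rw [← mulVec_ee (g * Hd σ K i η h ϖ) c a, ← Matrix.mulVec_mulVec, Hd_mulVec]
      obtain ⟨x, hx⟩ : ∃ x : ι → k, x = ee c := ⟨_, rfl⟩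
      rw [← hx] at hec hτc hci ⊢
      obtain ⟨y, hy⟩ : ∃ y : ι → k, y = x - x i • η - bf σ K x η • h := ⟨_, rfl⟩
      have hyη : bf σ K y η = 0 := by
        rw [hy, bf_sub_left, bf_sub_left, bf_smul_left, bf_smul_left, hηη, hτ]
        ring
      have hyn : ‖y‖ ≤ 2 + 4 * β ^ 2 := by
        rw [hy]
        refine (norm_sub_le _ _).trans ?_
        have h1 : ‖x - x i • η‖ ≤ 2 := by
          refine (norm_sub_le _ _).trans ?_
          rw [norm_smul, hη1, mul_one]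
          linarith
        have h2 : ‖bf σ K x η • h‖ ≤ 4 * β ^ 2 := by
          rw [norm_smul]
          calc ‖bf σ K x η‖ * ‖h‖ ≤ β * (4 * β) := by gcongr
            _ = 4 * β ^ 2 := by ring
        linarith
      have e1 : g *ᵥ (x + ((ϖ⁻¹ - 1) * x i) • η + ((ϖ - 1) * bf σ K x η) • h) =
          g *ᵥ y + x i • (ϖ⁻¹ • (g *ᵥ η)) + (ϖ * bf σ K x η) • (g *ᵥ h) := by
        have e2 : x + ((ϖ⁻¹ - 1) * x i) • η + ((ϖ - 1) * bf σ K x η) • h =
            y + x i • (ϖ⁻¹ • η) + (ϖ * bf σ K x η) • h := by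
          rw [hy]
          funext t
          simp only [Pi.add_apply, Pi.sub_apply, Pi.smul_apply, smul_eq_mul]
          ring
        rw [e2, Matrix.mulVec_add, Matrix.mulVec_add, Matrix.mulVec_smul, Matrix.mulVec_smul,
          Matrix.mulVec_smul]
      rw [e1]
      refine (norm_le_pi_norm _ a).trans ?_
      have t1 : ‖g *ᵥ y‖ ≤ β ^ 5 * C ^ 2 * (2 + 4 * β ^ 2) :=
        (hpp y hyη).trans (by gcongr)
      have t2 : ‖x i • (ϖ⁻¹ • (g *ᵥ η))‖ ≤ 1 := by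
        rw [norm_smul, norm_smul, norm_inv, ← hm, inv_mul_cancel₀ hϖn.ne', mul_one]
        exact hci
      have t3 : ‖(ϖ * bf σ K x η) • (g *ᵥ h)‖ ≤ C * (β * (n * (4 * β))) := by
        rw [norm_smul, norm_mul]
        calc ‖ϖ‖ * ‖bf σ K x η‖ * ‖g *ᵥ h‖ ≤ (C * M⁻¹) * β * (n * M * (4 * β)) := by
              gcongr
              rw [hm]; exact f1
          _ = C * (β * (n * (4 * β))) * (M⁻¹ * M) := by ring
          _ = _ := by rw [inv_mul_cancel₀ hM0.ne', mul_one]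
      refine (norm_add_le _ _).trans ((add_le_add (norm_add_le _ _) le_rfl).trans ?_)
      linarith
    · rw [← mulVec_ee (Hd σ K i η h ϖ⁻¹ * g') c a, ← Matrix.mulVec_mulVec]
      obtain ⟨α, d, e1, ha, hd, -, hdη⟩ := split hB hC hM0 hg hη0
        (by rw [hη1, mul_one]; exact hc) (g' *ᵥ ee c)
      have e2 : g *ᵥ (g' *ᵥ ee c) = ee c := by
        rw [Matrix.mulVec_mulVec, hi, Matrix.one_mulVec]
      rw [e2, hη1, mul_one] at ha
      rw [e2] at hd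
      rw [e2, hη1, mul_one] at hdη
      have ha' : ‖α‖ ≤ β ^ 2 * M := ha.trans (by
        calc β ^ 2 * M * ‖(ee c : ι → k)‖ ≤ β ^ 2 * M * 1 := by gcongr
          _ = _ := mul_one _)
      have hd' : ‖d‖ ≤ β ^ 3 * C ^ 2 := hd.trans (by
        calc β ^ 3 * C ^ 2 * ‖(ee c : ι → k)‖ ≤ β ^ 3 * C ^ 2 * 1 := by gcongr
          _ = _ := mul_one _)
      have hdη' : ‖bf σ K d η‖ ≤ (2 * β ^ 3 * C ^ 2) * M⁻¹ := by
        rw [← div_eq_mul_inv, le_div_iff₀ hM0, mul_comm]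
        refine hdη.trans ?_
        calc 2 * β ^ 3 * C ^ 2 * ‖(ee c : ι → k)‖ ≤ 2 * β ^ 3 * C ^ 2 * 1 := by gcongr
          _ = _ := mul_one _
      rw [e1, Hd_mulVec]
      have e3 : (α • η + d) i = α + d i := by
        simp only [Pi.add_apply, Pi.smul_apply, smul_eq_mul, hη, mul_one]
      have e4 : bf σ K (α • η + d) η = bf σ K d η := by
        rw [bf_add_left, bf_smul_left, hηη, mul_zero, zero_add]
      rw [e3, e4, inv_inv]
      have e5 : α • η + d + ((ϖ - 1) * (α + d i)) • η + ((ϖ⁻¹ - 1) * bf σ K d η) • h =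
          d - d i • η + (ϖ * (α + d i)) • η + ((ϖ⁻¹ - 1) * bf σ K d η) • h := by
        funext t
        simp only [Pi.add_apply, Pi.sub_apply, Pi.smul_apply, smul_eq_mul]
        ring
      rw [e5]
      refine (norm_le_pi_norm _ a).trans ?_
      have hdi : ‖d i‖ ≤ β ^ 3 * C ^ 2 := (norm_le_pi_norm d i).trans hd'
      have t1 : ‖d - d i • η‖ ≤ 2 * (β ^ 3 * C ^ 2) := by
        refine (norm_sub_le _ _).trans ?_
        rw [norm_smul, hη1, mul_one]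
        linarith
      have t2 : ‖(ϖ * (α + d i)) • η‖ ≤ C * (β ^ 2 + β ^ 3 * C ^ 2) := by
        rw [norm_smul, hη1, mul_one, norm_mul]
        calc ‖ϖ‖ * ‖α + d i‖ ≤ (C * M⁻¹) * (β ^ 2 * M + β ^ 3 * C ^ 2) := by
              gcongr
              · rw [hm]; exact f1
              · exact (norm_add_le _ _).trans (add_le_add ha' hdi)
          _ = C * (β ^ 2 * (M⁻¹ * M) + β ^ 3 * C ^ 2 * M⁻¹) := by ring
          _ ≤ C * (β ^ 2 * 1 + β ^ 3 * C ^ 2 * 1) := by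
              rw [inv_mul_cancel₀ hM0.ne']
              gcongr
          _ = _ := by ring
      have t3 : ‖((ϖ⁻¹ - 1) * bf σ K d η) • h‖ ≤
          (β ^ 2 + 1) * (2 * β ^ 3 * C ^ 2) * (4 * β) := by
        rw [norm_smul, norm_mul]
        have h1 : ‖ϖ⁻¹ - 1‖ ≤ β ^ 2 * M + 1 := by
          refine (norm_sub_le _ _).trans ?_
          rw [norm_one]
          linarith
        calc ‖ϖ⁻¹ - 1‖ * ‖bf σ K d η‖ * ‖h‖
            ≤ (β ^ 2 * M + 1) * ((2 * β ^ 3 * C ^ 2) * M⁻¹) * (4 * β) := by gcongr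
          _ = (β ^ 2 * (M⁻¹ * M) + M⁻¹) * (2 * β ^ 3 * C ^ 2) * (4 * β) := by ring
          _ ≤ (β ^ 2 * 1 + 1) * (2 * β ^ 3 * C ^ 2) * (4 * β) := by
              rw [inv_mul_cancel₀ hM0.ne']
              gcongr
          _ = _ := by ring
      refine (norm_add_le _ _).trans ((add_le_add (norm_add_le _ _) le_rfl).trans ?_)
      linarith
  · intro x
    rw [← Matrix.mulVec_mulVec, Dm_mulVec, ← Matrix.mulVec_mulVec, Hd_mulVec]
    have e1 : (x - ((1 - ϖ) * x i) • η) i = ϖ * x i := by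
      simp only [Pi.sub_apply, Pi.smul_apply, smul_eq_mul, hη]
      ring
    have e2 : bf σ K (x - ((1 - ϖ) * x i) • η) η = bf σ K x η := by
      rw [bf_sub_left, bf_smul_left, hηη, mul_zero, sub_zero]
    rw [e1, e2]
    have e3 : x - ((1 - ϖ) * x i) • η + ((ϖ⁻¹ - 1) * (ϖ * x i)) • η +
        ((ϖ - 1) * bf σ K x η) • h = x + ((ϖ - 1) * bf σ K x η) • h := by
      funext t
      simp only [Pi.add_apply, Pi.sub_apply, Pi.smul_apply, smul_eq_mul]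
      have : ϖ⁻¹ * ϖ = 1 := inv_mul_cancel₀ hϖ0
      linear_combination (x i * η t) * this
    rw [e3, Matrix.mulVec_add, Matrix.mulVec_smul]
  · intro v hv hvc
    obtain ⟨α, d, e1, -, hd, -, -⟩ := split hB hC hM0 hg hη0
      (by rw [hη1, mul_one]; exact hc) v
    have hgv : ‖g *ᵥ v‖ ≤ C * M⁻¹ * ‖v‖ := by
      calc ‖g *ᵥ v‖ = M⁻¹ * (M * ‖g *ᵥ v‖) := by
            rw [← mul_assoc, inv_mul_cancel₀ hM0.ne', one_mul]
        _ ≤ M⁻¹ * (C * ‖v‖) := by gcongr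
        _ = _ := by ring
    have hd' : ‖d‖ ≤ β ^ 3 * C ^ 2 * (C * M⁻¹ * ‖v‖) := hd.trans (by gcongr)
    have e2 : v - v i • η = d - d i • η := by
      have e3 : v i = α + d i := by
        conv_lhs => rw [e1]
        simp only [Pi.add_apply, Pi.smul_apply, smul_eq_mul, hη, mul_one]
      rw [e3]
      conv_lhs => rw [e1]
      funext t
      simp only [Pi.add_apply, Pi.sub_apply, Pi.smul_apply, smul_eq_mul]
      ring
    rw [e2]
    refine (norm_sub_le _ _).trans ?_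
    rw [norm_smul, hη1, mul_one]
    have h1 := norm_le_pi_norm d i
    calc ‖d‖ + ‖d i‖ ≤ 2 * (β ^ 3 * C ^ 3) * M⁻¹ * ‖v‖ := by
          have e4 : β ^ 3 * C ^ 2 * (C * M⁻¹ * ‖v‖) = β ^ 3 * C ^ 3 * M⁻¹ * ‖v‖ := by ring
          rw [e4] at hd'
          linarith
      _ ≤ C' * M⁻¹ * ‖v‖ := by
          gcongr
          linarith

end algebra

end Vale.Agent.P092.H589.P2
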