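import Vale.Agent.P092.H589.P2a
import Vale.Agent.P092.H696.Dns
import Vale.Agent.P092.H835.PlGr

/-!
P092, STAGE 2, count half of KEY_0 (helper589), part b: quantitative separation, attracting
columns, small clopen sets, exact replacement of `f ∘ g` by `f ∘ (A * Dm)` on the lines orthogonal
to a point of the cell.
-/

set_option linter.unusedSectionVars false

namespace Vale.Agent.P092.H589.P2

open Matrix
open scoped LinearAlgebra.Projectivization Kronecker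
open Vale.Agent.P092.H789.S2
open Vale.Agent.P092.H820 (pj pj_surj pj_continuous pj_eq pj_open pj_oq wd)
open Vale.Agent.P092.H835.NF (Dm Dm_mulVec Dm_mul Dm_one)
open Vale.Agent.P092.H835.PlF (sq_wd)

section sep

variable {k : Type*} [NontriviallyNormedField k] {ι : Type*} [Fintype ι] [DecidableEq ι]
  {σ : k →+* k} {K : Matrix ι ι k} {β : ℝ}

theorem bf_cont (hσ : ∀ x, ‖σ x‖ = ‖x‖) :
    Continuous fun p : (ι → k) × (ι → k) => bf σ K p.1 p.2 := by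
  have h1 : Continuous σ := (AddMonoidHomClass.isometry_of_norm σ hσ).continuous
  simp only [bf, dotProduct, Matrix.mulVec]
  refine continuous_finsetSum _ fun i _ => ?_
  refine ((continuous_apply i).comp continuous_fst).mul ?_
  refine continuous_finsetSum _ fun j _ => ?_
  exact continuous_const.mul (h1.comp ((continuous_apply j).comp continuous_snd))

/-- scaling to norm one -/
theorem exists_unit [Nonempty ι] {v : ι → k} (hv : v ≠ 0) : ∃ c : k, c ≠ 0 ∧ ‖c • v‖ = 1 := by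
  obtain ⟨m, hm⟩ := exists_max v
  have h0 : 0 < ‖v‖ := norm_pos_iff.2 hv
  have h1 : v m ≠ 0 := norm_pos_iff.1 (by rw [hm]; exact h0)
  refine ⟨(v m)⁻¹, inv_ne_zero h1, ?_⟩
  rw [norm_smul, norm_inv, hm, inv_mul_cancel₀ h0.ne']

/-- quantitative separation -/
theorem exists_sep [ProperSpace k] [Nonempty ι] (hB : Bd σ K β) {A Y : Set (ℙ k (ι → k))}
    (hA : IsClosed A) (hY : IsClosed Y)
    (h : ∀ x (hx : x ≠ 0) y (hy : y ≠ 0), Projectivization.mk k x hx ∈ Y →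
      Projectivization.mk k y hy ∈ A → bf σ K x y ≠ 0) :
    ∃ c > 0, ∀ x (hx : x ≠ 0) y (hy : y ≠ 0), Projectivization.mk k x hx ∈ Y →
      Projectivization.mk k y hy ∈ A → c * ‖x‖ * ‖y‖ ≤ ‖bf σ K x y‖ := by
  classical
  have hne : ∀ v : Metric.sphere (0 : ι → k) 1, v.1 ≠ 0 := fun v h0 => by
    have h1 := v.2
    rw [mem_sphere_zero_iff_norm, h0, norm_zero] at h1
    exact zero_ne_one h1
  let e : Metric.sphere (0 : ι → k) 1 → ℙ k (ι → k) := fun v => pj k ι ⟨v.1, hne v⟩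
  have he : Continuous e := pj_continuous.comp (Continuous.subtype_mk continuous_subtype_val _)
  have : CompactSpace (Metric.sphere (0 : ι → k) 1) :=
    isCompact_iff_compactSpace.1 (isCompact_sphere _ _)
  set S : Set (Metric.sphere (0 : ι → k) 1 × Metric.sphere (0 : ι → k) 1) :=
    (e ⁻¹' Y) ×ˢ (e ⁻¹' A) with hS
  have hSc : IsCompact S := ((hY.preimage he).isCompact).prod ((hA.preimage he).isCompact)
  have hf : Continuous fun p : Metric.sphere (0 : ι → k) 1 × Metric.sphere (0 : ι → k) 1 =>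
      ‖bf σ K p.1.1 p.2.1‖ := by
    have h1 : Continuous fun p : Metric.sphere (0 : ι → k) 1 × Metric.sphere (0 : ι → k) 1 =>
        ((p.1.1, p.2.1) : (ι → k) × (ι → k)) :=
      (continuous_subtype_val.comp continuous_fst).prodMk
        (continuous_subtype_val.comp continuous_snd)
    exact ((bf_cont (σ := σ) (K := K) hB.isom).comp h1).norm
  have key : ∃ c > 0, ∀ p ∈ S, c ≤ ‖bf σ K p.1.1 p.2.1‖ := by
    rcases S.eq_empty_or_nonempty with h0 | h0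
    · exact ⟨1, one_pos, fun p hp => by rw [h0] at hp; exact hp.elim⟩
    · obtain ⟨p, hp, hmin⟩ := hSc.exists_isMinOn h0 hf.continuousOn
      refine ⟨‖bf σ K p.1.1 p.2.1‖, norm_pos_iff.2 (h _ (hne _) _ (hne _) hp.1 hp.2), ?_⟩
      intro p' hp'
      exact hmin hp'
  obtain ⟨c, hc, hmin⟩ := key
  refine ⟨c, hc, fun x hx y hy hxY hyA => ?_⟩
  obtain ⟨a, ha, ha1⟩ := exists_unit hx
  obtain ⟨b, hb, hb1⟩ := exists_unit hy
  have hx' : a • x ≠ 0 := smul_ne_zero ha hx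
  have hy' : b • y ≠ 0 := smul_ne_zero hb hy
  have e1 : Projectivization.mk k (a • x) hx' = Projectivization.mk k x hx :=
    (Projectivization.mk_eq_mk_iff' k _ _ _ _).2 ⟨a, rfl⟩
  have e2 : Projectivization.mk k (b • y) hy' = Projectivization.mk k y hy :=
    (Projectivization.mk_eq_mk_iff' k _ _ _ _).2 ⟨b, rfl⟩
  have h1 := hmin (⟨a • x, by rw [mem_sphere_zero_iff_norm]; exact ha1⟩,
    ⟨b • y, by rw [mem_sphere_zero_iff_norm]; exact hb1⟩)
    ⟨by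
      change Projectivization.mk k (a • x) hx' ∈ Y
      rw [e1]; exact hxY, by
      change Projectivization.mk k (b • y) hy' ∈ A
      rw [e2]; exact hyA⟩
  change c ≤ ‖bf σ K (a • x) (b • y)‖ at h1
  rw [bf_smul_left, bf_smul_right, norm_mul, norm_mul, hB.isom] at h1
  rw [norm_smul] at ha1 hb1
  calc c * ‖x‖ * ‖y‖ ≤ (‖a‖ * (‖b‖ * ‖bf σ K x y‖)) * ‖x‖ * ‖y‖ := by gcongr
    _ = (‖a‖ * ‖x‖) * (‖b‖ * ‖y‖) * ‖bf σ K x y‖ := by ring
    _ = _ := by rw [ha1, hb1, one_mul, one_mul]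

/-- the largest column is opposite to `Y` -/
theorem att_big (hB : Bd σ K β) {A Y : Set (ℙ k (ι → k))} {c : ℝ} (hc : 0 < c)
    (hsep : ∀ x (hx : x ≠ 0) y (hy : y ≠ 0), Projectivization.mk k x hx ∈ Y →
      Projectivization.mk k y hy ∈ A → c * ‖x‖ * ‖y‖ ≤ ‖bf σ K x y‖)
    {T : ℝ} (hT : 2 * (c + β) / c ≤ T) {g : Matrix ι ι k} {M : ℝ} (hM : 0 < M) {i₀ j : ι}
    (hp : ‖g i₀ j‖ = M) {v φ : ι → k} (hv : v ≠ 0) (hvA : Projectivization.mk k v hv ∈ A)
    (hφ : ∀ i j, ‖g i j - v i * φ j‖ ≤ M / T) (y : ι → k) (hy : y ≠ 0)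
    (hyY : Projectivization.mk k y hy ∈ Y) : c / 2 * ‖y‖ * M ≤ ‖bf σ K y (g *ᵥ ee j)‖ := by
  have hβ : (0 : ℝ) < β := by linarith [hB.one_le]
  have hT0 : 0 < T := lt_of_lt_of_le (by positivity) hT
  set er : ι → k := g *ᵥ ee j - φ j • v with her
  have her1 : ‖er‖ ≤ M / T := by
    refine (pi_norm_le_iff_of_nonneg (by positivity)).2 fun i => ?_
    rw [her, Pi.sub_apply, mulVec_ee, Pi.smul_apply, smul_eq_mul, mul_comm]
    exact hφ i j
  have e1 : g *ᵥ ee j = φ j • v + er := by rw [her]; abel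
  have e2 : bf σ K y (g *ᵥ ee j) = σ (φ j) * bf σ K y v + bf σ K y er := by
    rw [e1, bf_add_right, bf_smul_right]
  have h1 : ‖bf σ K y er‖ ≤ β * ‖y‖ * (M / T) := (hB.up _ _).trans (by gcongr)
  have h2 : M - M / T ≤ ‖v‖ * ‖φ j‖ := by
    have h3 : ‖g i₀ j‖ ≤ ‖v i₀ * φ j‖ + M / T := by
      have := norm_le_norm_add_norm_sub' (g i₀ j) (v i₀ * φ j)
      linarith [hφ i₀ j]
    rw [hp, norm_mul] at h3
    have h4 : ‖v i₀‖ * ‖φ j‖ ≤ ‖v‖ * ‖φ j‖ := by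
      gcongr; exact norm_le_pi_norm v i₀
    linarith
  have h3 : c * ‖y‖ * (M - M / T) ≤ ‖σ (φ j) * bf σ K y v‖ := by
    rw [norm_mul, hB.isom]
    calc c * ‖y‖ * (M - M / T) ≤ c * ‖y‖ * (‖v‖ * ‖φ j‖) := by gcongr
      _ = ‖φ j‖ * (c * ‖y‖ * ‖v‖) := by ring
      _ ≤ ‖φ j‖ * ‖bf σ K y v‖ := by
          gcongr; exact hsep y hy v hv hyY hvA
  have h4 : ‖σ (φ j) * bf σ K y v‖ - ‖bf σ K y er‖ ≤ ‖bf σ K y (g *ᵥ ee j)‖ := by
    rw [e2]
    have := norm_sub_le (σ (φ j) * bf σ K y v + bf σ K y er) (bf σ K y er)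
    rw [add_sub_cancel_right] at this
    linarith
  have h5 : (c + β) * (M / T) ≤ c / 2 * M := by
    rw [div_le_iff₀ hc] at hT
    rw [mul_div_assoc', div_le_iff₀ hT0]
    nlinarith
  have h6 : 0 ≤ ‖y‖ := norm_nonneg y
  have h7 : ‖y‖ * ((c + β) * (M / T)) ≤ ‖y‖ * (c / 2 * M) := by gcongr
  nlinarith

end sep

section rep

variable {k : Type} [NontriviallyNormedField k] {ι : Type} [Fintype ι] [DecidableEq ι]
  {σ : k →+* k} {K : Matrix ι ι k} {β : ℝ}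

/-- entries of `sq (1 + F) - 1` -/
theorem sq_near {F : Matrix ι ι k} {δ : ℝ} (h0 : 0 ≤ δ) (h1 : δ ≤ 1)
    (hF : ∀ a b, ‖F a b‖ ≤ δ) (p : ι × ι → k) :
    ‖H835.PlF.sq (1 + F) *ᵥ p - p‖ ≤ Fintype.card (ι × ι) * (3 * δ) * ‖p‖ := by
  have e : H835.PlF.sq (1 + F) *ᵥ p - p = (H835.PlF.sq (1 + F) - 1) *ᵥ p := by
    rw [Matrix.sub_mulVec, Matrix.one_mulVec]
  rw [e]
  refine norm_mulVec_le (by positivity) (fun a b => ?_) p
  obtain ⟨a, a'⟩ := a
  obtain ⟨b, b'⟩ := b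
  have e2 : (H835.PlF.sq (1 + F) - 1 : Matrix (ι × ι) (ι × ι) k) (a, a') (b, b') =
      F a b * (1 : Matrix ι ι k) a' b' + (1 : Matrix ι ι k) a b * F a' b' + F a b * F a' b' := by
    rw [← Matrix.one_kronecker_one]
    simp only [H835.PlF.sq, Matrix.sub_apply, Matrix.kroneckerMap_apply, Matrix.add_apply]
    ring
  have h2 : ∀ x y : ι, ‖(1 : Matrix ι ι k) x y‖ ≤ 1 := fun x y => by
    rw [Matrix.one_apply]
    split_ifs <;> simp
  rw [e2]
  refine (norm_add_le _ _).trans ((add_le_add (norm_add_le _ _) le_rfl).trans ?_)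
  rw [norm_mul, norm_mul, norm_mul]
  have a1 : ‖F a b‖ * ‖(1 : Matrix ι ι k) a' b'‖ ≤ δ * 1 :=
    mul_le_mul (hF a b) (h2 a' b') (norm_nonneg _) h0
  have a2 : ‖(1 : Matrix ι ι k) a b‖ * ‖F a' b'‖ ≤ 1 * δ :=
    mul_le_mul (h2 a b) (hF a' b') (norm_nonneg _) zero_le_one
  have a3 : ‖F a b‖ * ‖F a' b'‖ ≤ δ * 1 :=
    mul_le_mul (hF a b) ((hF a' b').trans h1) (norm_nonneg _) h0
  linarith

/-- **exact replacement**: on the vectors orthogonal to `b'` the operators `A * Dm` and `g` differ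
by a matrix close to the identity -/
theorem repl (hB : Bd σ K β) {C M δ : ℝ} (hC : 1 ≤ C) (hM : 1 ≤ M) (hδ : 0 ≤ δ)
    {g A : Matrix ι ι k} {i : ι} {η w h : ι → k} {ϖ : k} (hg : Iso σ K g)
    (up : ∀ a b, ‖g a b‖ ≤ M) (hϖ : ‖ϖ‖ ≤ C * M⁻¹) (hgη : g *ᵥ η = ϖ • w) (hh : ‖h‖ ≤ C)
    (hA : ∀ x, (A * Dm i η ϖ) *ᵥ x = g *ᵥ x + ((ϖ - 1) * bf σ K x η) • (g *ᵥ h))
    {b' : ι → k} {c : k} (hc : ‖w - c • (g *ᵥ b')‖ ≤ δ) :
    ∃ F : Matrix ι ι k, (∀ a b, ‖F a b‖ ≤ (1 + C) * C * β * (Fintype.card ι * C) * δ) ∧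
      ∀ x, bf σ K x b' = 0 → (1 + F) *ᵥ (g *ᵥ x) = (A * Dm i η ϖ) *ᵥ x := by
  have hβ : (0 : ℝ) < β := by linarith [hB.one_le]
  have hM0 : 0 < M := one_pos.trans_le hM
  have hMi : M⁻¹ ≤ 1 := inv_le_one_of_one_le₀ hM
  have hC0 : (0 : ℝ) < C := by linarith
  refine ⟨Matrix.of fun a b => (ϖ - 1) * σ ϖ * bf σ K (ee b) (w - c • (g *ᵥ b')) * (g *ᵥ h) a,
    fun a b => ?_, fun x hx => ?_⟩
  · rw [Matrix.of_apply, norm_mul, norm_mul, norm_mul, hB.isom]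
    have h1 : ‖ϖ - 1‖ ≤ 1 + C := by
      refine (norm_sub_le _ _).trans ?_
      rw [norm_one]
      have : ‖ϖ‖ ≤ C * 1 := hϖ.trans (by gcongr)
      linarith
    have h2 : ‖bf σ K (ee b) (w - c • (g *ᵥ b'))‖ ≤ β * 1 * δ := by
      refine (hB.up _ _).trans ?_
      have := norm_ee (k := k) b
      gcongr
    have h3 : ‖(g *ᵥ h) a‖ ≤ Fintype.card ι * M * C := by
      refine (norm_le_pi_norm _ a).trans ((norm_mulVec_le hM0.le up h).trans ?_)
      gcongr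
    calc ‖ϖ - 1‖ * ‖ϖ‖ * ‖bf σ K (ee b) (w - c • (g *ᵥ b'))‖ * ‖(g *ᵥ h) a‖
        ≤ (1 + C) * (C * M⁻¹) * (β * 1 * δ) * (Fintype.card ι * M * C) := by gcongr
      _ = (1 + C) * C * β * (Fintype.card ι * C) * δ * (M⁻¹ * M) := by ring
      _ = _ := by rw [inv_mul_cancel₀ hM0.ne', mul_one]
  · have e1 : bf σ K x η = σ ϖ * bf σ K (g *ᵥ x) (w - c • (g *ᵥ b')) := by
      rw [bf_sub_right, bf_smul_right, hg.bf, hx, mul_zero, sub_zero, ← bf_smul_right, ← hgη,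
        hg.bf]
    have e2 : ∀ (y z u : ι → k) (s : k),
        (Matrix.of fun a b => s * bf σ K (ee b) u * z a) *ᵥ y = (s * bf σ K y u) • z := by
      intro y z u s
      funext a
      rw [bf_sum y u]
      simp only [Matrix.mulVec, dotProduct, Matrix.of_apply, Pi.smul_apply, smul_eq_mul,
        Finset.mul_sum, Finset.sum_mul]
      exact Finset.sum_congr rfl fun b _ => by ring
    rw [hA, e1, Matrix.add_mulVec, Matrix.one_mulVec, e2]
    congr 2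
    ring

end rep

end Vale.Agent.P092.H589.P2
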