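import Vale.Agent.P092.H589.P2b
import Vale.Agent.P092.H914.NJB
import Vale.Agent.P092.H44.Sec
import Vale.Agent.P092.H890.Opf

/-!
P092, STAGE 2, count half of KEY_0 (helper589), part c: the estimate for one shell and one pivot.
-/

set_option linter.all false

namespace Vale.Agent.P092.H589.P2

open Matrix
open scoped LinearAlgebra.Projectivization Kronecker
open Vale.Agent.P092.SN
open Vale.Agent.P092.RC (GG YY)
open Vale.Agent.P092.H100.Gr (Gr)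
open Vale.Agent.P092.H644.Gr3 (p1)
open Vale.Agent.P092.H789.S2
open Vale.Agent.P092.H820 (pj pj_surj pj_continuous pj_eq pj_open pj_oq wd)
open Vale.Agent.P092.H835.NF (Dm Dm_mulVec Dm_mul Dm_one)
open Vale.Agent.P092.H835.PlF (sq_wd)
open Vale.Agent.P092.H835.PlGr (plk plk_cont plk_smul lam2 lam2_smul rep_line rep_alt mem_iff plH)
open Vale.Agent.P092.H890 (ev ev_ne ev_scale)
open Vale.Agent.P092.H589.Mu (Cap)
open Vale.Agent.P092.H589.K2 (Tame Nrm)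
open Vale.Agent.P092.H464 (CI Pv)

section lc

variable {k : Type} [NontriviallyNormedField k] [ProperSpace k] {β : Type} [Fintype β]
  [DecidableEq β]

/-- the function `F ∘ M` for an invertible matrix `M` -/
theorem exists_G {F : C(ℙ k (β → k), ℂ)} (hF : IsLocallyConstant F) {M M' : Matrix β β k}
    (h : M' * M = 1) : ∃ G : C(ℙ k (β → k), ℂ), IsLocallyConstant G ∧
      ∀ v (hv : v ≠ 0), G (pj k β ⟨v, hv⟩) = ev F (M *ᵥ v) := by
  have hinj : Function.Injective (Matrix.toLin' M) := by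
    intro x y hxy
    have h1 : M' *ᵥ (M *ᵥ x) = M' *ᵥ (M *ᵥ y) := by
      rw [← Matrix.toLin'_apply M x, ← Matrix.toLin'_apply M y, hxy]
    rwa [Matrix.mulVec_mulVec, Matrix.mulVec_mulVec, h, Matrix.one_mulVec,
      Matrix.one_mulVec] at h1
  let m : ℙ k (β → k) → ℙ k (β → k) := Projectivization.map (Matrix.toLin' M) hinj
  have hm : ∀ v (hv : v ≠ 0), m (pj k β ⟨v, hv⟩) =
      pj k β ⟨M *ᵥ v, fun h0 => hv (hinj (by
        rw [Matrix.toLin'_apply, h0, map_zero]))⟩ := fun v hv => rfl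
  have hmc : Continuous m := by
    rw [← (pj_oq (k := k) (ι := β)).continuous_comp_iff]
    have e : m ∘ pj k β = fun v => pj k β ⟨M *ᵥ v.1, fun h0 => v.2 (hinj (by
        rw [Matrix.toLin'_apply, h0, map_zero]))⟩ := funext fun v => hm v.1 v.2
    rw [e]
    refine pj_continuous.comp (Continuous.subtype_mk ?_ _)
    exact (Matrix.mulVecLin M).continuous_of_finiteDimensional.comp continuous_subtype_val
  refine ⟨F.comp ⟨m, hmc⟩, hF.comp_continuous hmc, fun v hv => ?_⟩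
  change F (m (pj k β ⟨v, hv⟩)) = _
  rw [hm, ← ev_ne F]

theorem tsupport_lc {X : Type*} [TopologicalSpace X] {f : X → ℂ} (hf : IsLocallyConstant f) {x : X}
    (hx : x ∈ tsupport f) : f x ≠ 0 := by
  have h1 : IsClosed (Function.support f) := by
    have : Function.support f = f ⁻¹' {0}ᶜ := by ext; simp
    rw [this]
    exact (hf.isOpen_fiber 0).isClosed_compl
  have h2 : x ∈ closure (Function.support f) := hx
  rw [h1.closure_eq] at h2
  exact h2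

end lc

section shell

variable {k : Type} [NontriviallyNormedField k] [ProperSpace k] {N : ℕ}

/-- exact incidence and commutation of the calculi of a point and of a line through it -/
structure PLy {K : Type} [NormedAddCommGroup K] [InnerProductSpace ℂ K] [CompleteSpace K]
    (b : CY k N →⋆ₐ[ℂ] (K →L[ℂ] K)) (l : CG k N 2 →⋆ₐ[ℂ] (K →L[ℂ] K)) : Prop where
  com : ∀ f g, Commute (b f) (l g)
  inc : ∀ (f : CY k N) (g : CG k N 2), (∀ x ∈ tsupport f, ∀ L ∈ tsupport g, ¬ (p1 x).1 ≤ L.1) → b f * l g = 0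

theorem le_nm (g : GG k N) (i j : Fin (N + 1)) : ‖g.1 i j‖ ≤ nm g :=
  (norm_le_pi_norm (fun j => g.1 i j) j).trans
    (norm_le_pi_norm (fun i j => g.1 i j : Fin (N + 1) → Fin (N + 1) → k) i)

theorem nm_le {g : GG k N} {c : ℝ} (hc : 0 ≤ c) (H : ∀ i j, ‖g.1 i j‖ ≤ c) : nm g ≤ c :=
  (pi_norm_le_iff_of_nonneg hc).2 fun i => (pi_norm_le_iff_of_nonneg hc).2 fun j => H i j

theorem tsupport_actY (g : GG k N) (f : CY k N) {x : YY k N} (hx : x ∈ tsupport (act g⁻¹ f)) :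
    g • x ∈ tsupport f := by
  have h := tsupport_comp_subset_preimage (f : YY k N → ℂ)
    (continuous_const_smul (g⁻¹)⁻¹) (a := x) hx
  rw [Set.mem_preimage, _root_.inv_inv] at h
  exact h

theorem smul_mk (g : GG k N) (v : Fin (N + 1) → k) (hv : v ≠ 0) :
    ∃ h : g.1 *ᵥ v ≠ 0, g • Projectivization.mk k v hv = Projectivization.mk k (g.1 *ᵥ v) h :=
  ⟨H835.NF.mulVec_ne_sl g hv, rfl⟩

/-- **The estimate for one shell and one pivot.** -/
theorem shell0 [IsUltrametricDist k] [MeasurableSpace k] [BorelSpace k] (hk : H914.K2Stmt k)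
    {σ : k →+* k} {J : Matrix (Fin (N + 1)) (Fin (N + 1)) k} {β : ℝ} (hB : Bd σ J β)
    (hsy : ∀ x y, ‖bf σ J x y‖ = ‖bf σ J y x‖)
    {Γ K : Type} [NormedAddCommGroup K] [InnerProductSpace ℂ K] [CompleteSpace K]
    (q : Γ → GG k N) {Z : Set Γ} (hud : UD q Z)
    (b z : CY k N →⋆ₐ[ℂ] (K →L[ℂ] K)) (l ν : CG k N 2 →⋆ₐ[ℂ] (K →L[ℂ] K))
    (hbν : PLy b ν) (hzν : PLy z ν) (hzl : PLy z l)
    (hbl : ∀ (a : CY k N) (f : CG k N 2), (∀ x ∈ tsupport a, ∀ L ∈ tsupport f, ∃ y ∈ L.1, bf σ J y x.rep ≠ 0) →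
      b a * l f = 0)
    {F : C(ℙ k (Fin (N + 1) × Fin (N + 1) → k), ℂ)} (hF : IsLocallyConstant F) {C : ℝ}
    (hC : 3 ≤ C) :
    ∃ δ > 0, ∀ a : CY k N, IsLocallyConstant a →
      (∀ v w (hv : v ≠ 0) (hw : w ≠ 0), Projectivization.mk k v hv ∈ tsupport a →
        Projectivization.mk k w hw ∈ tsupport a → ‖v‖ = 1 → ∃ c : k, ‖v - c • w‖ ≤ δ) →
      ∃ (C' : ℝ) (s₀ : ℕ), 0 ≤ C' ∧ ∀ (s : ℕ) (i : Fin (N + 1)) (S : Finset Γ), s₀ ≤ s →
        (∀ γ ∈ S, γ ∈ Z ∧ NW σ J C (nm (q γ)) (q γ).1 ∧ Real.exp s ≤ nm (q γ) ∧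
          nm (q γ) ≤ Real.exp (s + 1) ∧
          (∀ v (hv : v ≠ 0), q γ • Projectivization.mk k v hv ∈ tsupport a →
            nm (q γ) * ‖(q γ).1 *ᵥ v‖ ≤ C * ‖v‖) ∧
          ∃ (η : Fin (N + 1) → k) (hη : η ≠ 0), η i = 1 ∧ ‖η‖ ≤ 1 ∧ bf σ J η η = 0 ∧
            q γ • Projectivization.mk k η hη ∈ tsupport a) →
        ∀ ξ : K, ∑ γ ∈ S, ‖b (act (q γ)⁻¹ a) (l (actG (q γ)⁻¹ (plH F)) ξ)‖ ^ 2 ≤
          C' * (1 + s) ^ 4 * ‖ξ‖ ^ 2 := by
  classical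
  have hβ := hB.one_le
  have hβ0 : (0 : ℝ) < β := by linarith
  have hC0 : (0 : ℝ) < C := by linarith
  have hC1 : (1 : ℝ) ≤ C := by linarith
  obtain ⟨C₁, hC₁, hnf⟩ := nf0 hB hsy hC1
  obtain ⟨ε, hε, hlc⟩ := H696.ev_lc hF
  set n : ℝ := ((Fintype.card (Fin (N + 1)) : ℕ) : ℝ) with hn
  set n₂ : ℝ := ((Fintype.card (Fin (N + 1) × Fin (N + 1)) : ℕ) : ℝ) with hn₂
  have hn0 : 0 ≤ n := Nat.cast_nonneg _
  have hn₂0 : 0 ≤ n₂ := Nat.cast_nonneg _
  have hC₁0 : (0 : ℝ) < C₁ := by linarith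
  set D : ℝ := (1 + C₁) * C₁ * β * (n * C₁) with hD
  have hD0 : 0 ≤ D := by positivity
  set δ : ℝ := min 1 (ε / (3 * n₂ + 1)) / (D + 1) with hδ
  have hm0 : 0 < min 1 (ε / (3 * n₂ + 1)) := lt_min one_pos (by positivity)
  have hδ0 : 0 < δ := by positivity
  have hDδ : D * δ ≤ min 1 (ε / (3 * n₂ + 1)) := by
    rw [hδ, ← mul_div_assoc, div_le_iff₀ (by positivity), mul_comm D]
    refine mul_le_mul_of_nonneg_left ?_ hm0.le
    linarith
  have hD1 : D * δ ≤ 1 := hDδ.trans (min_le_left _ _)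
  have hD2 : n₂ * (3 * (D * δ)) ≤ ε := by
    have h1 := hDδ.trans (min_le_right _ _)
    rw [le_div_iff₀ (by positivity)] at h1
    have h2 : 0 ≤ D * δ := by positivity
    nlinarith
  -- the calculus
  have hhom : ∀ (c : k) v, c ≠ 0 → ev F (c • v) = ev F v := fun c v hc => ev_scale F hc v
  have hφ : Tame K (ev F) := by
    refine H589.K2.tame_lc hhom (norm_nonneg F) (fun v => ?_) hε hlc
    by_cases hv : v = 0
    · subst hv
      rw [H890.ev_zero, norm_zero]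
      exact norm_nonneg _
    · rw [ev_ne F hv]
      exact ContinuousMap.norm_coe_le_norm F _
  set C₂ : ℝ := Real.exp 1 * (2 * C₁) with hC₂
  have he1 : (1 : ℝ) ≤ Real.exp 1 := Real.one_le_exp zero_le_one
  have hC₂1 : 2 * C₁ ≤ C₂ := le_mul_of_one_le_left (by positivity) he1
  obtain ⟨Ck, hCk, hk2⟩ := hk (ι := Fin (N + 1)) K hφ C₂ (by linarith)
  refine ⟨δ, hδ0, fun a ha hsm => ?_⟩
  obtain ⟨M₀, hM₀⟩ := hud (6 * β ^ 8 * C ^ 4)
  set Nc : ℝ := Real.sqrt M₀ * ‖a‖ with hNc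
  have hNc0 : 0 ≤ Nc := by positivity
  refine ⟨(Ck * Nc) ^ 2, ⌈Real.log (2 * C₁)⌉₊, by positivity, ?_⟩
  intro s i S hs hS ξ
  -- sizes
  have hsz : 2 * C₁ ≤ Real.exp s := by
    have h1 : Real.log (2 * C₁) ≤ s := (Nat.le_ceil _).trans (by exact_mod_cast hs)
    exact (Real.log_le_iff_le_exp (by positivity)).1 h1
  set r : ℝ := Real.exp (-s) with hr
  have hr0 : 0 < r := Real.exp_pos _
  have hs0 : (0 : ℝ) ≤ s := Nat.cast_nonneg _
  have hr1 : r ≤ 1 := Real.exp_le_one_iff.2 (by linarith)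
  have hrs : C₁ * r ≤ 1 / 2 := by
    rw [hr, Real.exp_neg, ← div_eq_mul_inv, div_le_iff₀ (Real.exp_pos _)]
    linarith
  have hMi : ∀ γ ∈ S, 1 ≤ nm (q γ) ∧ (nm (q γ))⁻¹ ≤ r ∧ r ≤ Real.exp 1 * (nm (q γ))⁻¹ := by
    intro γ hγ
    obtain ⟨-, -, h1, h2, -⟩ := hS γ hγ
    have h0 : 0 < nm (q γ) := (Real.exp_pos _).trans_le h1
    refine ⟨(Real.one_le_exp hs0).trans h1, ?_, ?_⟩
    · rw [hr, Real.exp_neg]
      exact inv_anti₀ (Real.exp_pos _) h1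
    · rw [hr, Real.exp_neg, ← div_eq_mul_inv, le_div_iff₀ h0, inv_mul_le_iff₀ (Real.exp_pos _),
        ← Real.exp_add]
      exact h2
  -- the data of the elements
  have hdat : ∀ γ, ∃ (η : Fin (N + 1) → k) (hη : η ≠ 0) (ϖ : k) (w h : Fin (N + 1) → k)
      (A A' : Matrix (Fin (N + 1)) (Fin (N + 1)) k), γ ∈ S →
      η i = 1 ∧ ‖η‖ ≤ 1 ∧ q γ • Projectivization.mk k η hη ∈ tsupport a ∧ ϖ ≠ 0 ∧
      (nm (q γ))⁻¹ ≤ C₁ * ‖ϖ‖ ∧ ‖ϖ‖ ≤ C₁ * (nm (q γ))⁻¹ ∧ (q γ).1 *ᵥ η = ϖ • w ∧ ‖w‖ = 1 ∧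
      ‖h‖ ≤ C₁ ∧ A' * A = 1 ∧ (∀ a b, ‖A a b‖ ≤ C₁ ∧ ‖A' a b‖ ≤ C₁) ∧
      (∀ x, (A * Dm i η ϖ) *ᵥ x =
        (q γ).1 *ᵥ x + ((ϖ - 1) * bf σ J x η) • ((q γ).1 *ᵥ h)) ∧
      ∀ v, v ≠ 0 → nm (q γ) * ‖(q γ).1 *ᵥ v‖ ≤ C * ‖v‖ →
        ‖v - v i • η‖ ≤ C₁ * (nm (q γ))⁻¹ * ‖v‖ := by
    intro γ
    by_cases hγ : γ ∈ S
    · obtain ⟨-, h1, h2, h3, h4, η, hη0, h5, h6, h6', h7⟩ := hS γ hγ
      have hinv : (q γ).1 * ((q γ)⁻¹).1 = 1 := by
        rw [← Matrix.SpecialLinearGroup.coe_mul, mul_inv_cancel]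
        rfl
      obtain ⟨ϖ, w, h, A, A', a1, a2, a3, a4, a5, a6, a7, a8, a9, a10, a11⟩ :=
        hnf (nm (q γ)) (q γ).1 ((q γ)⁻¹).1 i η (hMi γ hγ).1 h1 hinv h5 h6 h6'
          ((h4 η hη0 h7).trans (by nlinarith))
      exact ⟨η, hη0, ϖ, w, h, A, A', fun _ => ⟨h5, h6, h7, a1, a2, a3, a4, a5, a6, a7, a9,
        a10, a11⟩⟩
    · exact ⟨fun _ => 1, fun h => by simpa using congrFun h 0, 0, 0, 0, 0, 0,
        fun h => (hγ h).elim⟩
  choose η hη0 ϖ w h A A' hdat using hdat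
  have hG : ∀ γ, ∃ G : C(ℙ k (Fin (N + 1) × Fin (N + 1) → k), ℂ), γ ∈ S → IsLocallyConstant G ∧
      ∀ v (hv : v ≠ 0), G (pj k (Fin (N + 1) × Fin (N + 1)) ⟨v, hv⟩) =
        ev F (H835.PlF.sq (A γ * Dm i (η γ) (ϖ γ)) *ᵥ v) := by
    intro γ
    by_cases hγ : γ ∈ S
    · obtain ⟨e1, -, -, e4, -, -, -, -, -, e10, -⟩ := hdat γ hγ
      have h1 : (Dm i (η γ) (ϖ γ)⁻¹ * A' γ) * (A γ * Dm i (η γ) (ϖ γ)) = 1 := by
        calc _ = Dm i (η γ) (ϖ γ)⁻¹ * (A' γ * A γ) * Dm i (η γ) (ϖ γ) := by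
              simp only [Matrix.mul_assoc]
          _ = 1 := by rw [e10, Matrix.mul_one, Dm_mul i e1, inv_mul_cancel₀ e4, Dm_one]
      have h2 : H835.PlF.sq (Dm i (η γ) (ϖ γ)⁻¹ * A' γ) * H835.PlF.sq (A γ * Dm i (η γ) (ϖ γ)) = 1 := by
        change ((Dm i (η γ) (ϖ γ)⁻¹ * A' γ) ⊗ₖ (Dm i (η γ) (ϖ γ)⁻¹ * A' γ)) *
          ((A γ * Dm i (η γ) (ϖ γ)) ⊗ₖ (A γ * Dm i (η γ) (ϖ γ))) = 1
        rw [← Matrix.mul_kronecker_mul, h1, Matrix.one_kronecker_one]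
      obtain ⟨G, g1, g2⟩ := exists_G hF h2
      exact ⟨G, fun _ => ⟨g1, g2⟩⟩
    · exact ⟨0, fun h => (hγ h).elim⟩
  choose G hG using hG
  -- exact replacement
  have hrep : ∀ γ ∈ S, b (act (q γ)⁻¹ a) * l (actG (q γ)⁻¹ (plH F)) =
      b (act (q γ)⁻¹ a) * l (plH (G γ)) := by
    intro γ hγ
    obtain ⟨e1, e2, e3, e4, e5, e6, e7, e8, e9, e10, e11, e12, e13⟩ := hdat γ hγ
    obtain ⟨g1, g2⟩ := hG γ hγ
    have h0 : b (act (q γ)⁻¹ a) * l (actG (q γ)⁻¹ (plH F) - plH (G γ)) = 0 := by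
      refine hbl _ _ fun x hx L hL => ?_
      by_contra hcon
      push Not at hcon
      have hlcd : IsLocallyConstant (⇑(actG (q γ)⁻¹ (plH F) - plH (G γ))) := by
        have l1 : IsLocallyConstant (⇑(actG (q γ)⁻¹ (plH F))) :=
          (hF.comp_continuous plk_cont).comp_continuous (continuous_const_smul _)
        have l2 : IsLocallyConstant (⇑(plH (G γ))) := g1.comp_continuous plk_cont
        exact l1.sub l2
      refine tsupport_lc hlcd hL ?_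
      obtain ⟨ω, hω⟩ := pj_surj (plk L)
      change F (plk (((q γ)⁻¹)⁻¹ • L)) - G γ (plk L) = 0
      rw [_root_.inv_inv, plk_smul, ← hω, g2]
      have hne : lam2 (q γ) • ω.1 ≠ 0 := (smul_ne_zero_iff_ne _).2 ω.2
      have h1 : (lam2 (q γ) • pj k (Fin (N + 1) × Fin (N + 1)) ω) =
        pj k (Fin (N + 1) × Fin (N + 1)) ⟨lam2 (q γ) • ω.1, hne⟩ := rfl
      rw [h1, ← ev_ne F hne, sub_eq_zero, lam2_smul]
      have hxm : q γ • x ∈ tsupport a := tsupport_actY (q γ) a hx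
      obtain ⟨hb0, hb1⟩ := smul_mk (q γ) x.rep x.rep_nonzero
      rw [x.mk_rep] at hb1
      rw [hb1] at hxm
      obtain ⟨hη1, hη2⟩ := smul_mk (q γ) (η γ) (hη0 γ)
      rw [hη2] at e3
      have hw0 : w γ ≠ 0 := by
        intro h
        rw [h, norm_zero] at e8
        exact zero_ne_one e8
      have e3' : Projectivization.mk k (w γ) hw0 ∈ tsupport a := by
        have : Projectivization.mk k ((q γ).1 *ᵥ η γ) hη1 = Projectivization.mk k (w γ) hw0 :=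
          (Projectivization.mk_eq_mk_iff' k _ _ _ _).2 ⟨ϖ γ, e7.symm⟩
        rwa [← this]
      obtain ⟨c, hc⟩ := hsm (w γ) ((q γ).1 *ᵥ x.rep) hw0 hb0 e3' hxm e8
      obtain ⟨Fm, f1, f2⟩ := repl hB hC₁ (hMi γ hγ).1 hδ0.le (hS γ hγ).2.1.iso (hS γ hγ).2.1.up
        e6 e7 e9 e12 hc
      obtain ⟨x₁, hx₁, hx₁0⟩ : ∃ x₁ ∈ L.1, x₁ ≠ 0 := by
        refine Submodule.exists_mem_ne_zero_of_ne_bot fun hbot => ?_
        have := L.2
        rw [hbot, finrank_bot] at this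
        omega
      obtain ⟨y₁, hy₁, hωe⟩ := rep_line (hω := ω.2) hω.symm hx₁0 hx₁
      have h2 : H835.PlF.sq (A γ * Dm i (η γ) (ϖ γ)) *ᵥ ω.1 =
          H835.PlF.sq (1 + Fm) *ᵥ (H835.PlF.sq (q γ).1 *ᵥ ω.1) := by
        rw [hωe, sq_wd, sq_wd, sq_wd, f2 x₁ (hcon x₁ hx₁), f2 y₁ (hcon y₁ hy₁)]
      rw [h2]
      refine hlc _ _ ?_
      rw [norm_sub_rev]
      refine (sq_near (by positivity) hD1 f1 _).trans ?_
      exact mul_le_mul_of_nonneg_right hD2 (norm_nonneg _)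
    rw [map_sub, mul_sub, sub_eq_zero] at h0
    exact h0
  -- measurable structures
  letI m1 : MeasurableSpace (YY k N) := borel _
  haveI b1 : BorelSpace (YY k N) := ⟨rfl⟩
  letI m2 : MeasurableSpace (Gr k (Fin (N + 1)) 2) := borel _
  haveI b2 : BorelSpace (Gr k (Fin (N + 1)) 2) := ⟨rfl⟩
  letI m4 : MeasurableSpace (ℙ k (Fin (N + 1) × Fin (N + 1) → k)) := borel _
  haveI b4 : BorelSpace (ℙ k (Fin (N + 1) × Fin (N + 1) → k)) := ⟨rfl⟩
  obtain ⟨sc, hσm, hσn, hσ⟩ := H44.exists_sec k (Fin (N + 1))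
  obtain ⟨τ, hτm, hτn, hτ⟩ := H44.exists_sec k (Fin (N + 1) × Fin (N + 1))
  set p2 : Gr k (Fin (N + 1)) 2 → Fin (N + 1) × Fin (N + 1) → k := fun y => τ (plk y) with hp2
  have hp2m : Measurable p2 := hτm.comp plk_cont.measurable
  have hp2y : ∀ y : Gr k (Fin (N + 1)) 2, ∃ h : p2 y ≠ 0,
      plk y = Projectivization.mk k (p2 y) h := by
    intro y
    obtain ⟨h, e⟩ := hτ (plk y)
    exact ⟨h, e.symm⟩
  have hI1 : IsClosed {x : YY k N × Gr k (Fin (N + 1)) 2 | (p1 x.1).1 ≤ x.2.1} :=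
    H644.Gr3.p1_le_closed
  have hCI : ∀ (x : CY k N →⋆ₐ[ℂ] (K →L[ℂ] K)) (y : CG k N 2 →⋆ₐ[ℂ] (K →L[ℂ] K)), PLy x y →
      CI (fun (a : YY k N) (b : Gr k (Fin (N + 1)) 2) => (p1 a).1 ≤ b.1)
        (H466.pv x) (H466.pv y) := fun x y h =>
    H604.pv_CI x y hI1 (fun f g => h.com f g) fun f g hfg => h.inc f g hfg
  have hcapS : Cap S (fun γ => b (act (q γ)⁻¹ a)) Nc := by
    intro v
    rw [hNc, mul_pow, Real.sq_sqrt (Nat.cast_nonneg _)]
    refine H218.sum_sq_le b S (fun γ => act (q γ)⁻¹ a) (by positivity) (fun y => ?_) v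
    have hcard : (S.filter fun γ => q γ • y ∈ tsupport a).card ≤ M₀ := by
      refine hM₀ _ (fun γ hγ => (hS γ (Finset.mem_filter.1 hγ).1).1) fun γ hγ γ' hγ' => ?_
      obtain ⟨hγ1, hγ2⟩ := Finset.mem_filter.1 hγ
      obtain ⟨hγ1', hγ2'⟩ := Finset.mem_filter.1 hγ'
      obtain ⟨-, h1, h2, h3, h4, -⟩ := hS γ hγ1
      obtain ⟨-, h1', h2', h3', h4', -⟩ := hS γ' hγ1'
      have hp := (Real.exp_pos s).trans_le h2
      have hp' := (Real.exp_pos s).trans_le h2'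
      have he3 : Real.exp (s + 1) ≤ C * Real.exp s := by
        rw [Real.exp_add, mul_comm]
        have := Real.exp_one_lt_d9
        have h9 : Real.exp 1 ≤ C := by linarith
        exact mul_le_mul_of_nonneg_right h9 (Real.exp_pos _).le
      rw [← y.mk_rep] at hγ2 hγ2'
      refine nm_le (by positivity) fun i j => ?_
      change ‖((q γ').1 * ((q γ)⁻¹).1) i j‖ ≤ _
      refine cap_pt hB hC1 hp hp' h1 h1' (h3.trans (he3.trans (by gcongr)))
        (h3'.trans (he3.trans (by gcongr))) y.rep_nonzero (h4 _ y.rep_nonzero hγ2)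
        (h4' _ y.rep_nonzero hγ2') ?_ (h' := ((q γ')⁻¹).1) ?_ i j
      · rw [← Matrix.SpecialLinearGroup.coe_mul, mul_inv_cancel]
        rfl
      · rw [← Matrix.SpecialLinearGroup.coe_mul, mul_inv_cancel]
        rfl
    have hsum : ∑ γ ∈ S, ‖act (q γ)⁻¹ a y‖ ^ 2 ≤
        ∑ γ ∈ S.filter (fun γ => q γ • y ∈ tsupport a), ‖a‖ ^ 2 := by
      rw [Finset.sum_filter]
      refine Finset.sum_le_sum fun γ hγ => ?_
      have e : act (q γ)⁻¹ a y = a (q γ • y) := by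
        change a ((q γ)⁻¹⁻¹ • y) = _
        rw [_root_.inv_inv]
      rw [e]
      split_ifs with hc
      · exact pow_le_pow_left₀ (norm_nonneg _) (a.norm_coe_le_norm _) 2
      · rw [image_eq_zero_of_notMem_tsupport hc, norm_zero, zero_pow two_ne_zero]
    refine hsum.trans ?_
    rw [Finset.sum_const, nsmul_eq_mul]
    have h5 : ((S.filter fun γ => q γ • y ∈ tsupport a).card : ℝ) ≤ M₀ := by
      exact_mod_cast hcard
    gcongr
  have key := hk2 (YY k N) (Gr k (Fin (N + 1)) 2) sc p2 hσm hp2m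
    (fun x => hσn _) (fun y => hτn _)
    (fun y => by
      obtain ⟨h, e⟩ := hp2y y
      exact rep_alt (hω := h) e)
    (fun x y => (p1 x).1 ≤ y.1)
    (fun x y hxy => by
      obtain ⟨h, e⟩ := hp2y y
      obtain ⟨h', e'⟩ := hσ x
      refine (mem_iff (hω := h) e).1 (hxy ?_)
      have h3 : (p1 x).1 = Submodule.span k {sc x} := by
        rw [← H644.Gr3.p1_mk (sc x) h', e']
      rw [h3]
      exact Submodule.mem_span_singleton_self (R := k) (sc x))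
    (H466.pv b) (H466.pv z) (H466.pv l) (H466.pv ν) (H604.pv_Pv b) (H604.pv_Pv z)
    (H604.pv_Pv l) (H604.pv_Pv ν) (hCI b ν hbν) (hCI z ν hzν) (hCI z l hzl)
    Γ S i η ϖ A A' r hr0 hr1 (fun γ hγ => (hdat γ hγ).1)
    (fun γ hγ => ((hdat γ hγ).2.1).trans (by linarith))
    (fun γ hγ => by
      obtain ⟨-, -, -, -, a2, a3, -⟩ := hdat γ hγ
      obtain ⟨-, m1, m2⟩ := hMi γ hγ
      have h4 := norm_nonneg (ϖ γ)
      constructor
      · calc r ≤ Real.exp 1 * (nm (q γ))⁻¹ := m2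
          _ ≤ Real.exp 1 * (C₁ * ‖ϖ γ‖) := by gcongr
          _ ≤ Real.exp 1 * (2 * C₁ * ‖ϖ γ‖) := by gcongr; linarith
          _ = C₂ * ‖ϖ γ‖ := by rw [hC₂]; ring
      · calc ‖ϖ γ‖ ≤ C₁ * (nm (q γ))⁻¹ := a3
          _ ≤ C₁ * r := by gcongr
          _ ≤ C₂ * r := by gcongr; linarith)
    (fun γ hγ => by
      obtain ⟨-, -, -, -, -, -, -, -, -, e10, -⟩ := hdat γ hγ
      exact e10)
    (fun γ hγ a b => by
      obtain ⟨-, -, -, -, -, -, -, -, -, -, e11, -⟩ := hdat γ hγ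
      exact ⟨(e11 a b).1.trans (by linarith), (e11 a b).2.trans (by linarith)⟩)
    (fun γ => tsupport (act (q γ)⁻¹ a)) (fun γ _ => (isClosed_tsupport _).measurableSet)
    (fun γ hγ x hx => by
      obtain ⟨e1, e2, -, -, -, -, -, -, -, -, -, -, e13⟩ := hdat γ hγ
      obtain ⟨m0, m1, m2⟩ := hMi γ hγ
      obtain ⟨h', e'⟩ := hσ x
      have hxm : q γ • x ∈ tsupport a := tsupport_actY (q γ) a hx
      rw [← e'] at hxm
      have h1 := e13 (sc x) h' ((hS γ hγ).2.2.2.2.1 (sc x) h' hxm)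
      have hn1 : ‖sc x‖ ≤ 1 := (hσn x).1
      obtain ⟨t, ht⟩ := (hσn x).2
      have hn2 : 1 ≤ ‖sc x‖ := by
        have := norm_le_pi_norm (sc x) t
        rwa [ht, norm_one] at this
      have hn3 : ‖sc x‖ = 1 := le_antisymm hn1 hn2
      rw [hn3, mul_one] at h1
      have h2 : ‖sc x - sc x i • η γ‖ ≤ C₁ * r := h1.trans (by gcongr)
      have hη1 : ‖η γ‖ ≤ 1 := e2
      have h3 : 1 / 2 ≤ ‖sc x i‖ := by
        have h4 : ‖sc x‖ ≤ ‖sc x - sc x i • η γ‖ + ‖sc x i • η γ‖ := by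
          have := norm_add_le (sc x - sc x i • η γ) (sc x i • η γ)
          rwa [sub_add_cancel] at this
        rw [hn3, norm_smul] at h4
        have h5 : ‖sc x i‖ * ‖η γ‖ ≤ ‖sc x i‖ * 1 := by gcongr
        linarith
      have h6 : sc x i ≠ 0 := by
        intro h0
        rw [h0, norm_zero] at h3
        norm_num at h3
      refine ⟨h6, ?_⟩
      have h7 : (sc x i)⁻¹ • sc x - η γ = (sc x i)⁻¹ • (sc x - sc x i • η γ) := by
        rw [smul_sub, smul_smul, inv_mul_cancel₀ h6, one_smul]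
      rw [h7, norm_smul, norm_inv]
      have h8 : ‖sc x i‖⁻¹ ≤ 2 := by
        rw [inv_le_comm₀ (by positivity) two_pos]
        linarith
      calc ‖sc x i‖⁻¹ * ‖sc x - sc x i • η γ‖ ≤ 2 * (C₁ * r) := by gcongr
        _ = (2 * C₁) * r := by ring
        _ ≤ C₂ * r := by gcongr)
    (fun γ hγ => by
      have h1 : {y : Gr k (Fin (N + 1)) 2 | ∃ x ∈ tsupport (act (q γ)⁻¹ a), (p1 x).1 ≤ y.1} =
          Prod.snd '' ({x : YY k N × Gr k (Fin (N + 1)) 2 | (p1 x.1).1 ≤ x.2.1} ∩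
            (Prod.fst ⁻¹' tsupport (act (q γ)⁻¹ a))) := by
        ext y
        constructor
        · rintro ⟨x, hx, hxy⟩
          exact ⟨(x, y), ⟨hxy, hx⟩, rfl⟩
        · rintro ⟨⟨x, y'⟩, ⟨hxy, hx⟩, rfl⟩
          exact ⟨x, hx, hxy⟩
      rw [h1]
      exact (isClosedMap_snd_of_compactSpace _ (hI1.inter
        ((isClosed_tsupport _).preimage continuous_fst))).measurableSet)
    (fun γ => b (act (q γ)⁻¹ a)) (fun γ => l (plH (G γ)))
    (fun γ y => ev F (H835.PlF.sq (A γ * Dm i (η γ) (ϖ γ)) *ᵥ p2 y)) Nc hNc0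
    (fun γ _ => H466.phi_pv_supp b (isClosed_tsupport _).measurableSet
      fun x hx => image_eq_zero_of_notMem_tsupport hx)
    (fun γ _ A _ => H466.pv_commute ν (fun g => hbν.com _ g) A)
    hcapS
    (fun γ hγ y => rfl)
    (fun γ hγ => by
      have e : (fun y => ev F (H835.PlF.sq (A γ * Dm i (η γ) (ϖ γ)) *ᵥ p2 y)) =
          (plH (G γ) : Gr k (Fin (N + 1)) 2 → ℂ) := by
        funext y
        obtain ⟨h, e⟩ := hp2y y
        change _ = G γ (plk y)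
        rw [e]
        exact ((hG γ hγ).2 _ h).symm
      rw [e]
      exact (ContinuousMap.continuous _).measurable)
    (fun γ hγ => by
      have e : (fun y => ev F (H835.PlF.sq (A γ * Dm i (η γ) (ϖ γ)) *ᵥ p2 y)) =
          (plH (G γ) : Gr k (Fin (N + 1)) 2 → ℂ) := by
        funext y
        obtain ⟨h, e⟩ := hp2y y
        change _ = G γ (plk y)
        rw [e]
        exact ((hG γ hγ).2 _ h).symm
      rw [e]
      exact H890.Opf.opf_of K _ l _)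
    (fun γ _ A _ => H466.pv_commute z (fun g => (hzl.com g _).symm) A)
  have h1 := key ξ
  have e1 : ∑ γ ∈ S, ‖b (act (q γ)⁻¹ a) (l (actG (q γ)⁻¹ (plH F)) ξ)‖ ^ 2 =
      ∑ γ ∈ S, ‖(b (act (q γ)⁻¹ a) * l (plH (G γ))) ξ‖ ^ 2 := by
    refine Finset.sum_congr rfl fun γ hγ => ?_
    rw [← hrep γ hγ]
    rfl
  rw [e1]
  refine h1.trans (le_of_eq ?_)
  have e2 : Real.log (1 / r) = s := by
    rw [hr, one_div, ← Real.exp_neg, neg_neg, Real.log_exp]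
  rw [e2]
  ring

end shell

end Vale.Agent.P092.H589.P2
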