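import Vale.Agent.P092.H589.P2c
import Vale.Agent.P092.H914.Shell
import Vale.Agent.P092.H914.Cl
import Vale.Agent.P092.H914.Fin
import Vale.Agent.P092.H145.WL9

/-!
P092, STAGE 2, count half of KEY_0 (helper589), part d: summation over the shells, small cells,
`cnt0` (literal of helper437, #8421).
-/

set_option linter.all false

namespace Vale.Agent.P092.H589.P2

open Matrix
open scoped LinearAlgebra.Projectivization
open Vale.Agent.P092.SN
open Vale.Agent.P092.RC (GG YY)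
open Vale.Agent.P092.H100.Gr (Gr)
open Vale.Agent.P092.H644.Gr3 (p1)
open Vale.Agent.P092.H789.S2
open Vale.Agent.P092.H820 (pj pj_surj pj_continuous pj_eq pj_open pj_oq)
open Vale.Agent.P092.H835.PlGr (plk plH plH_surj plk_emb)
open Vale.Agent.P092.H145 (NW1)

section shells

variable {Γ K P : Type} [NormedAddCommGroup K] [Fintype P]

/-- **Summation over shells and pivots**, any size. -/
theorem sum_shells (sz : Γ → ℝ) (Φ : Γ → K → ℝ) (hΦ : ∀ γ ξ, 0 ≤ Φ γ ξ) (Q : Γ → Prop)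
    (piv : Γ → P → Prop) (s₀ : ℕ) (hpiv : ∀ γ, Q γ → ∃ p, piv γ p)
    {M₀ : ℕ} (h0 : ∀ S : Finset Γ, (∀ γ ∈ S, Q γ ∧ sz γ ≤ Real.exp s₀) → S.card ≤ M₀)
    {B : ℝ} (hB0 : 0 ≤ B) (hB : ∀ γ ξ, Φ γ ξ ≤ B * ‖ξ‖ ^ 2)
    {C : ℝ} (hC : 0 ≤ C) (d : ℕ)
    (h1 : ∀ (s : ℕ) (p : P) (S : Finset Γ), s₀ ≤ s → (∀ γ ∈ S, Q γ ∧
      Real.exp s ≤ sz γ ∧ sz γ ≤ Real.exp (s + 1) ∧ piv γ p) →
      ∀ ξ, ∑ γ ∈ S, Φ γ ξ ≤ C * (1 + s) ^ d * ‖ξ‖ ^ 2) :
    ∃ C' : ℝ, 0 ≤ C' ∧ ∀ J : ℝ, 0 ≤ J → ∀ S : Finset Γ,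
      (∀ γ ∈ S, Q γ ∧ Real.log (sz γ) ≤ J) →
      ∀ ξ, ∑ γ ∈ S, Φ γ ξ ≤ C' * (1 + J) ^ (d + 1) * ‖ξ‖ ^ 2 := by
  classical
  refine ⟨M₀ * B + Fintype.card P * C, by positivity, fun J hJ S hS ξ => ?_⟩
  set S₀ := S.filter fun γ => sz γ ≤ Real.exp s₀ with hS0
  set cell : ℕ → P → Finset Γ := fun s p =>
    S.filter fun γ => Real.exp s ≤ sz γ ∧ sz γ ≤ Real.exp (s + 1) ∧ piv γ p with hcell
  set I := (Finset.range (⌊J⌋₊ + 1)).filter fun s => s₀ ≤ s with hI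
  have hcov : S ⊆ S₀ ∪ I.biUnion fun s => Finset.univ.biUnion fun p => cell s p := by
    intro γ hγ
    rw [Finset.mem_union]
    by_cases h2 : sz γ ≤ Real.exp s₀
    · exact Or.inl (Finset.mem_filter.2 ⟨hγ, h2⟩)
    · right
      rw [not_le] at h2
      have h3 : 0 < sz γ := (Real.exp_pos _).trans h2
      have h4 : (s₀ : ℝ) < Real.log (sz γ) := (Real.lt_log_iff_exp_lt h3).2 h2
      have h5 : 0 ≤ Real.log (sz γ) := (Nat.cast_nonneg _).trans h4.le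
      obtain ⟨p, hp⟩ := hpiv γ (hS γ hγ).1
      refine Finset.mem_biUnion.2 ⟨⌊Real.log (sz γ)⌋₊, ?_, Finset.mem_biUnion.2 ⟨p,
        Finset.mem_univ _, Finset.mem_filter.2 ⟨hγ, ?_, ?_, hp⟩⟩⟩
      · rw [hI, Finset.mem_filter, Finset.mem_range, Nat.lt_succ_iff]
        exact ⟨Nat.floor_le_floor (hS γ hγ).2, Nat.le_floor h4.le⟩
      · rw [← Real.le_log_iff_exp_le h3]
        exact Nat.floor_le h5
      · rw [← Real.log_le_iff_le_exp h3]
        exact (Nat.lt_floor_add_one _).le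
  have hξ : 0 ≤ ‖ξ‖ ^ 2 := by positivity
  have e0 : ∑ γ ∈ S₀, Φ γ ξ ≤ M₀ * B * ‖ξ‖ ^ 2 := by
    have h2 : ∑ γ ∈ S₀, Φ γ ξ ≤ ∑ γ ∈ S₀, B * ‖ξ‖ ^ 2 :=
      Finset.sum_le_sum fun γ _ => hB γ ξ
    refine h2.trans ?_
    rw [Finset.sum_const, nsmul_eq_mul]
    have h3 : (S₀.card : ℝ) ≤ M₀ := by
      exact_mod_cast h0 S₀ fun γ hγ =>
        ⟨(hS γ (Finset.mem_filter.1 hγ).1).1, (Finset.mem_filter.1 hγ).2⟩
    calc (S₀.card : ℝ) * (B * ‖ξ‖ ^ 2) ≤ M₀ * (B * ‖ξ‖ ^ 2) := by gcongr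
      _ = _ := by ring
  have e1 : ∀ s ∈ I, ∀ p : P, ∑ γ ∈ cell s p, Φ γ ξ ≤ C * (1 + J) ^ d * ‖ξ‖ ^ 2 := by
    intro s hs p
    rw [hI, Finset.mem_filter, Finset.mem_range, Nat.lt_succ_iff] at hs
    have h2 := h1 s p (cell s p) hs.2 (fun γ hγ => by
      obtain ⟨h2, h3⟩ := Finset.mem_filter.1 hγ
      exact ⟨(hS γ h2).1, h3⟩) ξ
    have h3 : (s : ℝ) ≤ J := (Nat.le_floor_iff hJ).1 hs.1
    refine h2.trans ?_
    gcongr
  have e2 : ∑ γ ∈ I.biUnion fun s => Finset.univ.biUnion fun p => cell s p, Φ γ ξ ≤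
      (1 + J) * (Fintype.card P * (C * (1 + J) ^ d * ‖ξ‖ ^ 2)) := by
    have h2 : ∑ γ ∈ I.biUnion fun s => Finset.univ.biUnion fun p => cell s p, Φ γ ξ ≤
        ∑ s ∈ I, ∑ p : P, ∑ γ ∈ cell s p, Φ γ ξ := by
      refine (H914.sum_biUnion_le' _ _ _ fun γ => hΦ γ ξ).trans ?_
      exact Finset.sum_le_sum fun s _ => H914.sum_biUnion_le' _ _ _ fun γ => hΦ γ ξ
    refine h2.trans ?_
    have h3 : ∀ s ∈ I, ∑ p : P, ∑ γ ∈ cell s p, Φ γ ξ ≤
        Fintype.card P * (C * (1 + J) ^ d * ‖ξ‖ ^ 2) := fun s hs => by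
      refine (Finset.sum_le_sum fun p _ => e1 s hs p).trans ?_
      rw [Finset.sum_const, nsmul_eq_mul, Finset.card_univ]
    refine (Finset.sum_le_sum h3).trans ?_
    rw [Finset.sum_const, nsmul_eq_mul]
    have h4 : (I.card : ℝ) ≤ 1 + J := by
      have h5 : I.card ≤ ⌊J⌋₊ + 1 := by
        rw [hI]
        exact (Finset.card_filter_le _ _).trans (by rw [Finset.card_range])
      have h6 : (I.card : ℝ) ≤ ⌊J⌋₊ + 1 := by exact_mod_cast h5
      linarith [Nat.floor_le hJ]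
    gcongr
  have e3 : ∑ γ ∈ S, Φ γ ξ ≤ ∑ γ ∈ S₀, Φ γ ξ +
      ∑ γ ∈ I.biUnion fun s => Finset.univ.biUnion fun p => cell s p, Φ γ ξ := by
    refine (Finset.sum_le_sum_of_subset_of_nonneg hcov fun γ _ _ => hΦ γ ξ).trans ?_
    have := Finset.sum_union_inter (s₁ := S₀)
      (s₂ := I.biUnion fun s => Finset.univ.biUnion fun p => cell s p) (f := fun γ => Φ γ ξ)
    have h2 : 0 ≤ ∑ γ ∈ S₀ ∩ I.biUnion fun s => Finset.univ.biUnion fun p => cell s p, Φ γ ξ :=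
      Finset.sum_nonneg fun γ _ => hΦ γ ξ
    linarith
  have e4 : (1 : ℝ) ≤ (1 + J) ^ (d + 1) := one_le_pow₀ (by linarith)
  have e5 : M₀ * B * ‖ξ‖ ^ 2 ≤ M₀ * B * ‖ξ‖ ^ 2 * (1 + J) ^ (d + 1) :=
    le_mul_of_one_le_right (by positivity) e4
  calc _ ≤ _ := e3
    _ ≤ M₀ * B * ‖ξ‖ ^ 2 + (1 + J) * (Fintype.card P * (C * (1 + J) ^ d * ‖ξ‖ ^ 2)) :=
        add_le_add e0 e2
    _ ≤ M₀ * B * ‖ξ‖ ^ 2 * (1 + J) ^ (d + 1) +
        (1 + J) * (Fintype.card P * (C * (1 + J) ^ d * ‖ξ‖ ^ 2)) := by linarith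
    _ = _ := by ring

end shells

section small

variable {k : Type} [NontriviallyNormedField k] [ProperSpace k] [IsUltrametricDist k] {ι : Type}
  [Fintype ι] [DecidableEq ι] [Nonempty ι]

/-- a locally constant extension -/
theorem exists_ext {X Y : Type*} [TopologicalSpace X] [CompactSpace X] {e : X → Y}
    [TopologicalSpace Y] [CompactSpace Y] {f : C(X, ℂ)} (hf : IsLocallyConstant f)
    (he : Continuous e)
    (hs : ∃ F : C(Y, ℂ), ∀ x, F (e x) = f x) (hd : Dense {F : C(Y, ℂ) | IsLocallyConstant F}) :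
    ∃ F : C(Y, ℂ), IsLocallyConstant F ∧ ∀ x, F (e x) = f x := by
  classical
  obtain ⟨F₀, hF₀⟩ := hs
  have hfin : (Set.range f).Finite := hf.range_finite
  -- separation of the values
  obtain ⟨δ, hδ, hsep⟩ : ∃ δ > 0, ∀ a ∈ Set.range f, ∀ b ∈ Set.range f, ‖a - b‖ < 2 * δ → a = b := by
    have h1 : (({p : ℂ × ℂ | p ∈ (Set.range f) ×ˢ (Set.range f) ∧ p.1 ≠ p.2})).Finite :=
      (hfin.prod hfin).subset fun p hp => hp.1
    rcases (h1.toFinset).eq_empty_or_nonempty with h0 | h0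
    · refine ⟨1, one_pos, fun a ha b hb _ => ?_⟩
      by_contra hab
      have : (a, b) ∈ h1.toFinset := by
        rw [Set.Finite.mem_toFinset]
        exact ⟨⟨ha, hb⟩, hab⟩
      rw [h0] at this
      simp at this
    · obtain ⟨p, hp, hmin⟩ := (h1.toFinset).exists_min_image (fun p => ‖p.1 - p.2‖) h0
      rw [Set.Finite.mem_toFinset] at hp
      have hp0 : 0 < ‖p.1 - p.2‖ := norm_pos_iff.2 (sub_ne_zero.2 hp.2)
      refine ⟨‖p.1 - p.2‖ / 2, by positivity, fun a ha b hb hab => ?_⟩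
      by_contra hne
      have := hmin (a, b) (by
        rw [Set.Finite.mem_toFinset]
        exact ⟨⟨ha, hb⟩, hne⟩)
      simp only at this
      linarith
  obtain ⟨F₁, hF₁, h1⟩ := hd.exists_dist_lt F₀ hδ
  have hF₁' : IsLocallyConstant F₁ := hF₁
  set g : ℂ → ℂ := fun z => if h : ∃ c ∈ Set.range f, ‖c - z‖ < δ then h.choose else 0 with hg
  have hG : IsLocallyConstant (g ∘ F₁) := hF₁'.comp g
  refine ⟨⟨g ∘ F₁, hG.continuous⟩, hG, fun x => ?_⟩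
  change g (F₁ (e x)) = f x
  have h2 : ‖f x - F₁ (e x)‖ < δ := by
    rw [← hF₀, ← dist_eq_norm]
    exact (ContinuousMap.dist_apply_le_dist _).trans_lt h1
  have h3 : ∃ c ∈ Set.range f, ‖c - F₁ (e x)‖ < δ := ⟨f x, ⟨x, rfl⟩, h2⟩
  have e1 : g (F₁ (e x)) = h3.choose := by rw [hg]; exact dif_pos h3
  rw [e1]
  refine hsep _ h3.choose_spec.1 _ ⟨x, rfl⟩ ?_
  calc ‖h3.choose - f x‖ = ‖(h3.choose - F₁ (e x)) - (f x - F₁ (e x))‖ := by
        congr 1; ring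
    _ ≤ ‖h3.choose - F₁ (e x)‖ + ‖f x - F₁ (e x)‖ := norm_sub_le _ _
    _ < 2 * δ := by linarith [h3.choose_spec.2]

/-- small open sets of the projective space -/
theorem exists_small {δ : ℝ} (hδ : 0 < δ) (x₀ : ℙ k (ι → k)) :
    ∃ U : Set (ℙ k (ι → k)), IsClopen U ∧ x₀ ∈ U ∧ ∀ v w (hv : v ≠ 0) (hw : w ≠ 0),
      Projectivization.mk k v hv ∈ U → Projectivization.mk k w hw ∈ U → ‖v‖ = 1 →
      ∃ c : k, ‖v - c • w‖ ≤ δ := by
  obtain ⟨⟨u, hu⟩, hu0⟩ := pj_surj x₀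
  obtain ⟨a, ha, ha1⟩ := exists_unit hu
  obtain ⟨ε, hε, hε1, hε2⟩ : ∃ ε > 0, ε < 1 ∧ 2 * ε ≤ δ :=
    ⟨min (1 / 2) (δ / 2), lt_min (by norm_num) (by positivity),
      (min_le_left _ _).trans_lt (by norm_num), by linarith [min_le_right (1 / 2 : ℝ) (δ / 2)]⟩
  set O : Set (ℙ k (ι → k)) := pj k ι '' {v | ‖v.1 - a • u‖ < ε} with hO
  have hOo : IsOpen O := by
    refine pj_open _ ?_
    exact isOpen_lt ((continuous_subtype_val.sub continuous_const).norm) continuous_const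
  have hx₀ : x₀ ∈ O := by
    refine ⟨⟨a • u, smul_ne_zero ha hu⟩, ?_, ?_⟩
    · change ‖a • u - a • u‖ < ε
      rw [sub_self, norm_zero]; exact hε
    · rw [← hu0]
      exact (pj_eq _ _).2 ⟨Units.mk0 a ha, rfl⟩
  obtain ⟨U, hU, hUO⟩ := H820.exists_clopen (hOo.mem_nhds hx₀)
  refine ⟨U, U.isClopen, hU, fun v w hv hw hvU hwU hv1 => ?_⟩
  obtain ⟨⟨v', hv'⟩, hv'1, hv'2⟩ := hUO hvU
  obtain ⟨⟨w', hw'⟩, hw'1, hw'2⟩ := hUO hwU
  change ‖v' - a • u‖ < ε at hv'1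
  change ‖w' - a • u‖ < ε at hw'1
  obtain ⟨c, hc⟩ := (pj_eq _ (⟨v, hv⟩ : {v : ι → k // v ≠ 0})).1 hv'2
  obtain ⟨d, hd⟩ := (pj_eq _ (⟨w, hw⟩ : {v : ι → k // v ≠ 0})).1 hw'2
  change (c : k) • v = v' at hc
  change (d : k) • w = w' at hd
  have hv'n : ‖v'‖ = 1 := by
    have h1 : ‖v' - a • u‖ < ‖a • u‖ := by rw [ha1]; linarith
    have h2 := IsUltrametricDist.norm_add_eq_max_of_norm_ne_norm (x := v' - a • u) (y := a • u)
      h1.ne
    rw [sub_add_cancel, max_eq_right h1.le, ha1] at h2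
    exact h2
  have hcn : ‖(c : k)‖ = 1 := by
    rw [← hc, norm_smul, hv1, mul_one] at hv'n
    exact hv'n
  refine ⟨(c : k)⁻¹ * d, ?_⟩
  have e1 : v - ((c : k)⁻¹ * d) • w = (c : k)⁻¹ • ((v' - a • u) - (w' - a • u)) := by
    rw [← hc, ← hd]
    have hc0 : (c : k) ≠ 0 := c.ne_zero
    simp only [smul_sub, smul_smul, inv_mul_cancel₀ hc0, one_smul]
    abel
  rw [e1, norm_smul, norm_inv, hcn, inv_one, one_mul]
  refine (norm_sub_le _ _).trans ?_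
  linarith

/-- reduction to functions with small supports -/
theorem lc_induct {X : Type*} [TopologicalSpace X] [CompactSpace X] {P : C(X, ℂ) → Prop}
    (h0 : P 0) (hadd : ∀ a b, P a → P b → P (a + b)) {a : C(X, ℂ)} (ha : IsLocallyConstant a)
    (hloc : ∀ x : X, ∃ U : Set X, IsClopen U ∧ x ∈ U ∧ ∀ a' : C(X, ℂ), IsLocallyConstant a' →
      tsupport a' ⊆ tsupport a → tsupport a' ⊆ U → P a') : P a := by
  classical
  have key : ∃ U : Set X, IsClopen U ∧ Set.univ ⊆ U ∧ ∀ a' : C(X, ℂ),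
      IsLocallyConstant a' → tsupport a' ⊆ tsupport a → tsupport a' ⊆ U → P a' := by
    refine IsCompact.induction_on (p := fun s : Set X => ∃ U : Set X, IsClopen U ∧
      s ⊆ U ∧ ∀ a' : C(X, ℂ), IsLocallyConstant a' → tsupport a' ⊆ tsupport a →
      tsupport a' ⊆ U → P a') isCompact_univ ?_ ?_ ?_ ?_
    · refine ⟨∅, isClopen_empty, subset_rfl, fun a' _ _ h => ?_⟩
      have e : a' = 0 := by
        ext x
        by_contra h2
        exact (h (subset_tsupport _ h2)).elim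
      rw [e]
      exact h0
    · rintro s t hst ⟨U, hU, htU, h⟩
      exact ⟨U, hU, hst.trans htU, h⟩
    · rintro s t ⟨U, hU, hsU, h⟩ ⟨V, hV, htV, h'⟩
      refine ⟨U ∪ V, hU.union hV, Set.union_subset_union hsU htV, fun a' ha' hsub haU => ?_⟩
      have hind : ∀ W : Set X, IsClopen W → ∃ c : C(X, ℂ), IsLocallyConstant c ∧
          (∀ x, c x = if x ∈ W then a' x else 0) := by
        intro W hW
        have hlc : IsLocallyConstant fun x => if x ∈ W then a' x else 0 := by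
          refine (IsLocallyConstant.iff_eventually_eq _).2 fun x => ?_
          have hx := (IsLocallyConstant.iff_eventually_eq _).1 ha' x
          by_cases hxW : x ∈ W
          · filter_upwards [hx, hW.isOpen.mem_nhds hxW] with y h1 h2
            rw [if_pos hxW, if_pos h2, h1]
          · filter_upwards [hx, hW.compl.isOpen.mem_nhds hxW] with y h1 h2
            rw [if_neg hxW, if_neg h2]
        exact ⟨⟨_, hlc.continuous⟩, hlc, fun x => rfl⟩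
      obtain ⟨c₁, hc₁, hc₁'⟩ := hind U hU
      obtain ⟨c₂, hc₂, hc₂'⟩ := hind Uᶜ hU.compl
      have e : a' = c₁ + c₂ := by
        ext x
        rw [ContinuousMap.add_apply, hc₁', hc₂']
        by_cases hx : x ∈ U
        · rw [if_pos hx, if_neg (fun h => h hx), add_zero]
        · rw [if_neg hx, if_pos (show x ∈ Uᶜ from hx), zero_add]
      rw [e]
      refine hadd _ _ ?_ ?_
      · refine h c₁ hc₁ (fun x hx => hsub ?_) fun x hx => ?_
        · have h1 := tsupport_lc hc₁ hx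
          rw [hc₁'] at h1
          refine subset_tsupport _ fun h2 => h1 ?_
          rw [h2, ite_self]
        · have h1 := tsupport_lc hc₁ hx
          rw [hc₁'] at h1
          by_contra h2
          rw [if_neg h2] at h1
          exact h1 rfl
      · refine h' c₂ hc₂ (fun x hx => hsub ?_) fun x hx => ?_
        · have h1 := tsupport_lc hc₂ hx
          rw [hc₂'] at h1
          refine subset_tsupport _ fun h2 => h1 ?_
          rw [h2, ite_self]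
        · have h1 := tsupport_lc hc₂ hx
          rw [hc₂'] at h1
          have h2 : x ∈ Uᶜ := by
            by_contra h2
            rw [if_neg h2] at h1
            exact h1 rfl
          rw [if_pos h2] at h1
          exact (haU (subset_tsupport _ h1)).resolve_left h2
    · intro x _
      obtain ⟨U, hU, hxU, hUs⟩ := hloc x
      exact ⟨U, mem_nhdsWithin_of_mem_nhds (hU.isOpen.mem_nhds hxU), U, hU, subset_rfl, hUs⟩
  obtain ⟨U, -, hU, h⟩ := key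
  exact h a ha subset_rfl ((Set.subset_univ _).trans hU)

end small

section final

variable {k : Type} [NontriviallyNormedField k] [ProperSpace k] {N : ℕ}

/-- the estimate for one function `a` -/
def Est {Γ K : Type} [NormedAddCommGroup K] [InnerProductSpace ℂ K] [CompleteSpace K]
    (q : Γ → GG k N) (Z : Set Γ) (R : ℝ) (A : Set (YY k N)) (b : CY k N →⋆ₐ[ℂ] (K →L[ℂ] K))
    (l : CG k N 2 →⋆ₐ[ℂ] (K →L[ℂ] K)) (f : CG k N 2) (a : CY k N) : Prop :=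
  ∃ T > 0, ∃ (C : ℝ) (d : ℕ), 0 ≤ C ∧ ∀ J : ℝ, 0 ≤ J → ∀ S : Finset Γ,
    (∀ γ ∈ S, (γ ∈ Z ∧ NW1 R (q γ) ∧ Att T A (q γ)) ∧ Real.log (nm (q γ)) ≤ J) →
    ∀ ξ : K, ∑ γ ∈ S, ‖b (act (q γ)⁻¹ a) (l (actG (q γ)⁻¹ f) ξ)‖ ^ 2 ≤
      C * (1 + J) ^ d * ‖ξ‖ ^ 2

theorem att_mono {T T' : ℝ} (hT : 0 < T) (h : T ≤ T') {A : Set (YY k N)} {g : GG k N}
    (hA : Att T' A g) : Att T A g := by
  obtain ⟨v, φ, hv, h1, h2⟩ := hA
  refine ⟨v, φ, hv, h1, fun i j => (h2 i j).trans ?_⟩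
  exact div_le_div_of_nonneg_left (norm_nonneg _) hT h

theorem Est.add {Γ K : Type} [NormedAddCommGroup K] [InnerProductSpace ℂ K] [CompleteSpace K]
    {q : Γ → GG k N} {Z : Set Γ} {R : ℝ} {A : Set (YY k N)} {b : CY k N →⋆ₐ[ℂ] (K →L[ℂ] K)}
    {l : CG k N 2 →⋆ₐ[ℂ] (K →L[ℂ] K)} {f : CG k N 2} {a a' : CY k N}
    (h : Est q Z R A b l f a) (h' : Est q Z R A b l f a') : Est q Z R A b l f (a + a') := by
  obtain ⟨T, hT, C, d, hC, h⟩ := h
  obtain ⟨T', hT', C', d', hC', h'⟩ := h'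
  refine ⟨max T T', lt_max_of_lt_left hT, 2 * (C + C'), d + d', by positivity, ?_⟩
  intro J hJ S hS ξ
  have h1 := h J hJ S (fun γ hγ => by
    obtain ⟨⟨a1, a2, a3⟩, a4⟩ := hS γ hγ
    exact ⟨⟨a1, a2, att_mono hT (le_max_left _ _) a3⟩, a4⟩) ξ
  have h2 := h' J hJ S (fun γ hγ => by
    obtain ⟨⟨a1, a2, a3⟩, a4⟩ := hS γ hγ
    exact ⟨⟨a1, a2, att_mono hT' (le_max_right _ _) a3⟩, a4⟩) ξ
  have h3 : ∀ γ ∈ S, ‖b (act (q γ)⁻¹ (a + a')) (l (actG (q γ)⁻¹ f) ξ)‖ ^ 2 ≤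
      2 * ‖b (act (q γ)⁻¹ a) (l (actG (q γ)⁻¹ f) ξ)‖ ^ 2 +
        2 * ‖b (act (q γ)⁻¹ a') (l (actG (q γ)⁻¹ f) ξ)‖ ^ 2 := by
    intro γ _
    have e : act (q γ)⁻¹ (a + a') = act (q γ)⁻¹ a + act (q γ)⁻¹ a' := rfl
    rw [e, map_add, ContinuousLinearMap.add_apply]
    have h4 := norm_add_le (b (act (q γ)⁻¹ a) (l (actG (q γ)⁻¹ f) ξ))
      (b (act (q γ)⁻¹ a') (l (actG (q γ)⁻¹ f) ξ))
    have h5 := norm_nonneg (b (act (q γ)⁻¹ a) (l (actG (q γ)⁻¹ f) ξ) +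
      b (act (q γ)⁻¹ a') (l (actG (q γ)⁻¹ f) ξ))
    nlinarith [sq_nonneg (‖b (act (q γ)⁻¹ a) (l (actG (q γ)⁻¹ f) ξ)‖ -
      ‖b (act (q γ)⁻¹ a') (l (actG (q γ)⁻¹ f) ξ)‖)]
  refine (Finset.sum_le_sum h3).trans ?_
  rw [Finset.sum_add_distrib, ← Finset.mul_sum, ← Finset.mul_sum]
  have e1 : (1 : ℝ) ≤ 1 + J := by linarith
  have p1 : (1 + J) ^ d ≤ (1 + J) ^ (d + d') := pow_le_pow_right₀ e1 (by omega)
  have p2 : (1 + J) ^ d' ≤ (1 + J) ^ (d + d') := pow_le_pow_right₀ e1 (by omega)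
  have q1 : C * (1 + J) ^ d * ‖ξ‖ ^ 2 ≤ C * (1 + J) ^ (d + d') * ‖ξ‖ ^ 2 := by gcongr
  have q2 : C' * (1 + J) ^ d' * ‖ξ‖ ^ 2 ≤ C' * (1 + J) ^ (d + d') * ‖ξ‖ ^ 2 := by gcongr
  calc _ ≤ 2 * (C * (1 + J) ^ (d + d') * ‖ξ‖ ^ 2) + 2 * (C' * (1 + J) ^ (d + d') * ‖ξ‖ ^ 2) := by
        linarith
    _ = _ := by ring

/-- **The count half of KEY_0**, general form (`J` = any `σ`-sesquilinear form, `b` lives on the
isotropic points). -/
theorem cnt_gen [IsUltrametricDist k] {σ : k →+* k}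
    {J : Matrix (Fin (N + 1)) (Fin (N + 1)) k} {β : ℝ} (hB : Bd σ J β)
    (hsy : ∀ x y, ‖bf σ J x y‖ = ‖bf σ J y x‖)
    {Γ K : Type} [NormedAddCommGroup K] [InnerProductSpace ℂ K] [CompleteSpace K]
    (q : Γ → GG k N) {Z : Set Γ} (hud : UD q Z) (iso : ∀ γ, Iso σ J (q γ).1)
    (b z : CY k N →⋆ₐ[ℂ] (K →L[ℂ] K)) (l ν : CG k N 2 →⋆ₐ[ℂ] (K →L[ℂ] K))
    (hbν : PLy b ν) (hzν : PLy z ν) (hzl : PLy z l)
    (hbl : ∀ (a : CY k N) (f : CG k N 2), (∀ x ∈ tsupport a, ∀ L ∈ tsupport f,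
      ∃ y ∈ L.1, bf σ J y x.rep ≠ 0) → b a * l f = 0)
    (hiso : ∀ a : CY k N, (∀ x ∈ tsupport a, bf σ J x.rep x.rep ≠ 0) → b a = 0)
    (R : ℝ) (A : Set (YY k N)) (a : CY k N) (ha : IsLocallyConstant a) (f : CG k N 2)
    (hf : IsLocallyConstant f)
    (hopp : ∀ x ∈ tsupport a, ∀ y ∈ closure A, bf σ J x.rep y.rep ≠ 0) :
    Est q Z R A b l f a := by
  classical
  letI : MeasurableSpace k := borel k
  haveI : BorelSpace k := ⟨rfl⟩
  obtain ⟨cl⟩ := H914.exists_cells (k := k) (Or.inr inferInstance)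
  have hk : H914.K2Stmt k := @H914.k2Stmt k _ _ _ _ cl
  have hβ := hB.one_le
  have hβ0 : (0 : ℝ) < β := by linarith
  -- the extension
  obtain ⟨F, hF, hFf⟩ := exists_ext
    (e := (plk : Gr k (Fin (N + 1)) 2 → ℙ k (Fin (N + 1) × Fin (N + 1) → k))) hf
    plk_emb.continuous (by
      obtain ⟨F, hF⟩ := plH_surj f
      exact ⟨F, fun x => by rw [← hF]; rfl⟩) H890.dense_lc
  have hFf' : f = plH F := ContinuousMap.ext fun x => (hFf x).symm
  rw [hFf']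
  -- separation
  have hrep : ∀ (v : Fin (N + 1) → k) (hv : v ≠ 0), ∃ c : kˣ,
      c • (Projectivization.mk k v hv).rep = v := fun v hv => by
    obtain ⟨c, hc⟩ := Projectivization.exists_smul_eq_mk_rep k v hv
    exact ⟨c⁻¹, by rw [← hc, inv_smul_smul]⟩
  obtain ⟨c, hc, hsep⟩ := exists_sep hB (A := closure A) (Y := tsupport a) isClosed_closure
    (isClosed_tsupport _) (fun x hx y hy hxY hyA h0 => by
      obtain ⟨c, hc⟩ := hrep x hx
      obtain ⟨d, hd⟩ := hrep y hy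
      refine hopp _ hxY _ hyA ?_
      rw [← hc, ← hd, Units.smul_def, Units.smul_def, bf_smul_left, bf_smul_right] at h0
      have h1 : σ (d : k) ≠ 0 := by
        rw [← norm_pos_iff, hB.isom, norm_pos_iff]
        exact d.ne_zero
      simpa [c.ne_zero, h1] using h0)
  obtain ⟨C, hC3, hCR, hCc⟩ : ∃ C : ℝ, 3 ≤ C ∧ R ≤ C ∧ β / (c / 2) ≤ C :=
    ⟨max 3 (max R (β / (c / 2))), le_max_left _ _, (le_max_left _ _).trans (le_max_right _ _),
      (le_max_right _ _).trans (le_max_right _ _)⟩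
  have hC0 : (0 : ℝ) < C := by linarith
  obtain ⟨T, hT, hT0⟩ : ∃ T : ℝ, 2 * (c + β) / c ≤ T ∧ 0 < T :=
    ⟨2 * (c + β) / c, le_rfl, by positivity⟩
  obtain ⟨δ, hδ, hshell⟩ := shell0 hk hB hsy q hud b z l ν hbν hzν hzl hbl hF hC3
  -- the geometry of one element
  have hgeo : ∀ γ, NW1 R (q γ) → Att T A (q γ) → NW σ J C (nm (q γ)) (q γ).1 ∧
      ∀ v (hv : v ≠ 0), q γ • Projectivization.mk k v hv ∈ tsupport a →
        nm (q γ) * ‖(q γ).1 *ᵥ v‖ ≤ C * ‖v‖ := by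
    intro γ h1 h2
    have hM : 0 < nm (q γ) := H145.nm_pos' _
    refine ⟨⟨iso γ, le_nm _, fun i i' j j' => (h1 i j i' j').trans (by gcongr)⟩, ?_⟩
    intro v hv hva
    obtain ⟨i₀, j, hp⟩ := H145.exists_pivot2 (q γ)
    obtain ⟨w, φ, hw, hwA, hφ⟩ := h2
    obtain ⟨hgv, e⟩ := smul_mk (q γ) v hv
    rw [e] at hva
    have h3 := att_big hB hc hsep hT hM hp hw (subset_closure hwA) hφ _ hgv hva
    have hcol : ‖(q γ).1 *ᵥ ee j‖ ≤ nm (q γ) := norm_mulVec_ee hM.le (le_nm _) j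
    have hcol' : nm (q γ) ≤ ‖(q γ).1 *ᵥ ee j‖ := by
      rw [← hp, ← mulVec_ee (q γ).1 j i₀]
      exact norm_le_pi_norm _ _
    have h4 := contr_of_opp hB (half_pos hc) (iso γ) hcol' (v := v) (by
      refine le_trans ?_ h3
      gcongr)
    refine h4.trans ?_
    gcongr
  -- small functions
  have hsmall : ∀ a' : CY k N, IsLocallyConstant a' → tsupport a' ⊆ tsupport a →
      (∀ v w (hv : v ≠ 0) (hw : w ≠ 0), Projectivization.mk k v hv ∈ tsupport a' →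
        Projectivization.mk k w hw ∈ tsupport a' → ‖v‖ = 1 → ∃ c : k, ‖v - c • w‖ ≤ δ) →
      Est q Z R A b l (plH F) a' := by
    intro a' ha' hsub hsm
    obtain ⟨C', s₀, hC', hsh⟩ := hshell a' ha' hsm
    obtain ⟨M₀, hM₀⟩ := hud (Real.exp s₀ * (β ^ 2 * Real.exp s₀))
    obtain ⟨C'', hC'', hsum⟩ := sum_shells (P := Fin (N + 1)) (fun γ => nm (q γ))
      (fun γ (ξ : K) => ‖b (act (q γ)⁻¹ a') (l (actG (q γ)⁻¹ (plH F)) ξ)‖ ^ 2)
      (fun γ ξ => sq_nonneg _)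
      (fun γ => (γ ∈ Z ∧ NW1 R (q γ) ∧ Att T A (q γ)) ∧ ∃ x : YY k N,
        bf σ J x.rep x.rep = 0 ∧ q γ • x ∈ tsupport a')
      (fun γ i => ∃ (η : Fin (N + 1) → k) (hη : η ≠ 0), η i = 1 ∧ ‖η‖ ≤ 1 ∧ bf σ J η η = 0 ∧
        q γ • Projectivization.mk k η hη ∈ tsupport a') s₀
      (by
        rintro γ ⟨-, x, hxi, hx⟩
        obtain ⟨m, hm⟩ := exists_max x.rep
        have h0 : 0 < ‖x.rep‖ := norm_pos_iff.2 x.rep_nonzero
        have h1 : x.rep m ≠ 0 := norm_pos_iff.1 (by rw [hm]; exact h0)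
        have h2 : (x.rep m)⁻¹ • x.rep ≠ 0 := smul_ne_zero (inv_ne_zero h1) x.rep_nonzero
        refine ⟨m, (x.rep m)⁻¹ • x.rep, h2, ?_, ?_, ?_, ?_⟩
        · rw [Pi.smul_apply, smul_eq_mul, inv_mul_cancel₀ h1]
        · rw [norm_smul, norm_inv, hm, inv_mul_cancel₀ h0.ne']
        · rw [bf_smul_left, bf_smul_right, hxi, mul_zero, mul_zero]
        · have e : Projectivization.mk k ((x.rep m)⁻¹ • x.rep) h2 = x := by
            conv_rhs => rw [← x.mk_rep]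
            exact (Projectivization.mk_eq_mk_iff' k _ _ _ _).2 ⟨_, rfl⟩
          rw [e]
          exact hx)
      (M₀ := M₀) (by
        intro S hS
        refine hM₀ S (fun γ hγ => (hS γ hγ).1.1.1) fun γ hγ γ' hγ' => ?_
        refine (H145.nm_mul' _ _).trans ?_
        have hinv : nm (q γ)⁻¹ ≤ β ^ 2 * nm (q γ) := by
          have hM : 0 < nm (q γ) := H145.nm_pos' _
          refine nm_le (by positivity) fun i j => ?_
          have e1 : (q γ).1 *ᵥ (((q γ)⁻¹).1 *ᵥ ee j) = ee j := by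
            rw [Matrix.mulVec_mulVec, ← Matrix.SpecialLinearGroup.coe_mul, mul_inv_cancel]
            exact Matrix.one_mulVec _
          have h1 := hB.lo (((q γ)⁻¹).1 *ᵥ ee j) (β * nm (q γ)) (by positivity) (fun i => by
            rw [← (iso γ).bf, e1]
            refine (hB.up _ _).trans ?_
            have h2 := norm_ee (k := k) j
            have h3 := norm_mulVec_ee hM.le (le_nm (q γ)) i
            calc β * ‖(ee j : Fin (N + 1) → k)‖ * ‖(q γ).1 *ᵥ ee i‖ ≤ β * 1 * nm (q γ) := by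
                  gcongr
              _ = _ := by ring)
          rw [← mulVec_ee ((q γ)⁻¹).1 j i]
          refine (norm_le_pi_norm _ i).trans (h1.trans (le_of_eq ?_))
          ring
        have h1 := (hS γ hγ).2
        have h2 := (hS γ' hγ').2
        calc nm (q γ') * nm (q γ)⁻¹ ≤ Real.exp s₀ * (β ^ 2 * Real.exp s₀) := by
              refine mul_le_mul h2 (hinv.trans ?_) (norm_nonneg _) (Real.exp_pos _).le
              gcongr
          _ = _ := rfl)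
      (B := (‖a'‖ * ‖plH F‖) ^ 2) (by positivity) (by
        intro γ ξ
        rw [← mul_pow]
        refine pow_le_pow_left₀ (norm_nonneg _) ?_ 2
        have h0 : ‖act (q γ)⁻¹ a'‖ ≤ ‖a'‖ :=
          (ContinuousMap.norm_le _ (norm_nonneg _)).2 fun _ => a'.norm_coe_le_norm _
        have h1 : ‖b (act (q γ)⁻¹ a')‖ ≤ ‖a'‖ :=
          (NonUnitalStarAlgHom.norm_apply_le b _).trans h0
        have h2 : ‖l (actG (q γ)⁻¹ (plH F))‖ ≤ ‖plH F‖ :=
          (NonUnitalStarAlgHom.norm_apply_le l _).trans (H914.norm_actG_le _ _)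
        calc _ ≤ ‖b (act (q γ)⁻¹ a')‖ * ‖l (actG (q γ)⁻¹ (plH F)) ξ‖ :=
              ContinuousLinearMap.le_opNorm _ _
          _ ≤ ‖a'‖ * (‖plH F‖ * ‖ξ‖) := by
              refine mul_le_mul h1 ?_ (norm_nonneg _) (norm_nonneg _)
              exact (ContinuousLinearMap.le_opNorm _ _).trans
                (mul_le_mul_of_nonneg_right h2 (norm_nonneg _))
          _ = _ := by ring) hC' 4
      (by
        intro s i S hs hS ξ
        refine hsh s i S hs (fun γ hγ => ?_) ξ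
        obtain ⟨⟨⟨h1, h2, h3⟩, -⟩, h4, h5, h6⟩ := hS γ hγ
        obtain ⟨g1, g2⟩ := hgeo γ h2 h3
        exact ⟨h1, g1, h4, h5, fun v hv hva => g2 v hv (hsub hva), h6⟩)
    refine ⟨T, hT0, C'', 5, hC'', fun t ht S hS ξ => ?_⟩
    have h1 := hsum t ht (S.filter fun γ => ∃ x : YY k N, bf σ J x.rep x.rep = 0 ∧
      q γ • x ∈ tsupport a') (fun γ hγ => by
      obtain ⟨h2, h3⟩ := Finset.mem_filter.1 hγ
      exact ⟨⟨(hS γ h2).1, h3⟩, (hS γ h2).2⟩) ξ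
    refine le_trans (le_of_eq ?_) h1
    rw [Finset.sum_filter]
    refine Finset.sum_congr rfl fun γ _ => ?_
    split_ifs with h
    · rfl
    · have e : b (act (q γ)⁻¹ a') = 0 := by
        refine hiso _ fun x hx h2 => h ⟨x, h2, tsupport_actY (q γ) a' hx⟩
      rw [e, ContinuousLinearMap.zero_apply, norm_zero, zero_pow two_ne_zero]
  -- compactness
  refine lc_induct (P := Est q Z R A b l (plH F)) ?_ (fun a₁ a₂ h₁ h₂ => h₁.add h₂) ha
    fun x => ?_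
  · refine ⟨T, hT0, 0, 0, le_rfl, fun J hJ S hS ξ => ?_⟩
    refine le_of_eq ?_
    rw [zero_mul, zero_mul]
    refine Finset.sum_eq_zero fun γ _ => ?_
    have e2 : act (q γ)⁻¹ (0 : CY k N) = 0 := rfl
    rw [e2, map_zero, ContinuousLinearMap.zero_apply, norm_zero, zero_pow two_ne_zero]
  · obtain ⟨U, hU, hxU, hUs⟩ := exists_small (k := k) (ι := Fin (N + 1)) hδ x
    exact ⟨U, hU, hxU, fun a' ha' hsub haU => hsmall a' ha' hsub
      fun v w hv hw hv1 hw1 => hUs v w hv hw (haU hv1) (haU hw1)⟩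

/-- **`cnt0`** (literal of #8421): the count half of KEY_0 for `Sp_(N+1)(k)`, `k` ultrametric -/
theorem cnt0 [IsUltrametricDist k] {J J' : Matrix (Fin (N + 1)) (Fin (N + 1)) k}
    (hJ : H145.WL3.Frm J J') {Γ K : Type} [NormedAddCommGroup K] [InnerProductSpace ℂ K]
    [CompleteSpace K] (q : Γ → GG k N) {Z : Set Γ} (hud : UD q Z)
    (iso : ∀ γ, (q γ).1ᵀ * J * (q γ).1 = J)
    (b z : CY k N →⋆ₐ[ℂ] (K →L[ℂ] K)) (l ν : CG k N 2 →⋆ₐ[ℂ] (K →L[ℂ] K))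
    (hbν : PLy b ν) (hzν : PLy z ν) (hzl : PLy z l)
    (hbl : ∀ (a : CY k N) (f : CG k N 2), (∀ x ∈ tsupport a, ∀ L ∈ tsupport f,
      ∃ y ∈ L.1, H145.WL3.om J x.rep y ≠ 0) → b a * l f = 0)
    (R : ℝ) (A : Set (YY k N)) (a : CY k N) (ha : IsLocallyConstant a) (f : CG k N 2)
    (hf : IsLocallyConstant f)
    (hopp : ∀ x ∈ tsupport a, ∀ y ∈ closure A, H145.WL3.om J x.rep y.rep ≠ 0) :
    ∃ T > 0, ∃ (C : ℝ) (d : ℕ), 0 ≤ C ∧ ∀ J : ℝ, 0 ≤ J → ∀ S : Finset Γ,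
      (∀ γ ∈ S, (γ ∈ Z ∧ NW1 R (q γ) ∧ Att T A (q γ)) ∧ Real.log (nm (q γ)) ≤ J) →
      ∀ ξ : K, ∑ γ ∈ S, ‖b (act (q γ)⁻¹ a) (l (actG (q γ)⁻¹ f) ξ)‖ ^ 2 ≤
        C * (1 + J) ^ d * ‖ξ‖ ^ 2 := by
  have hbf : ∀ x y, bf (RingHom.id k) J x y = H145.WL3.om J x y := fun x y => rfl
  obtain ⟨β, hB⟩ := exists_bd (σ := RingHom.id k) (K := J) (K' := J') (fun _ => rfl) hJ.inv
  have hneg : ∀ x y, H145.WL3.om J x y = - H145.WL3.om J y x := by
    intro x y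
    have h := hJ.alt (x + y)
    rw [H145.WL3.om_add_left, H145.WL3.om_add_right, H145.WL3.om_add_right, hJ.alt, hJ.alt,
      zero_add, add_zero] at h
    exact eq_neg_of_add_eq_zero_left h
  refine cnt_gen (σ := RingHom.id k) hB (fun x y => by rw [hbf, hbf, hneg, norm_neg])
    q hud (fun γ => ?_) b z l ν hbν hzν hzl (fun a f h => ?_) (fun a h => ?_) R A a ha f hf
    hopp
  · change (q γ).1ᵀ * J * (q γ).1.map (RingHom.id k) = J
    have e : (q γ).1.map (RingHom.id k) = (q γ).1 := by ext; rfl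
    rw [e]
    exact iso γ
  · refine hbl a f fun x hx L hL => ?_
    obtain ⟨y, hy, h1⟩ := h x hx L hL
    refine ⟨y, hy, fun h2 => h1 ?_⟩
    rw [hbf, hneg, h2, neg_zero]
  · have e : a = 0 := by
      ext x
      by_contra h2
      exact h x (subset_tsupport _ h2) (hJ.alt _)
    rw [e, map_zero]

end final

end Vale.Agent.P092.H589.P2
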