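import Vale.Agent.P092.H589.P2c
import Mathlib.Topology.PartitionOfUnity

/-!
P092, count half of KEY_0 over EVERY local field (helper589), part a: tools.

The calculus `p` of a common maximal source space commutes with everything in sight; localising by
it replaces the exact (totally disconnected) replacement of `P2c` by a sup norm estimate.
-/

set_option linter.all false

namespace Vale.Agent.P092.H589.P4

open Matrix
open scoped LinearAlgebra.Projectivization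
open Vale.Agent.P092.H789.S2
open Vale.Agent.P092.H820 (pj pj_surj pj_continuous pj_eq pj_open pj_oq wd)
open Vale.Agent.P092.H835.PlF (sq_wd)
open Vale.Agent.P092.H890 (ev ev_ne ev_scale)
open Vale.Agent.P092.H589.P2 (exists_unit exists_max norm_mulVec_le bf_cont)

section uc

variable {k : Type} [NontriviallyNormedField k] [ProperSpace k] {β : Type} [Fintype β]

/-- uniform continuity of a function on the projective space, in homogeneous coordinates -/
theorem ev_uc (f : C(ℙ k (β → k), ℂ)) {ε : ℝ} (hε : 0 < ε) :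
    ∃ δ > 0, ∀ v w : β → k, v ≠ 0 → ‖v - w‖ ≤ δ * ‖v‖ → ‖ev f v - ev f w‖ ≤ ε := by
  classical
  set A : Set (β → k) := Metric.closedBall 0 2 ∩ {v | 1 / 2 ≤ ‖v‖} with hA
  have hAc : IsCompact A := (isCompact_closedBall _ _).inter_right
    (isClosed_le continuous_const continuous_norm)
  have hcont : ContinuousOn (ev f) A := by
    intro v hv
    have hv0 : v ≠ 0 := by
      rintro rfl
      have := hv.2
      simp only [Set.mem_setOf_eq, norm_zero] at this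
      norm_num at this
    exact (H890.ev_cont f hv0).continuousWithinAt
  have hu := Metric.uniformContinuousOn_iff.1 (hAc.uniformContinuousOn_of_continuous hcont)
  obtain ⟨δ, hδ, h⟩ := hu ε hε
  refine ⟨min (δ / 2) (1 / 2), by positivity, fun v w hv hvw => ?_⟩
  haveI : Nonempty β := by
    by_contra hne
    rw [not_nonempty_iff] at hne
    exact hv (Subsingleton.elim _ _)
  obtain ⟨c, hc0, hc⟩ := exists_unit hv
  have h1 : ‖c • v - c • w‖ ≤ min (δ / 2) (1 / 2) := by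
    rw [← smul_sub, norm_smul]
    calc ‖c‖ * ‖v - w‖ ≤ ‖c‖ * (min (δ / 2) (1 / 2) * ‖v‖) := by gcongr
      _ = min (δ / 2) (1 / 2) * ‖c • v‖ := by rw [norm_smul]; ring
      _ = min (δ / 2) (1 / 2) := by rw [hc, mul_one]
  have h2 : ‖c • v - c • w‖ ≤ 1 / 2 := h1.trans (min_le_right _ _)
  have h3 : ‖c • v - c • w‖ ≤ δ / 2 := h1.trans (min_le_left _ _)
  have h4 : ‖c • w‖ ≤ 3 / 2 := by
    have := norm_sub_le (c • v) (c • v - c • w)
    rw [sub_sub_cancel, hc] at this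
    linarith
  have h5 : 1 / 2 ≤ ‖c • w‖ := by
    have := norm_add_le (c • v - c • w) (c • w)
    rw [sub_add_cancel, hc] at this
    linarith
  have m1 : c • v ∈ A := ⟨by rw [mem_closedBall_zero_iff, hc]; norm_num, by
    change 1 / 2 ≤ ‖c • v‖
    rw [hc]; norm_num⟩
  have m2 : c • w ∈ A := ⟨by rw [mem_closedBall_zero_iff]; linarith, h5⟩
  have h6 := h _ m1 _ m2 (by rw [dist_eq_norm]; linarith)
  rw [dist_eq_norm, ev_scale f hc0, ev_scale f hc0] at h6
  exact h6.le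

end uc

section alg

variable {k : Type} [NontriviallyNormedField k] {ι : Type} [Fintype ι] [DecidableEq ι]

/-- a well conditioned basis of a line -/
theorem basis_wd (x y : ι → k) (a b : ι) :
    wd (fun c => wd x y (c, b)) (fun c => wd x y (a, c)) = wd x y (a, b) • wd x y := by
  funext p
  obtain ⟨c, d⟩ := p
  simp only [wd, Pi.smul_apply, smul_eq_mul]
  ring

theorem norm_wd_sub (x y x' y' : ι → k) :
    ‖wd x y - wd x' y'‖ ≤ 2 * (‖x - x'‖ * ‖y‖ + ‖x'‖ * ‖y - y'‖) := by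
  refine (pi_norm_le_iff_of_nonneg (by positivity)).2 fun p => ?_
  obtain ⟨c, d⟩ := p
  have e : (wd x y - wd x' y') (c, d) =
      ((x c - x' c) * y d + x' c * (y d - y' d)) - ((x d - x' d) * y c + x' d * (y c - y' c)) := by
    simp only [wd, Pi.sub_apply]
    ring
  have h1 : ∀ c d, ‖(x c - x' c) * y d + x' c * (y d - y' d)‖ ≤
      ‖x - x'‖ * ‖y‖ + ‖x'‖ * ‖y - y'‖ := by
    intro c d
    refine (norm_add_le _ _).trans ?_
    rw [norm_mul, norm_mul]
    have a1 : ‖x c - x' c‖ ≤ ‖x - x'‖ := norm_le_pi_norm (x - x') c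
    have a2 : ‖y d - y' d‖ ≤ ‖y - y'‖ := norm_le_pi_norm (y - y') d
    have a3 := norm_le_pi_norm y d
    have a4 := norm_le_pi_norm x' c
    gcongr
  rw [e]
  refine (norm_sub_le _ _).trans ?_
  linarith [h1 c d, h1 d c]

/-- comparison of two matrices on a line -/
theorem approx [ProperSpace k] (F : C(ℙ k (ι × ι → k), ℂ)) {M ε : ℝ} (hM : 0 ≤ M) (hε : 0 < ε) :
    ∃ δ > 0, ∀ (g g' B : Matrix ι ι k), (∀ a b, ‖g a b‖ ≤ M) → (∀ a b, ‖g' a b‖ ≤ M) →
      g' * g = 1 → ∀ u v : ι → k, ‖u‖ * ‖v‖ ≤ ‖wd u v‖ → wd u v ≠ 0 →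
      ‖B *ᵥ u - g *ᵥ u‖ ≤ δ * ‖u‖ → ‖B *ᵥ v - g *ᵥ v‖ ≤ δ * ‖v‖ →
      ‖ev F (H835.PlF.sq B *ᵥ wd u v) - ev F (H835.PlF.sq g *ᵥ wd u v)‖ ≤ ε := by
  obtain ⟨δ₀, hδ₀, h⟩ := ev_uc F hε
  set n : ℝ := ((Fintype.card ι : ℕ) : ℝ) with hn
  set n₂ : ℝ := ((Fintype.card (ι × ι) : ℕ) : ℝ) with hn₂
  have hn0 : 0 ≤ n := Nat.cast_nonneg _
  have hn₂0 : 0 ≤ n₂ := Nat.cast_nonneg _
  set D : ℝ := 2 * (2 * (n * M) + 1) * (n₂ * (M * M)) with hD
  have hD0 : 0 ≤ D := by positivity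
  refine ⟨min 1 (δ₀ / (D + 1)), by positivity, ?_⟩
  intro g g' B hg hg' hgg u v huv h0 hu hv
  set δ := min 1 (δ₀ / (D + 1)) with hδ
  have hδ0 : 0 < δ := by positivity
  have hδ1 : δ ≤ 1 := min_le_left _ _
  have hδD : δ * D ≤ δ₀ := by
    have h1 : δ ≤ δ₀ / (D + 1) := min_le_right _ _
    rw [le_div_iff₀ (by positivity)] at h1
    nlinarith
  rw [sq_wd, sq_wd]
  have e1 : wd (g *ᵥ u) (g *ᵥ v) = H835.PlF.sq g *ᵥ wd u v := (sq_wd g u v).symm
  have hinv : H835.PlF.sq g' *ᵥ (H835.PlF.sq g *ᵥ wd u v) = wd u v := by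
    rw [sq_wd, sq_wd, Matrix.mulVec_mulVec, Matrix.mulVec_mulVec, hgg, Matrix.one_mulVec,
      Matrix.one_mulVec]
  have hlow : ‖wd u v‖ ≤ n₂ * (M * M) * ‖wd (g *ᵥ u) (g *ᵥ v)‖ := by
    rw [e1]
    conv_lhs => rw [← hinv]
    refine norm_mulVec_le (by positivity) (fun a b => ?_) _
    obtain ⟨a, a'⟩ := a
    obtain ⟨b, b'⟩ := b
    have e2 : (H835.PlF.sq g' : Matrix (ι × ι) (ι × ι) k) (a, a') (b, b') = g' a b * g' a' b' := by
      simp only [H835.PlF.sq, Matrix.kroneckerMap_apply]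
    rw [e2, norm_mul]
    exact mul_le_mul (hg' _ _) (hg' _ _) (norm_nonneg _) hM
  have hne : wd (g *ᵥ u) (g *ᵥ v) ≠ 0 := by
    intro hz
    rw [hz, norm_zero, mul_zero] at hlow
    exact h0 (norm_le_zero_iff.1 hlow)
  have hgu := norm_mulVec_le hM hg u
  have hgv := norm_mulVec_le hM hg v
  have hBv : ‖B *ᵥ v‖ ≤ (n * M + 1) * ‖v‖ := by
    have h1 := norm_add_le (B *ᵥ v - g *ᵥ v) (g *ᵥ v)
    rw [sub_add_cancel] at h1
    have h2 : δ * ‖v‖ ≤ 1 * ‖v‖ := by gcongr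
    linarith
  rw [← norm_neg, neg_sub]
  refine h _ _ hne ?_
  refine (norm_wd_sub _ _ _ _).trans ?_
  have a1 : ‖g *ᵥ u - B *ᵥ u‖ ≤ δ * ‖u‖ := by rw [norm_sub_rev]; exact hu
  have a2 : ‖g *ᵥ v - B *ᵥ v‖ ≤ δ * ‖v‖ := by rw [norm_sub_rev]; exact hv
  have hBu : ‖B *ᵥ u‖ ≤ (n * M + 1) * ‖u‖ := by
    have h1 := norm_add_le (B *ᵥ u - g *ᵥ u) (g *ᵥ u)
    rw [sub_add_cancel] at h1
    have h2 : δ * ‖u‖ ≤ 1 * ‖u‖ := by gcongr
    linarith
  calc 2 * (‖g *ᵥ u - B *ᵥ u‖ * ‖g *ᵥ v‖ + ‖B *ᵥ u‖ * ‖g *ᵥ v - B *ᵥ v‖)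
      ≤ 2 * ((δ * ‖u‖) * (n * M * ‖v‖) + ((n * M + 1) * ‖u‖) * (δ * ‖v‖)) := by gcongr
    _ = 2 * (2 * (n * M) + 1) * δ * (‖u‖ * ‖v‖) := by ring
    _ ≤ 2 * (2 * (n * M) + 1) * δ * (n₂ * (M * M) * ‖wd (g *ᵥ u) (g *ᵥ v)‖) :=
        mul_le_mul_of_nonneg_left (huv.trans hlow) (by positivity)
    _ = (δ * D) * ‖wd (g *ᵥ u) (g *ᵥ v)‖ := by rw [hD]; ring
    _ ≤ δ₀ * ‖wd (g *ᵥ u) (g *ᵥ v)‖ := by gcongr

end alg

section calcu

variable {X Y K : Type*} [TopologicalSpace X] [CompactSpace X] [TopologicalSpace Y]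
  [CompactSpace Y] [NormedAddCommGroup K] [InnerProductSpace ℂ K] [CompleteSpace K]

/-- norm estimate for two incident calculi -/
theorem norm_inc (l : C(X, ℂ) →⋆ₐ[ℂ] (K →L[ℂ] K)) (p : C(Y, ℂ) →⋆ₐ[ℂ] (K →L[ℂ] K))
    {R : X → Y → Prop} (inc : ∀ (f : C(X, ℂ)) (g : C(Y, ℂ)),
      (∀ x ∈ tsupport f, ∀ y ∈ tsupport g, ¬ R x y) → l f * p g = 0)
    {G : C(X, ℂ)} {χ : C(Y, ℂ)} {s : ℝ} (hs : 0 ≤ s)
    (h : ∀ x, ∀ y ∈ tsupport χ, R x y → ‖G x‖ ≤ s) (ξ : K) :
    ‖l G (p χ ξ)‖ ≤ s * ‖p χ ξ‖ := by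
  have key : ∀ δ > 0, ‖l G (p χ ξ)‖ ≤ (s + δ) * ‖p χ ξ‖ := by
    intro δ hδ
    obtain ⟨t, ht⟩ : ∃ t, t = s + δ := ⟨_, rfl⟩
    have ht0 : 0 < t := by linarith
    have hm : ∀ x, 0 < max t ‖G x‖ := fun x => lt_max_of_lt_left ht0
    let G' : C(X, ℂ) := ⟨fun x => ((t / max t ‖G x‖ : ℝ) : ℂ) * G x, by
      refine Continuous.mul (Complex.continuous_ofReal.comp ?_) G.continuous
      exact continuous_const.div (continuous_const.max G.continuous.norm) fun x => (hm x).ne'⟩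
    have hG' : ‖G'‖ ≤ t := by
      refine (ContinuousMap.norm_le _ ht0.le).2 fun x => ?_
      change ‖((t / max t ‖G x‖ : ℝ) : ℂ) * G x‖ ≤ t
      rw [norm_mul, Complex.norm_real, Real.norm_of_nonneg (by positivity), div_mul_eq_mul_div,
        div_le_iff₀ (hm x)]
      gcongr
      exact le_max_right _ _
    have h0 : l (G - G') * p χ = 0 := by
      refine inc _ _ fun x hx y hy hxy => ?_
      have h1 := h x y hy hxy
      have h2 : x ∈ closure {x | t ≤ ‖G x‖} := by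
        refine closure_mono ?_ hx
        intro x hx
        by_contra h3
        simp only [Set.mem_setOf_eq, not_le] at h3
        apply hx
        change G x - ((t / max t ‖G x‖ : ℝ) : ℂ) * G x = 0
        rw [max_eq_left h3.le, div_self ht0.ne', Complex.ofReal_one, one_mul, sub_self]
      rw [(isClosed_le continuous_const G.continuous.norm).closure_eq] at h2
      have h3 : t ≤ ‖G x‖ := h2
      linarith
    have e : l G (p χ ξ) = l G' (p χ ξ) := by
      have h1 := congrArg (fun T : K →L[ℂ] K => T ξ) h0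
      change (l (G - G')) (p χ ξ) = 0 at h1
      rw [map_sub, ContinuousLinearMap.sub_apply, sub_eq_zero] at h1
      exact h1
    rw [e, ← ht]
    refine (ContinuousLinearMap.le_opNorm _ _).trans ?_
    gcongr
    exact (NonUnitalStarAlgHom.norm_apply_le l _).trans hG'
  refine le_of_forall_pos_le_add fun δ hδ => ?_
  have h1 := key (δ / (‖p χ ξ‖ + 1)) (by positivity)
  have h2 : δ / (‖p χ ξ‖ + 1) * ‖p χ ξ‖ ≤ δ := by
    rw [div_mul_eq_mul_div, div_le_iff₀ (by positivity)]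
    nlinarith [norm_nonneg (p χ ξ)]
  linarith [add_mul s (δ / (‖p χ ξ‖ + 1)) ‖p χ ξ‖]

/-- quadratic partition of unity: norms -/
theorem sum_part {J : Type*} (T : Finset J) (p : C(Y, ℂ) →⋆ₐ[ℂ] (K →L[ℂ] K)) {χ : J → C(Y, ℂ)}
    (h : ∑ i ∈ T, star (χ i) * χ i = 1) (ξ : K) : ∑ i ∈ T, ‖p (χ i) ξ‖ ^ 2 = ‖ξ‖ ^ 2 := by
  have e : ∀ i, ((‖p (χ i) ξ‖ ^ 2 : ℝ) : ℂ) = inner ℂ ξ (p (star (χ i) * χ i) ξ) := by
    intro i
    rw [map_mul, map_star]
    change _ = inner ℂ ξ ((star (p (χ i))) (p (χ i) ξ))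
    rw [ContinuousLinearMap.star_eq_adjoint, ContinuousLinearMap.adjoint_inner_right,
      inner_self_eq_norm_sq_to_K]
    norm_cast
  have h2 : ((∑ i ∈ T, ‖p (χ i) ξ‖ ^ 2 : ℝ) : ℂ) = ((‖ξ‖ ^ 2 : ℝ) : ℂ) := by
    rw [Complex.ofReal_sum]
    simp_rw [e]
    rw [← inner_sum]
    have h3 : ∑ i ∈ T, p (star (χ i) * χ i) ξ = ξ := by
      have h4 := congrArg (fun f => p f ξ) h
      simp only [map_one, ContinuousLinearMap.one_apply] at h4
      rw [map_sum, ContinuousLinearMap.sum_apply] at h4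
      exact h4
    rw [h3, inner_self_eq_norm_sq_to_K]
    norm_cast
  exact_mod_cast h2

end calcu

section part

variable {W : Type} [TopologicalSpace W] [CompactSpace W] [T2Space W]

/-- small quadratic partitions of unity -/
theorem exists_part {O : Set (W × W)} (hO : IsOpen O) (hd : ∀ w, (w, w) ∈ O) :
    ∃ (J : Type) (T : Finset J) (χ : J → C(W, ℂ)), (∑ i ∈ T, star (χ i) * χ i = 1) ∧
      ∀ i, ∀ w ∈ tsupport (χ i), ∀ w' ∈ tsupport (χ i), (w, w') ∈ O := by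
  classical
  have h1 : ∀ w : W, ∃ U : Set W, IsOpen U ∧ w ∈ U ∧ U ×ˢ U ⊆ O := by
    intro w
    obtain ⟨U, V, hU, hV, hwU, hwV, hUV⟩ := isOpen_prod_iff.1 hO w w (hd w)
    exact ⟨U ∩ V, hU.inter hV, ⟨hwU, hwV⟩,
      (Set.prod_mono Set.inter_subset_left Set.inter_subset_right).trans hUV⟩
  choose U hU hwU hUO using h1
  obtain ⟨T, hT⟩ := isCompact_univ.elim_finite_subcover U hU fun w _ =>
    Set.mem_iUnion.2 ⟨w, hwU w⟩
  obtain ⟨f, hf⟩ := PartitionOfUnity.exists_isSubordinate (X := W) (s := Set.univ) isClosed_univ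
    (fun i : T => U i) (fun i => hU i) (fun w hw => by
      have := hT hw
      simp only [Set.mem_iUnion] at this
      obtain ⟨i, hi, hwi⟩ := this
      exact Set.mem_iUnion.2 ⟨⟨i, hi⟩, hwi⟩)
  have hc : ∀ i : T, Continuous fun w => ((Real.sqrt (f i w) : ℝ) : ℂ) := fun i =>
    Complex.continuous_ofReal.comp (Real.continuous_sqrt.comp (f i).continuous)
  refine ⟨T, Finset.univ, fun i => ⟨_, hc i⟩, ?_, fun i w hw w' hw' => ?_⟩
  · ext w
    rw [ContinuousMap.sum_apply]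
    change ∑ i : T, star ((Real.sqrt (f i w) : ℝ) : ℂ) * ((Real.sqrt (f i w) : ℝ) : ℂ) = 1
    have e : ∀ i : T, star ((Real.sqrt (f i w) : ℝ) : ℂ) * ((Real.sqrt (f i w) : ℝ) : ℂ) =
        ((f i w : ℝ) : ℂ) := by
      intro i
      have h3 : star ((Real.sqrt (f i w) : ℝ) : ℂ) = ((Real.sqrt (f i w) : ℝ) : ℂ) :=
        Complex.conj_ofReal _
      rw [h3, ← Complex.ofReal_mul, Real.mul_self_sqrt (f.nonneg i w)]
    simp_rw [e]
    rw [← Complex.ofReal_sum]
    have h4 := f.sum_eq_one (Set.mem_univ w)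
    rw [finsum_eq_sum_of_fintype] at h4
    rw [h4, Complex.ofReal_one]
  · have h5 : tsupport (fun w => ((Real.sqrt (f i w) : ℝ) : ℂ)) ⊆ tsupport (f i) := by
      refine closure_mono fun w hw => ?_
      intro h0
      apply hw
      have h0' : f i w = 0 := h0
      change ((Real.sqrt (f i w) : ℝ) : ℂ) = 0
      rw [h0', Real.sqrt_zero, Complex.ofReal_zero]
    exact hUO i.1 (Set.mk_mem_prod (hf i (h5 hw)) (hf i (h5 hw')))

end part

section close

variable {k : Type} [NontriviallyNormedField k] [ProperSpace k] {ι : Type} [Fintype ι]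
  [DecidableEq ι] {σ : k →+* k} {J : Matrix ι ι k} {β : ℝ}
  {W : Type} [TopologicalSpace W] [CompactSpace W] [T2Space W]

/-- close singular spaces are almost orthogonal -/
theorem exists_close [Nonempty ι] (hB : Bd σ J β) (Sp : W → Submodule k (ι → k))
    (hR : IsClosed {z : ℙ k (ι → k) × W | z.1.submodule ≤ Sp z.2})
    (hs : ∀ w, ∀ x ∈ Sp w, ∀ y ∈ Sp w, bf σ J x y = 0) {δ : ℝ} (hδ : 0 < δ) :
    ∃ O : Set (W × W), IsOpen O ∧ (∀ w, (w, w) ∈ O) ∧ ∀ w w', (w, w') ∈ O →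
      ∀ x ∈ Sp w, ∀ y ∈ Sp w', ‖bf σ J x y‖ ≤ δ * ‖x‖ * ‖y‖ := by
  classical
  have hne : ∀ v : Metric.sphere (0 : ι → k) 1, v.1 ≠ 0 := fun v h0 => by
    have h1 := v.2
    rw [mem_sphere_zero_iff_norm, h0, norm_zero] at h1
    exact zero_ne_one h1
  let e : Metric.sphere (0 : ι → k) 1 → ℙ k (ι → k) := fun v => pj k ι ⟨v.1, hne v⟩
  have he : Continuous e := pj_continuous.comp (Continuous.subtype_mk continuous_subtype_val _)
  haveI : CompactSpace (Metric.sphere (0 : ι → k) 1) :=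
    isCompact_iff_compactSpace.1 (isCompact_sphere _ _)
  have hmem : ∀ (v : Metric.sphere (0 : ι → k) 1) (w : W), (e v).submodule ≤ Sp w ↔ v.1 ∈ Sp w := by
    intro v w
    have h1 : (e v).submodule = Submodule.span k {v.1} := Projectivization.submodule_mk _ _
    rw [h1, Submodule.span_singleton_le_iff_mem]
  let S1 := Metric.sphere (0 : ι → k) 1
  let T : Set ((S1 × S1) × (W × W)) := {z | ((e z.1.1).submodule ≤ Sp z.2.1 ∧
    (e z.1.2).submodule ≤ Sp z.2.2) ∧ δ ≤ ‖bf σ J z.1.1.1 z.1.2.1‖}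
  have hT : IsClosed T := by
    have c1 : IsClosed {z : (S1 × S1) × (W × W) | (e z.1.1).submodule ≤ Sp z.2.1} :=
      hR.preimage (f := fun z : (S1 × S1) × (W × W) => (e z.1.1, z.2.1))
        ((he.comp (continuous_fst.comp continuous_fst)).prodMk
          (continuous_fst.comp continuous_snd))
    have c2 : IsClosed {z : (S1 × S1) × (W × W) | (e z.1.2).submodule ≤ Sp z.2.2} :=
      hR.preimage (f := fun z : (S1 × S1) × (W × W) => (e z.1.2, z.2.2))
        ((he.comp (continuous_snd.comp continuous_fst)).prodMk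
          (continuous_snd.comp continuous_snd))
    have c3 : IsClosed {z : (S1 × S1) × (W × W) | δ ≤ ‖bf σ J z.1.1.1 z.1.2.1‖} := by
      refine isClosed_le continuous_const (Continuous.norm ?_)
      exact (bf_cont (K := J) hB.isom).comp
        (((continuous_subtype_val.comp (continuous_fst.comp continuous_fst))).prodMk
          (continuous_subtype_val.comp (continuous_snd.comp continuous_fst)))
    exact (c1.inter c2).inter c3
  have hT' : IsClosed (Prod.snd '' T) := isClosedMap_snd_of_compactSpace _ hT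
  refine ⟨(Prod.snd '' T)ᶜ, hT'.isOpen_compl, fun w => ?_, fun w w' hw x hx y hy => ?_⟩
  · rintro ⟨⟨⟨u, v⟩, ⟨w1, w2⟩⟩, ⟨⟨h1, h2⟩, h3⟩, h4⟩
    obtain ⟨rfl, rfl⟩ := Prod.mk.injEq _ _ _ _ ▸ h4
    have h5 : bf σ J u.1 v.1 = 0 := hs _ _ ((hmem _ _).1 h1) _ ((hmem _ _).1 h2)
    change δ ≤ ‖bf σ J u.1 v.1‖ at h3
    rw [h5, norm_zero] at h3
    linarith
  · by_cases hx0 : x = 0
    · subst hx0
      have : bf σ J (0 : ι → k) y = 0 := by simp [bf]
      rw [this, norm_zero, norm_zero]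
      simp
    by_cases hy0 : y = 0
    · subst hy0
      have : bf σ J x (0 : ι → k) = 0 := by simp [bf, Matrix.mulVec, dotProduct]
      rw [this, norm_zero, norm_zero]
      simp
    obtain ⟨c, hc0, hc⟩ := exists_unit hx0
    obtain ⟨d, hd0, hd⟩ := exists_unit hy0
    by_contra hcon
    rw [not_le] at hcon
    refine hw ⟨((⟨c • x, by rw [mem_sphere_zero_iff_norm]; exact hc⟩,
      ⟨d • y, by rw [mem_sphere_zero_iff_norm]; exact hd⟩), (w, w')), ⟨⟨?_, ?_⟩, ?_⟩, rfl⟩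
    · exact (hmem _ _).2 ((Sp w).smul_mem c hx)
    · exact (hmem _ _).2 ((Sp w').smul_mem d hy)
    · change δ ≤ ‖bf σ J (c • x) (d • y)‖
      rw [bf_smul_left, bf_smul_right, norm_mul, norm_mul, hB.isom]
      rw [norm_smul] at hc hd
      have h1 : δ = ‖c‖ * (‖d‖ * (δ * ‖x‖ * ‖y‖)) := by
        calc δ = δ * (‖c‖ * ‖x‖) * (‖d‖ * ‖y‖) := by rw [hc, hd]; ring
          _ = _ := by ring
      rw [h1]
      gcongr

end close

end Vale.Agent.P092.H589.P4
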