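import Vale.Agent.P092.H589.P4a

/-!
P092, count half of KEY_0 over EVERY local field (helper589), part b: the estimate for one shell,
one pivot and one chosen isotropic vector per element.
-/

set_option linter.all false

namespace Vale.Agent.P092.H589.P4

open Matrix
open scoped LinearAlgebra.Projectivization Kronecker
open Vale.Agent.P092.SN
open Vale.Agent.P092.RC (GG YY)
open Vale.Agent.P092.H100.Gr (Gr)
open Vale.Agent.P092.H644.Gr3 (p1)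
open Vale.Agent.P092.H789.S2
open Vale.Agent.P092.H820 (pj pj_surj pj_continuous pj_eq pj_open pj_oq wd)
open Vale.Agent.P092.H835.NF (Dm Dm_mulVec Dm_mul Dm_one)
open Vale.Agent.P092.H835.PlF (sq_wd)
open Vale.Agent.P092.H835.PlGr (plk plk_cont plk_smul lam2 lam2_smul rep_line rep_alt mem_iff plH)
open Vale.Agent.P092.H890 (ev ev_ne ev_scale)
open Vale.Agent.P092.H589.Mu (Cap)
open Vale.Agent.P092.H589.K2 (Tame Nrm)
open Vale.Agent.P092.H464 (CI Pv)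
open Vale.Agent.P092.H589.P2 (PLy nf0 nm_le le_nm tsupport_actY smul_mk norm_mulVec_le)

section lc

variable {k : Type} [NontriviallyNormedField k] [ProperSpace k] {β : Type} [Fintype β]
  [DecidableEq β]

/-- the function `F ∘ M` for an invertible matrix `M` -/
theorem exists_G' (F : C(ℙ k (β → k), ℂ)) {M M' : Matrix β β k}
    (h : M' * M = 1) : ∃ G : C(ℙ k (β → k), ℂ),
      ∀ v (hv : v ≠ 0), G (pj k β ⟨v, hv⟩) = ev F (M *ᵥ v) := by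
  have hinj : Function.Injective (Matrix.toLin' M) := by
    intro x y hxy
    have h1 : M' *ᵥ (M *ᵥ x) = M' *ᵥ (M *ᵥ y) := by
      rw [← Matrix.toLin'_apply M x, ← Matrix.toLin'_apply M y, hxy]
    rwa [Matrix.mulVec_mulVec, Matrix.mulVec_mulVec, h, Matrix.one_mulVec,
      Matrix.one_mulVec] at h1
  let m : ℙ k (β → k) → ℙ k (β → k) := Projectivization.map (Matrix.toLin' M) hinj
  have hm : ∀ v (hv : v ≠ 0), m (pj k β ⟨v, hv⟩) =
      pj k β ⟨M *ᵥ v, fun h0 => hv (hinj (by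
        rw [Matrix.toLin'_apply, h0, map_zero]))⟩ := fun v hv => rfl
  have hmc : Continuous m := by
    rw [← (pj_oq (k := k) (ι := β)).continuous_comp_iff]
    have e : m ∘ pj k β = fun v => pj k β ⟨M *ᵥ v.1, fun h0 => v.2 (hinj (by
        rw [Matrix.toLin'_apply, h0, map_zero]))⟩ := funext fun v => hm v.1 v.2
    rw [e]
    refine pj_continuous.comp (Continuous.subtype_mk ?_ _)
    exact (Matrix.mulVecLin M).continuous_of_finiteDimensional.comp continuous_subtype_val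
  refine ⟨F.comp ⟨m, hmc⟩, fun v hv => ?_⟩
  change F (m (pj k β ⟨v, hv⟩)) = _
  rw [hm, ← ev_ne F]

end lc

section shell

variable {k : Type} [NontriviallyNormedField k] [ProperSpace k] {N : ℕ}

/-- **The estimate for one shell and one pivot**, every local field; one isotropic vector `η γ`
near the repelling point of each element is given. -/
theorem unitE [MeasurableSpace k] [BorelSpace k] (hk : H914.K2Stmt k)
    {σ : k →+* k} {J : Matrix (Fin (N + 1)) (Fin (N + 1)) k} {β : ℝ} (hB : Bd σ J β)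
    (hsy : ∀ x y, ‖bf σ J x y‖ = ‖bf σ J y x‖)
    {Γ K : Type} [NormedAddCommGroup K] [InnerProductSpace ℂ K] [CompleteSpace K]
    (q : Γ → GG k N) {Z : Set Γ} (hud : UD q Z)
    (b z : CY k N →⋆ₐ[ℂ] (K →L[ℂ] K)) (l ν : CG k N 2 →⋆ₐ[ℂ] (K →L[ℂ] K))
    (hbν : PLy b ν) (hzν : PLy z ν) (hzl : PLy z l)
    {F : C(ℙ k (Fin (N + 1) × Fin (N + 1) → k), ℂ)}
    {φ : (Fin (N + 1) × Fin (N + 1) → k) → ℂ} (hφ : Tame K φ)
    (hFφ : ∀ v (hv : v ≠ 0), F (pj k (Fin (N + 1) × Fin (N + 1)) ⟨v, hv⟩) = φ v) {C : ℝ}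
    (hC : 3 ≤ C) :
    ∃ D : ℝ, 0 ≤ D ∧ ∀ a : CY k N,
      ∃ (C' : ℝ) (s₀ : ℕ), 0 ≤ C' ∧ ∀ (s : ℕ) (i : Fin (N + 1)) (S : Finset Γ)
        (η : Γ → Fin (N + 1) → k), s₀ ≤ s →
        (∀ γ ∈ S, γ ∈ Z ∧ NW σ J C (nm (q γ)) (q γ).1 ∧ Real.exp s ≤ nm (q γ) ∧
          nm (q γ) ≤ Real.exp (s + 1) ∧
          (∀ v (hv : v ≠ 0), q γ • Projectivization.mk k v hv ∈ tsupport a →
            nm (q γ) * ‖(q γ).1 *ᵥ v‖ ≤ C * ‖v‖) ∧
          η γ i = 1 ∧ ‖η γ‖ ≤ 1 ∧ bf σ J (η γ) (η γ) = 0 ∧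
          nm (q γ) * ‖(q γ).1 *ᵥ η γ‖ ≤ C) →
        ∃ (G : Γ → C(ℙ k (Fin (N + 1) × Fin (N + 1) → k), ℂ))
          (B : Γ → Matrix (Fin (N + 1)) (Fin (N + 1)) k),
          (∀ γ ∈ S, (∀ v (hv : v ≠ 0), G γ (pj k (Fin (N + 1) × Fin (N + 1)) ⟨v, hv⟩) =
              ev F (H835.PlF.sq (B γ) *ᵥ v)) ∧
            ∀ x, ‖B γ *ᵥ x - (q γ).1 *ᵥ x‖ ≤ D * nm (q γ) * ‖bf σ J x (η γ)‖) ∧
          ∀ ξ : K, ∑ γ ∈ S, ‖b (act (q γ)⁻¹ a) (l (plH (G γ)) ξ)‖ ^ 2 ≤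
            C' * (1 + s) ^ 4 * ‖ξ‖ ^ 2 := by
  classical
  have hβ := hB.one_le
  have hβ0 : (0 : ℝ) < β := by linarith
  have hC0 : (0 : ℝ) < C := by linarith
  have hC1 : (1 : ℝ) ≤ C := by linarith
  obtain ⟨C₁, hC₁, hnf⟩ := nf0 hB hsy hC1
  set n : ℝ := ((Fintype.card (Fin (N + 1)) : ℕ) : ℝ) with hn
  have hn0 : 0 ≤ n := Nat.cast_nonneg _
  have hC₁0 : (0 : ℝ) < C₁ := by linarith
  set C₂ : ℝ := Real.exp 1 * (2 * C₁) with hC₂
  have he1 : (1 : ℝ) ≤ Real.exp 1 := Real.one_le_exp zero_le_one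
  have hC₂1 : 2 * C₁ ≤ C₂ := le_mul_of_one_le_left (by positivity) he1
  obtain ⟨Ck, hCk, hk2⟩ := hk (ι := Fin (N + 1)) K hφ C₂ (by linarith)
  refine ⟨(1 + C₁) * (n * C₁), by positivity, fun a => ?_⟩
  obtain ⟨M₀, hM₀⟩ := hud (6 * β ^ 8 * C ^ 4)
  set Nc : ℝ := Real.sqrt M₀ * ‖a‖ with hNc
  have hNc0 : 0 ≤ Nc := by positivity
  refine ⟨(Ck * Nc) ^ 2, ⌈Real.log (2 * C₁)⌉₊, by positivity, ?_⟩
  intro s i S η hs hS
  -- sizes
  have hsz : 2 * C₁ ≤ Real.exp s := by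
    have h1 : Real.log (2 * C₁) ≤ s := (Nat.le_ceil _).trans (by exact_mod_cast hs)
    exact (Real.log_le_iff_le_exp (by positivity)).1 h1
  set r : ℝ := Real.exp (-s) with hr
  have hr0 : 0 < r := Real.exp_pos _
  have hs0 : (0 : ℝ) ≤ s := Nat.cast_nonneg _
  have hr1 : r ≤ 1 := Real.exp_le_one_iff.2 (by linarith)
  have hrs : C₁ * r ≤ 1 / 2 := by
    rw [hr, Real.exp_neg, ← div_eq_mul_inv, div_le_iff₀ (Real.exp_pos _)]
    linarith
  have hMi : ∀ γ ∈ S, 1 ≤ nm (q γ) ∧ (nm (q γ))⁻¹ ≤ r ∧ r ≤ Real.exp 1 * (nm (q γ))⁻¹ := by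
    intro γ hγ
    obtain ⟨-, -, h1, h2, -⟩ := hS γ hγ
    have h0 : 0 < nm (q γ) := (Real.exp_pos _).trans_le h1
    refine ⟨(Real.one_le_exp hs0).trans h1, ?_, ?_⟩
    · rw [hr, Real.exp_neg]
      exact inv_anti₀ (Real.exp_pos _) h1
    · rw [hr, Real.exp_neg, ← div_eq_mul_inv, le_div_iff₀ h0, inv_mul_le_iff₀ (Real.exp_pos _),
        ← Real.exp_add]
      exact h2
  -- the data of the elements
  have hdat : ∀ γ, ∃ (ϖ : k) (w h : Fin (N + 1) → k)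
      (A A' : Matrix (Fin (N + 1)) (Fin (N + 1)) k), γ ∈ S →
      η γ i = 1 ∧ ‖η γ‖ ≤ 1 ∧ ϖ ≠ 0 ∧
      (nm (q γ))⁻¹ ≤ C₁ * ‖ϖ‖ ∧ ‖ϖ‖ ≤ C₁ * (nm (q γ))⁻¹ ∧
      ‖h‖ ≤ C₁ ∧ A' * A = 1 ∧ (∀ a b, ‖A a b‖ ≤ C₁ ∧ ‖A' a b‖ ≤ C₁) ∧
      (∀ x, (A * Dm i (η γ) ϖ) *ᵥ x =
        (q γ).1 *ᵥ x + ((ϖ - 1) * bf σ J x (η γ)) • ((q γ).1 *ᵥ h)) ∧
      ∀ v, v ≠ 0 → nm (q γ) * ‖(q γ).1 *ᵥ v‖ ≤ C * ‖v‖ →
        ‖v - v i • η γ‖ ≤ C₁ * (nm (q γ))⁻¹ * ‖v‖ := by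
    intro γ
    by_cases hγ : γ ∈ S
    · obtain ⟨-, h1, h2, h3, h4, h5, h6, h6', h7⟩ := hS γ hγ
      have hinv : (q γ).1 * ((q γ)⁻¹).1 = 1 := by
        rw [← Matrix.SpecialLinearGroup.coe_mul, mul_inv_cancel]
        rfl
      obtain ⟨ϖ, w, h, A, A', a1, a2, a3, a4, a5, a6, a7, a8, a9, a10, a11⟩ :=
        hnf (nm (q γ)) (q γ).1 ((q γ)⁻¹).1 i (η γ) (hMi γ hγ).1 h1 hinv h5 h6 h6' h7
      exact ⟨ϖ, w, h, A, A', fun _ => ⟨h5, h6, a1, a2, a3, a6, a7, a9, a10, a11⟩⟩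
    · exact ⟨0, 0, 0, 0, 0, fun h => (hγ h).elim⟩
  choose ϖ w h A A' hdat using hdat
  have hG : ∀ γ, ∃ G : C(ℙ k (Fin (N + 1) × Fin (N + 1) → k), ℂ), γ ∈ S →
      ∀ v (hv : v ≠ 0), G (pj k (Fin (N + 1) × Fin (N + 1)) ⟨v, hv⟩) =
        ev F (H835.PlF.sq (A γ * Dm i (η γ) (ϖ γ)) *ᵥ v) := by
    intro γ
    by_cases hγ : γ ∈ S
    · obtain ⟨e1, -, e4, -, -, -, e10, -⟩ := hdat γ hγ
      have h1 : (Dm i (η γ) (ϖ γ)⁻¹ * A' γ) * (A γ * Dm i (η γ) (ϖ γ)) = 1 := by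
        calc _ = Dm i (η γ) (ϖ γ)⁻¹ * (A' γ * A γ) * Dm i (η γ) (ϖ γ) := by
              simp only [Matrix.mul_assoc]
          _ = 1 := by rw [e10, Matrix.mul_one, Dm_mul i e1, inv_mul_cancel₀ e4, Dm_one]
      have h2 : H835.PlF.sq (Dm i (η γ) (ϖ γ)⁻¹ * A' γ) * H835.PlF.sq (A γ * Dm i (η γ) (ϖ γ)) = 1 := by
        change ((Dm i (η γ) (ϖ γ)⁻¹ * A' γ) ⊗ₖ (Dm i (η γ) (ϖ γ)⁻¹ * A' γ)) *
          ((A γ * Dm i (η γ) (ϖ γ)) ⊗ₖ (A γ * Dm i (η γ) (ϖ γ))) = 1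
        rw [← Matrix.mul_kronecker_mul, h1, Matrix.one_kronecker_one]
      obtain ⟨G, g2⟩ := exists_G' F h2
      exact ⟨G, fun _ => g2⟩
    · exact ⟨0, fun h => (hγ h).elim⟩
  choose G hG using hG
  -- the matrices are injective
  have hinj : ∀ γ ∈ S, ∀ v : Fin (N + 1) × Fin (N + 1) → k, v ≠ 0 →
      H835.PlF.sq (A γ * Dm i (η γ) (ϖ γ)) *ᵥ v ≠ 0 := by
    intro γ hγ v hv h0
    obtain ⟨e1, -, e4, -, -, -, e10, -⟩ := hdat γ hγ
    have h1 : (Dm i (η γ) (ϖ γ)⁻¹ * A' γ) * (A γ * Dm i (η γ) (ϖ γ)) = 1 := by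
      calc _ = Dm i (η γ) (ϖ γ)⁻¹ * (A' γ * A γ) * Dm i (η γ) (ϖ γ) := by
            simp only [Matrix.mul_assoc]
        _ = 1 := by rw [e10, Matrix.mul_one, Dm_mul i e1, inv_mul_cancel₀ e4, Dm_one]
    have h2 : H835.PlF.sq (Dm i (η γ) (ϖ γ)⁻¹ * A' γ) * H835.PlF.sq (A γ * Dm i (η γ) (ϖ γ)) = 1 := by
      change ((Dm i (η γ) (ϖ γ)⁻¹ * A' γ) ⊗ₖ (Dm i (η γ) (ϖ γ)⁻¹ * A' γ)) *
        ((A γ * Dm i (η γ) (ϖ γ)) ⊗ₖ (A γ * Dm i (η γ) (ϖ γ))) = 1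
      rw [← Matrix.mul_kronecker_mul, h1, Matrix.one_kronecker_one]
    apply hv
    rw [← Matrix.one_mulVec v, ← h2, ← Matrix.mulVec_mulVec, h0, Matrix.mulVec_zero]
  refine ⟨G, fun γ => A γ * Dm i (η γ) (ϖ γ), fun γ hγ => ⟨hG γ hγ, fun x => ?_⟩, fun ξ => ?_⟩
  · obtain ⟨e1, e2, e4, e5, e6, e9, e10, e11, e12, e13⟩ := hdat γ hγ
    obtain ⟨m0, -, -⟩ := hMi γ hγ
    have hM0 : 0 < nm (q γ) := by linarith
    rw [e12, add_sub_cancel_left, norm_smul, norm_mul]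
    have h1 : ‖ϖ γ - 1‖ ≤ 1 + C₁ := by
      have h2 := norm_sub_le (ϖ γ) 1
      rw [norm_one] at h2
      have h3 : C₁ * (nm (q γ))⁻¹ ≤ C₁ * 1 := by
        gcongr
        exact inv_le_one_of_one_le₀ m0
      linarith
    have h2 : ‖(q γ).1 *ᵥ h γ‖ ≤ n * nm (q γ) * C₁ :=
      (norm_mulVec_le hM0.le (le_nm (q γ)) _).trans (by gcongr)
    calc ‖ϖ γ - 1‖ * ‖bf σ J x (η γ)‖ * ‖(q γ).1 *ᵥ h γ‖
        ≤ (1 + C₁) * ‖bf σ J x (η γ)‖ * (n * nm (q γ) * C₁) := by gcongr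
      _ = _ := by ring
  -- measurable structures
  letI m1 : MeasurableSpace (YY k N) := borel _
  haveI b1 : BorelSpace (YY k N) := ⟨rfl⟩
  letI m2 : MeasurableSpace (Gr k (Fin (N + 1)) 2) := borel _
  haveI b2 : BorelSpace (Gr k (Fin (N + 1)) 2) := ⟨rfl⟩
  letI m4 : MeasurableSpace (ℙ k (Fin (N + 1) × Fin (N + 1) → k)) := borel _
  haveI b4 : BorelSpace (ℙ k (Fin (N + 1) × Fin (N + 1) → k)) := ⟨rfl⟩
  obtain ⟨sc, hσm, hσn, hσ⟩ := H44.exists_sec k (Fin (N + 1))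
  obtain ⟨τ, hτm, hτn, hτ⟩ := H44.exists_sec k (Fin (N + 1) × Fin (N + 1))
  set p2 : Gr k (Fin (N + 1)) 2 → Fin (N + 1) × Fin (N + 1) → k := fun y => τ (plk y) with hp2
  have hp2m : Measurable p2 := hτm.comp plk_cont.measurable
  have hp2y : ∀ y : Gr k (Fin (N + 1)) 2, ∃ h : p2 y ≠ 0,
      plk y = Projectivization.mk k (p2 y) h := by
    intro y
    obtain ⟨h, e⟩ := hτ (plk y)
    exact ⟨h, e.symm⟩
  have hI1 : IsClosed {x : YY k N × Gr k (Fin (N + 1)) 2 | (p1 x.1).1 ≤ x.2.1} :=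
    H644.Gr3.p1_le_closed
  have hCI : ∀ (x : CY k N →⋆ₐ[ℂ] (K →L[ℂ] K)) (y : CG k N 2 →⋆ₐ[ℂ] (K →L[ℂ] K)), PLy x y →
      CI (fun (a : YY k N) (b : Gr k (Fin (N + 1)) 2) => (p1 a).1 ≤ b.1)
        (H466.pv x) (H466.pv y) := fun x y h =>
    H604.pv_CI x y hI1 (fun f g => h.com f g) fun f g hfg => h.inc f g hfg
  have hcapS : Cap S (fun γ => b (act (q γ)⁻¹ a)) Nc := by
    intro v
    rw [hNc, mul_pow, Real.sq_sqrt (Nat.cast_nonneg _)]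
    refine H218.sum_sq_le b S (fun γ => act (q γ)⁻¹ a) (by positivity) (fun y => ?_) v
    have hcard : (S.filter fun γ => q γ • y ∈ tsupport a).card ≤ M₀ := by
      refine hM₀ _ (fun γ hγ => (hS γ (Finset.mem_filter.1 hγ).1).1) fun γ hγ γ' hγ' => ?_
      obtain ⟨hγ1, hγ2⟩ := Finset.mem_filter.1 hγ
      obtain ⟨hγ1', hγ2'⟩ := Finset.mem_filter.1 hγ'
      obtain ⟨-, h1, h2, h3, h4, -⟩ := hS γ hγ1
      obtain ⟨-, h1', h2', h3', h4', -⟩ := hS γ' hγ1'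
      have hp := (Real.exp_pos s).trans_le h2
      have hp' := (Real.exp_pos s).trans_le h2'
      have he3 : Real.exp (s + 1) ≤ C * Real.exp s := by
        rw [Real.exp_add, mul_comm]
        have := Real.exp_one_lt_d9
        have h9 : Real.exp 1 ≤ C := by linarith
        exact mul_le_mul_of_nonneg_right h9 (Real.exp_pos _).le
      rw [← y.mk_rep] at hγ2 hγ2'
      refine nm_le (by positivity) fun i j => ?_
      change ‖((q γ').1 * ((q γ)⁻¹).1) i j‖ ≤ _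
      refine cap_pt hB hC1 hp hp' h1 h1' (h3.trans (he3.trans (by gcongr)))
        (h3'.trans (he3.trans (by gcongr))) y.rep_nonzero (h4 _ y.rep_nonzero hγ2)
        (h4' _ y.rep_nonzero hγ2') ?_ (h' := ((q γ')⁻¹).1) ?_ i j
      · rw [← Matrix.SpecialLinearGroup.coe_mul, mul_inv_cancel]
        rfl
      · rw [← Matrix.SpecialLinearGroup.coe_mul, mul_inv_cancel]
        rfl
    have hsum : ∑ γ ∈ S, ‖act (q γ)⁻¹ a y‖ ^ 2 ≤
        ∑ γ ∈ S.filter (fun γ => q γ • y ∈ tsupport a), ‖a‖ ^ 2 := by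
      rw [Finset.sum_filter]
      refine Finset.sum_le_sum fun γ hγ => ?_
      have e : act (q γ)⁻¹ a y = a (q γ • y) := by
        change a ((q γ)⁻¹⁻¹ • y) = _
        rw [_root_.inv_inv]
      rw [e]
      split_ifs with hc
      · exact pow_le_pow_left₀ (norm_nonneg _) (a.norm_coe_le_norm _) 2
      · rw [image_eq_zero_of_notMem_tsupport hc, norm_zero, zero_pow two_ne_zero]
    refine hsum.trans ?_
    rw [Finset.sum_const, nsmul_eq_mul]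
    have h5 : ((S.filter fun γ => q γ • y ∈ tsupport a).card : ℝ) ≤ M₀ := by
      exact_mod_cast hcard
    gcongr
  have key := hk2 (YY k N) (Gr k (Fin (N + 1)) 2) sc p2 hσm hp2m
    (fun x => hσn _) (fun y => hτn _)
    (fun y => by
      obtain ⟨h, e⟩ := hp2y y
      exact rep_alt (hω := h) e)
    (fun x y => (p1 x).1 ≤ y.1)
    (fun x y hxy => by
      obtain ⟨h, e⟩ := hp2y y
      obtain ⟨h', e'⟩ := hσ x
      refine (mem_iff (hω := h) e).1 (hxy ?_)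
      have h3 : (p1 x).1 = Submodule.span k {sc x} := by
        rw [← H644.Gr3.p1_mk (sc x) h', e']
      rw [h3]
      exact Submodule.mem_span_singleton_self (R := k) (sc x))
    (H466.pv b) (H466.pv z) (H466.pv l) (H466.pv ν) (H604.pv_Pv b) (H604.pv_Pv z)
    (H604.pv_Pv l) (H604.pv_Pv ν) (hCI b ν hbν) (hCI z ν hzν) (hCI z l hzl)
    Γ S i η ϖ A A' r hr0 hr1 (fun γ hγ => (hdat γ hγ).1)
    (fun γ hγ => ((hdat γ hγ).2.1).trans (by linarith))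
    (fun γ hγ => by
      obtain ⟨-, -, -, a2, a3, -⟩ := hdat γ hγ
      obtain ⟨-, m1, m2⟩ := hMi γ hγ
      have h4 := norm_nonneg (ϖ γ)
      constructor
      · calc r ≤ Real.exp 1 * (nm (q γ))⁻¹ := m2
          _ ≤ Real.exp 1 * (C₁ * ‖ϖ γ‖) := by gcongr
          _ ≤ Real.exp 1 * (2 * C₁ * ‖ϖ γ‖) := by gcongr; linarith
          _ = C₂ * ‖ϖ γ‖ := by rw [hC₂]; ring
      · calc ‖ϖ γ‖ ≤ C₁ * (nm (q γ))⁻¹ := a3
          _ ≤ C₁ * r := by gcongr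
          _ ≤ C₂ * r := by gcongr; linarith)
    (fun γ hγ => by
      obtain ⟨-, -, -, -, -, -, e10, -⟩ := hdat γ hγ
      exact e10)
    (fun γ hγ a b => by
      obtain ⟨-, -, -, -, -, -, -, e11, -⟩ := hdat γ hγ
      exact ⟨(e11 a b).1.trans (by linarith), (e11 a b).2.trans (by linarith)⟩)
    (fun γ => tsupport (act (q γ)⁻¹ a)) (fun γ _ => (isClosed_tsupport _).measurableSet)
    (fun γ hγ x hx => by
      obtain ⟨e1, e2, -, -, -, -, -, -, -, e13⟩ := hdat γ hγ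
      obtain ⟨m0, m1, m2⟩ := hMi γ hγ
      obtain ⟨h', e'⟩ := hσ x
      have hxm : q γ • x ∈ tsupport a := tsupport_actY (q γ) a hx
      rw [← e'] at hxm
      have h1 := e13 (sc x) h' ((hS γ hγ).2.2.2.2.1 (sc x) h' hxm)
      have hn1 : ‖sc x‖ ≤ 1 := (hσn x).1
      obtain ⟨t, ht⟩ := (hσn x).2
      have hn2 : 1 ≤ ‖sc x‖ := by
        have := norm_le_pi_norm (sc x) t
        rwa [ht, norm_one] at this
      have hn3 : ‖sc x‖ = 1 := le_antisymm hn1 hn2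
      rw [hn3, mul_one] at h1
      have h2 : ‖sc x - sc x i • η γ‖ ≤ C₁ * r := h1.trans (by gcongr)
      have hη1 : ‖η γ‖ ≤ 1 := e2
      have h3 : 1 / 2 ≤ ‖sc x i‖ := by
        have h4 : ‖sc x‖ ≤ ‖sc x - sc x i • η γ‖ + ‖sc x i • η γ‖ := by
          have := norm_add_le (sc x - sc x i • η γ) (sc x i • η γ)
          rwa [sub_add_cancel] at this
        rw [hn3, norm_smul] at h4
        have h5 : ‖sc x i‖ * ‖η γ‖ ≤ ‖sc x i‖ * 1 := by gcongr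
        linarith
      have h6 : sc x i ≠ 0 := by
        intro h0
        rw [h0, norm_zero] at h3
        norm_num at h3
      refine ⟨h6, ?_⟩
      have h7 : (sc x i)⁻¹ • sc x - η γ = (sc x i)⁻¹ • (sc x - sc x i • η γ) := by
        rw [smul_sub, smul_smul, inv_mul_cancel₀ h6, one_smul]
      rw [h7, norm_smul, norm_inv]
      have h8 : ‖sc x i‖⁻¹ ≤ 2 := by
        rw [inv_le_comm₀ (by positivity) two_pos]
        linarith
      calc ‖sc x i‖⁻¹ * ‖sc x - sc x i • η γ‖ ≤ 2 * (C₁ * r) := by gcongr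
        _ = (2 * C₁) * r := by ring
        _ ≤ C₂ * r := by gcongr)
    (fun γ hγ => by
      have h1 : {y : Gr k (Fin (N + 1)) 2 | ∃ x ∈ tsupport (act (q γ)⁻¹ a), (p1 x).1 ≤ y.1} =
          Prod.snd '' ({x : YY k N × Gr k (Fin (N + 1)) 2 | (p1 x.1).1 ≤ x.2.1} ∩
            (Prod.fst ⁻¹' tsupport (act (q γ)⁻¹ a))) := by
        ext y
        constructor
        · rintro ⟨x, hx, hxy⟩
          exact ⟨(x, y), ⟨hxy, hx⟩, rfl⟩
        · rintro ⟨⟨x, y'⟩, ⟨hxy, hx⟩, rfl⟩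
          exact ⟨x, hx, hxy⟩
      rw [h1]
      exact (isClosedMap_snd_of_compactSpace _ (hI1.inter
        ((isClosed_tsupport _).preimage continuous_fst))).measurableSet)
    (fun γ => b (act (q γ)⁻¹ a)) (fun γ => l (plH (G γ)))
    (fun γ y => φ (H835.PlF.sq (A γ * Dm i (η γ) (ϖ γ)) *ᵥ p2 y)) Nc hNc0
    (fun γ _ => H466.phi_pv_supp b (isClosed_tsupport _).measurableSet
      fun x hx => image_eq_zero_of_notMem_tsupport hx)
    (fun γ _ A _ => H466.pv_commute ν (fun g => hbν.com _ g) A)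
    hcapS
    (fun γ hγ y => rfl)
    (fun γ hγ => by
      have e : (fun y => φ (H835.PlF.sq (A γ * Dm i (η γ) (ϖ γ)) *ᵥ p2 y)) =
          (plH (G γ) : Gr k (Fin (N + 1)) 2 → ℂ) := by
        funext y
        obtain ⟨h, e⟩ := hp2y y
        change _ = G γ (plk y)
        rw [e]
        have h9 := hG γ hγ _ h
        rw [ev_ne F (hinj γ hγ _ h), hFφ] at h9
        exact h9.symm
      rw [e]
      exact (ContinuousMap.continuous _).measurable)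
    (fun γ hγ => by
      have e : (fun y => φ (H835.PlF.sq (A γ * Dm i (η γ) (ϖ γ)) *ᵥ p2 y)) =
          (plH (G γ) : Gr k (Fin (N + 1)) 2 → ℂ) := by
        funext y
        obtain ⟨h, e⟩ := hp2y y
        change _ = G γ (plk y)
        rw [e]
        have h9 := hG γ hγ _ h
        rw [ev_ne F (hinj γ hγ _ h), hFφ] at h9
        exact h9.symm
      rw [e]
      exact H890.Opf.opf_of K _ l _)
    (fun γ _ A _ => H466.pv_commute z (fun g => (hzl.com g _).symm) A)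
  have h1 := key ξ
  refine le_trans (le_of_eq ?_) (h1.trans (le_of_eq ?_))
  · rfl
  · have e2 : Real.log (1 / r) = s := by
      rw [hr, one_div, ← Real.exp_neg, neg_neg, Real.log_exp]
    rw [e2]
    ring

end shell

end Vale.Agent.P092.H589.P4
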