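import Vale.Agent.P092.H589.P4b

/-!
P092, count half of KEY_0 over EVERY local field (helper589), part c: one shell, by localising with
the calculus `p` of a common singular space.
-/

set_option linter.all false

namespace Vale.Agent.P092.H589.P4

open Matrix
open scoped LinearAlgebra.Projectivization Kronecker
open Vale.Agent.P092.SN
open Vale.Agent.P092.RC (GG YY)
open Vale.Agent.P092.H100.Gr (Gr)
open Vale.Agent.P092.H644.Gr3 (p1)
open Vale.Agent.P092.H789.S2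
open Vale.Agent.P092.H820 (pj pj_surj pj_continuous pj_eq pj_open pj_oq wd)
open Vale.Agent.P092.H835.PlF (sq_wd)
open Vale.Agent.P092.H835.PlGr (plk plk_cont plk_smul lam2 lam2_smul rep_line rep_alt mem_iff plH)
open Vale.Agent.P092.H890 (ev ev_ne ev_scale)
open Vale.Agent.P092.H589.K2 (Tame Nrm)
open Vale.Agent.P092.H589.P2 (PLy nm_le le_nm tsupport_actY smul_mk norm_mulVec_le exists_max)

variable {k : Type} [NontriviallyNormedField k] [ProperSpace k] {N : ℕ}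

/-- the entries of the inverse -/
theorem inv_le {σ : k →+* k} {J : Matrix (Fin (N + 1)) (Fin (N + 1)) k} {β : ℝ} (hB : Bd σ J β)
    {g : GG k N} (iso : Iso σ J g.1) {M : ℝ} (hM : 0 ≤ M) (hg : ∀ i j, ‖g.1 i j‖ ≤ M)
    (i j : Fin (N + 1)) : ‖(g⁻¹).1 i j‖ ≤ β ^ 2 * M := by
  have hβ := hB.one_le
  have hβ0 : (0 : ℝ) < β := by linarith
  have e1 : g.1 *ᵥ ((g⁻¹).1 *ᵥ ee j) = ee j := by
    rw [Matrix.mulVec_mulVec, ← Matrix.SpecialLinearGroup.coe_mul, mul_inv_cancel]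
    exact Matrix.one_mulVec _
  have h1 := hB.lo ((g⁻¹).1 *ᵥ ee j) (β * M) (by positivity) (fun i => by
    rw [← iso.bf, e1]
    refine (hB.up _ _).trans ?_
    have h2 := norm_ee (k := k) j
    have h3 := norm_mulVec_ee hM hg i
    calc β * ‖(ee j : Fin (N + 1) → k)‖ * ‖g.1 *ᵥ ee i‖ ≤ β * 1 * M := by gcongr
      _ = _ := by ring)
  rw [← mulVec_ee (g⁻¹).1 j i]
  refine (norm_le_pi_norm _ i).trans (h1.trans (le_of_eq ?_))
  ring

/-- comparison of `f ∘ g` and its normal form on one line -/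
theorem line_cmp {F : C(ℙ k (Fin (N + 1) × Fin (N + 1) → k), ℂ)} {M ε δ : ℝ}
    (hap : ∀ (g g' B : Matrix (Fin (N + 1)) (Fin (N + 1)) k), (∀ a b, ‖g a b‖ ≤ M) →
      (∀ a b, ‖g' a b‖ ≤ M) → g' * g = 1 → ∀ u v : Fin (N + 1) → k, ‖u‖ * ‖v‖ ≤ ‖wd u v‖ →
      wd u v ≠ 0 → ‖B *ᵥ u - g *ᵥ u‖ ≤ δ * ‖u‖ → ‖B *ᵥ v - g *ᵥ v‖ ≤ δ * ‖v‖ →
      ‖ev F (H835.PlF.sq B *ᵥ wd u v) - ev F (H835.PlF.sq g *ᵥ wd u v)‖ ≤ ε)
    {g : GG k N} (hg : ∀ a b, ‖g.1 a b‖ ≤ M) (hg' : ∀ a b, ‖(g⁻¹).1 a b‖ ≤ M)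
    {G : C(ℙ k (Fin (N + 1) × Fin (N + 1) → k), ℂ)} {B : Matrix (Fin (N + 1)) (Fin (N + 1)) k}
    (hG : ∀ v (hv : v ≠ 0), G (pj k (Fin (N + 1) × Fin (N + 1)) ⟨v, hv⟩) =
      ev F (H835.PlF.sq B *ᵥ v)) (L : Gr k (Fin (N + 1)) 2)
    (hL : ∀ y ∈ L.1, ‖B *ᵥ y - g.1 *ᵥ y‖ ≤ δ * ‖y‖) :
    ‖(actG g⁻¹ (plH F) - plH G) L‖ ≤ ε := by
  obtain ⟨ω, hω⟩ := pj_surj (plk L)
  obtain ⟨x₁, hx₁, hx₁0⟩ : ∃ x₁ ∈ L.1, x₁ ≠ 0 := by
    refine Submodule.exists_mem_ne_zero_of_ne_bot fun hbot => ?_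
    have := L.2
    rw [hbot, finrank_bot] at this
    omega
  obtain ⟨y₁, hy₁, hωe⟩ := rep_line (hω := ω.2) hω.symm hx₁0 hx₁
  obtain ⟨⟨a, b⟩, hab⟩ := exists_max ω.1
  have hω0 : 0 < ‖ω.1‖ := norm_pos_iff.2 ω.2
  have hc0 : ω.1 (a, b) ≠ 0 := norm_pos_iff.1 (by rw [hab]; exact hω0)
  obtain ⟨u, hu⟩ : ∃ u : Fin (N + 1) → k, u = fun c => ω.1 (c, b) := ⟨_, rfl⟩
  obtain ⟨v, hv⟩ : ∃ v : Fin (N + 1) → k, v = fun c => ω.1 (a, c) := ⟨_, rfl⟩
  have huv : wd u v = ω.1 (a, b) • ω.1 := by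
    rw [hu, hv, hωe]
    exact basis_wd x₁ y₁ a b
  have huL : u ∈ L.1 := by
    have e : u = y₁ b • x₁ - x₁ b • y₁ := by
      rw [hu, hωe]
      funext c
      simp only [wd, Pi.sub_apply, Pi.smul_apply, smul_eq_mul]
      ring
    rw [e]
    exact L.1.sub_mem (L.1.smul_mem _ hx₁) (L.1.smul_mem _ hy₁)
  have hvL : v ∈ L.1 := by
    have e : v = x₁ a • y₁ - y₁ a • x₁ := by
      rw [hv, hωe]
      funext c
      simp only [wd, Pi.sub_apply, Pi.smul_apply, smul_eq_mul]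
      ring
    rw [e]
    exact L.1.sub_mem (L.1.smul_mem _ hy₁) (L.1.smul_mem _ hx₁)
  have hun : ‖u‖ ≤ ‖ω.1‖ := by
    rw [hu]
    exact (pi_norm_le_iff_of_nonneg hω0.le).2 fun c => norm_le_pi_norm ω.1 (c, b)
  have hvn : ‖v‖ ≤ ‖ω.1‖ := by
    rw [hv]
    exact (pi_norm_le_iff_of_nonneg hω0.le).2 fun c => norm_le_pi_norm ω.1 (a, c)
  have hnn : ‖u‖ * ‖v‖ ≤ ‖wd u v‖ := by
    rw [huv, norm_smul, hab]
    gcongr
  have hne : wd u v ≠ 0 := by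
    rw [huv]
    exact smul_ne_zero hc0 ω.2
  have hinv : (g⁻¹).1 * g.1 = 1 := by
    rw [← Matrix.SpecialLinearGroup.coe_mul, inv_mul_cancel]
    rfl
  have h1 := hap g.1 (g⁻¹).1 B hg hg' hinv u v hnn hne (hL u huL) (hL v hvL)
  rw [huv, Matrix.mulVec_smul, Matrix.mulVec_smul, ev_scale F hc0, ev_scale F hc0] at h1
  have e1 : (actG g⁻¹ (plH F) - plH G) L =
      ev F (H835.PlF.sq g.1 *ᵥ ω.1) - ev F (H835.PlF.sq B *ᵥ ω.1) := by
    change F (plk ((g⁻¹)⁻¹ • L)) - G (plk L) = _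
    rw [_root_.inv_inv, plk_smul, ← hω, hG]
    have hne : lam2 g • ω.1 ≠ 0 := (smul_ne_zero_iff_ne _).2 ω.2
    have h1 : (lam2 g • pj k (Fin (N + 1) × Fin (N + 1)) ω) =
      pj k (Fin (N + 1) × Fin (N + 1)) ⟨lam2 g • ω.1, hne⟩ := rfl
    rw [h1, ← ev_ne F hne, lam2_smul]
  rw [e1, norm_sub_rev]
  exact h1

/-- **One shell, every local field.** -/
theorem shellR [MeasurableSpace k] [BorelSpace k] (hk : H914.K2Stmt k)
    {σ : k →+* k} {J : Matrix (Fin (N + 1)) (Fin (N + 1)) k} {β : ℝ} (hB : Bd σ J β)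
    (hsy : ∀ x y, ‖bf σ J x y‖ = ‖bf σ J y x‖)
    {Γ K : Type} [NormedAddCommGroup K] [InnerProductSpace ℂ K] [CompleteSpace K]
    (q : Γ → GG k N) {Z : Set Γ} (hud : UD q Z)
    (b z : CY k N →⋆ₐ[ℂ] (K →L[ℂ] K)) (l ν : CG k N 2 →⋆ₐ[ℂ] (K →L[ℂ] K))
    (hbν : PLy b ν) (hzν : PLy z ν) (hzl : PLy z l)
    {W : Type} [TopologicalSpace W] [CompactSpace W] [T2Space W]
    (Sp : W → Submodule k (Fin (N + 1) → k))
    (hR : IsClosed {z : YY k N × W | (p1 z.1).1 ≤ Sp z.2})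
    (hsg : ∀ w, ∀ x ∈ Sp w, ∀ y ∈ Sp w, bf σ J x y = 0)
    (p : C(W, ℂ) →⋆ₐ[ℂ] (K →L[ℂ] K))
    (cbp : ∀ f g, Commute (b f) (p g)) (ibp : ∀ (f : CY k N) (g : C(W, ℂ)),
      (∀ x ∈ tsupport f, ∀ w ∈ tsupport g, ¬ (p1 x).1 ≤ Sp w) → b f * p g = 0)
    (clp : ∀ f g, Commute (l f) (p g)) (ilp : ∀ (f : CG k N 2) (g : C(W, ℂ)),
      (∀ L ∈ tsupport f, ∀ w ∈ tsupport g, ¬ L.1 ≤ Sp w) → l f * p g = 0)
    {F : C(ℙ k (Fin (N + 1) × Fin (N + 1) → k), ℂ)}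
    {φ : (Fin (N + 1) × Fin (N + 1) → k) → ℂ} (hφ : Tame K φ)
    (hFφ : ∀ v (hv : v ≠ 0), F (pj k (Fin (N + 1) × Fin (N + 1)) ⟨v, hv⟩) = φ v) {C : ℝ}
    (hC : 3 ≤ C) (a : CY k N) :
    ∃ (C' : ℝ) (s₀ : ℕ), 0 ≤ C' ∧ ∀ (s : ℕ) (S : Finset Γ), s₀ ≤ s →
      (∀ γ ∈ S, γ ∈ Z ∧ NW σ J C (nm (q γ)) (q γ).1 ∧ Real.exp s ≤ nm (q γ) ∧
        nm (q γ) ≤ Real.exp (s + 1) ∧
        (∀ v (hv : v ≠ 0), q γ • Projectivization.mk k v hv ∈ tsupport a →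
          nm (q γ) * ‖(q γ).1 *ᵥ v‖ ≤ C * ‖v‖)) →
      ∀ ξ : K, ∑ γ ∈ S, ‖b (act (q γ)⁻¹ a) (l (actG (q γ)⁻¹ (plH F)) ξ)‖ ^ 2 ≤
        C' * (1 + s) ^ 4 * ‖ξ‖ ^ 2 := by
  classical
  have hβ := hB.one_le
  have hβ0 : (0 : ℝ) < β := by linarith
  have hC0 : (0 : ℝ) < C := by linarith
  obtain ⟨D, hD, hu⟩ := unitE hk hB hsy q hud b z l ν hbν hzν hzl hφ hFφ hC
  obtain ⟨C', s₀, hC', hu⟩ := hu a
  refine ⟨2 * ((N + 1 : ℕ) : ℝ) * C', s₀, by positivity, fun s S hs hS ξ => ?_⟩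
  have hs0 : (0 : ℝ) ≤ s := Nat.cast_nonneg _
  -- it is enough to lose an epsilon
  have key : ∀ ε > 0, ∑ γ ∈ S, ‖b (act (q γ)⁻¹ a) (l (actG (q γ)⁻¹ (plH F)) ξ)‖ ^ 2 ≤
      (2 * ((N + 1 : ℕ) : ℝ) * C' * (1 + s) ^ 4 + 2 * S.card * (‖a‖ * ε) ^ 2) * ‖ξ‖ ^ 2 := by
    intro ε hε
    obtain ⟨M, hM⟩ : ∃ M : ℝ, M = β ^ 2 * Real.exp (s + 1) := ⟨_, rfl⟩
    have hM0 : 0 < M := by rw [hM]; positivity
    have hexpM : Real.exp (s + 1) ≤ M := by
      rw [hM]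
      exact le_mul_of_one_le_left (Real.exp_pos _).le (one_le_pow₀ hβ)
    have hgM : ∀ γ ∈ S, (∀ i j, ‖(q γ).1 i j‖ ≤ M) ∧ ∀ i j, ‖((q γ)⁻¹).1 i j‖ ≤ M := by
      intro γ hγ
      obtain ⟨-, h1, -, h3, -⟩ := hS γ hγ
      refine ⟨fun i j => ((le_nm (q γ) i j).trans h3).trans hexpM, fun i j => ?_⟩
      rw [hM]
      exact inv_le hB h1.iso (Real.exp_pos _).le (fun i j => (le_nm (q γ) i j).trans h3) i j
    obtain ⟨δ, hδ, hap⟩ := approx F hM0.le hε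
    obtain ⟨O, hO, hOd, hOc⟩ := exists_close (J := J) hB Sp (by
      have e : {z : ℙ k (Fin (N + 1) → k) × W | z.1.submodule ≤ Sp z.2} =
          {z : YY k N × W | (p1 z.1).1 ≤ Sp z.2} := by
        ext ⟨x, w⟩
        have h1 : (p1 x).1 = x.submodule := by
          have h2 := H644.Gr3.p1_mk x.rep x.rep_nonzero
          rw [Projectivization.mk_rep] at h2
          rw [h2, Projectivization.submodule_eq]
        change x.submodule ≤ Sp w ↔ (p1 x).1 ≤ Sp w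
        rw [h1]
      rw [e]
      exact hR) hsg (δ := δ / (D * M + 1)) (by positivity)
    obtain ⟨I, T, χ, hχ1, hχ2⟩ := exists_part hO hOd
    -- one piece
    have piece : ∀ i, ∑ γ ∈ S,
        ‖b (act (q γ)⁻¹ a) (l (actG (q γ)⁻¹ (plH F)) (p (χ i) ξ))‖ ^ 2 ≤
        (2 * ((N + 1 : ℕ) : ℝ) * C' * (1 + s) ^ 4 + 2 * S.card * (‖a‖ * ε) ^ 2) *
          ‖p (χ i) ξ‖ ^ 2 := by
      intro i
      obtain ⟨good, hgood⟩ : ∃ good : Γ → Prop, good = fun γ => ∃ (x : YY k N) (w : W),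
        w ∈ tsupport (χ i) ∧ (p1 x).1 ≤ Sp w ∧ q γ • x ∈ tsupport a := ⟨_, rfl⟩
      have hch : ∀ γ, ∃ (j : Fin (N + 1)) (e : Fin (N + 1) → k), γ ∈ S → good γ →
          e j = 1 ∧ ‖e‖ ≤ 1 ∧ bf σ J e e = 0 ∧ nm (q γ) * ‖(q γ).1 *ᵥ e‖ ≤ C ∧
          ∃ w ∈ tsupport (χ i), e ∈ Sp w := by
        intro γ
        by_cases hγ : γ ∈ S ∧ good γ
        · obtain ⟨hγS, hγg⟩ := hγ
          rw [hgood] at hγg
          obtain ⟨x, w, hw, hxw, hxa⟩ := hγg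
          obtain ⟨m, hm⟩ := exists_max x.rep
          have h0 : 0 < ‖x.rep‖ := norm_pos_iff.2 x.rep_nonzero
          have h1 : x.rep m ≠ 0 := norm_pos_iff.1 (by rw [hm]; exact h0)
          have h2 : (x.rep m)⁻¹ • x.rep ≠ 0 := smul_ne_zero (inv_ne_zero h1) x.rep_nonzero
          have h3 : ‖(x.rep m)⁻¹ • x.rep‖ ≤ 1 := by
            rw [norm_smul, norm_inv, hm, inv_mul_cancel₀ h0.ne']
          have h4 : x.rep ∈ Sp w := by
            refine hxw ?_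
            have h5 := H644.Gr3.p1_mk x.rep x.rep_nonzero
            rw [Projectivization.mk_rep] at h5
            rw [h5]
            exact Submodule.mem_span_singleton_self _
          have h5 : (x.rep m)⁻¹ • x.rep ∈ Sp w := (Sp w).smul_mem _ h4
          refine ⟨m, (x.rep m)⁻¹ • x.rep, fun _ _ => ⟨?_, h3, hsg w _ h5 _ h5, ?_, w, hw, h5⟩⟩
          · rw [Pi.smul_apply, smul_eq_mul, inv_mul_cancel₀ h1]
          · have e : Projectivization.mk k ((x.rep m)⁻¹ • x.rep) h2 = x := by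
              conv_rhs => rw [← x.mk_rep]
              exact (Projectivization.mk_eq_mk_iff' k _ _ _ _).2 ⟨_, rfl⟩
            refine ((hS γ hγS).2.2.2.2 _ h2 (by rw [e]; exact hxa)).trans ?_
            calc C * ‖(x.rep m)⁻¹ • x.rep‖ ≤ C * 1 := by gcongr
              _ = C := mul_one C
        · exact ⟨0, 0, fun h h' => (hγ ⟨h, h'⟩).elim⟩
      choose jj ee' hch using hch
      -- bad elements
      have hbad : ∀ γ ∈ S, ¬ good γ →
          b (act (q γ)⁻¹ a) (l (actG (q γ)⁻¹ (plH F)) (p (χ i) ξ)) = 0 := by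
        intro γ hγ hng
        have h1 : b (act (q γ)⁻¹ a) * p (χ i) = 0 := by
          refine ibp _ _ fun x hx w hw hxw => hng ?_
          rw [hgood]
          exact ⟨x, w, hw, hxw, tsupport_actY (q γ) a hx⟩
        have h2 : l (actG (q γ)⁻¹ (plH F)) (p (χ i) ξ) =
            p (χ i) (l (actG (q γ)⁻¹ (plH F)) ξ) :=
          congrArg (fun T : K →L[ℂ] K => T ξ) (clp (actG (q γ)⁻¹ (plH F)) (χ i)).eq
        rw [h2]
        exact congrArg (fun T : K →L[ℂ] K => T (l (actG (q γ)⁻¹ (plH F)) ξ)) h1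
      -- one pivot
      have hpiv : ∀ j : Fin (N + 1), ∑ γ ∈ S.filter (fun γ => good γ ∧ jj γ = j),
          ‖b (act (q γ)⁻¹ a) (l (actG (q γ)⁻¹ (plH F)) (p (χ i) ξ))‖ ^ 2 ≤
          2 * (C' * (1 + s) ^ 4 * ‖p (χ i) ξ‖ ^ 2) +
            2 * ((S.filter (fun γ => good γ ∧ jj γ = j)).card * (‖a‖ * ε) ^ 2 *
              ‖p (χ i) ξ‖ ^ 2) := by
        intro j
        obtain ⟨G, B, hGB, hest⟩ := hu s j (S.filter fun γ => good γ ∧ jj γ = j) ee' hs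
          (fun γ hγ => by
            obtain ⟨h1, h2, h3⟩ := Finset.mem_filter.1 hγ
            obtain ⟨a1, a2, a3, a4, a5⟩ := hS γ h1
            obtain ⟨c1, c2, c3, c4, -⟩ := hch γ h1 h2
            rw [h3] at c1
            exact ⟨a1, a2, a3, a4, a5, c1, c2, c3, c4⟩)
        have hterm : ∀ γ ∈ S.filter (fun γ => good γ ∧ jj γ = j),
            ‖b (act (q γ)⁻¹ a) (l (actG (q γ)⁻¹ (plH F)) (p (χ i) ξ))‖ ^ 2 ≤
            2 * ‖b (act (q γ)⁻¹ a) (l (plH (G γ)) (p (χ i) ξ))‖ ^ 2 +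
              2 * ((‖a‖ * ε) ^ 2 * ‖p (χ i) ξ‖ ^ 2) := by
          intro γ hγ
          obtain ⟨h1, h2, h3⟩ := Finset.mem_filter.1 hγ
          obtain ⟨hG, hBd⟩ := hGB γ hγ
          obtain ⟨g1, g2⟩ := hgM γ h1
          obtain ⟨-, c2, -, -, w, hw, hwe⟩ := hch γ h1 h2
          have hn1 : nm (q γ) ≤ M := ((hS γ h1).2.2.2.1).trans hexpM
          have hn0 : 0 < nm (q γ) := (Real.exp_pos _).trans_le (hS γ h1).2.2.1
          have hH : ∀ L : Gr k (Fin (N + 1)) 2, ∀ w' ∈ tsupport (χ i), L.1 ≤ Sp w' →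
              ‖(actG (q γ)⁻¹ (plH F) - plH (G γ)) L‖ ≤ ε := by
            intro L w' hw' hLw
            refine line_cmp hap g1 g2 hG L fun y hy => ?_
            have h4 := hOc w' w (hχ2 i w' hw' w hw) y (hLw hy) (ee' γ) hwe
            refine (hBd y).trans ?_
            calc D * nm (q γ) * ‖bf σ J y (ee' γ)‖
                ≤ D * M * (δ / (D * M + 1) * ‖y‖ * 1) := by
                  gcongr
                  exact h4.trans (by gcongr)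
              _ = (D * M / (D * M + 1)) * δ * ‖y‖ := by ring
              _ ≤ 1 * δ * ‖y‖ := by
                  gcongr
                  rw [div_le_one (by positivity)]
                  linarith
              _ = δ * ‖y‖ := by ring
          have h5 := norm_inc l p ilp hε.le hH ξ
          have h6 : l (actG (q γ)⁻¹ (plH F)) (p (χ i) ξ) = l (plH (G γ)) (p (χ i) ξ) +
              l (actG (q γ)⁻¹ (plH F) - plH (G γ)) (p (χ i) ξ) := by
            rw [map_sub, ContinuousLinearMap.sub_apply, add_sub_cancel]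
          have h7 : ‖b (act (q γ)⁻¹ a)‖ ≤ ‖a‖ := by
            refine (NonUnitalStarAlgHom.norm_apply_le b _).trans ?_
            exact (ContinuousMap.norm_le _ (norm_nonneg _)).2 fun _ => a.norm_coe_le_norm _
          have h8 : ‖b (act (q γ)⁻¹ a) (l (actG (q γ)⁻¹ (plH F)) (p (χ i) ξ))‖ ≤
              ‖b (act (q γ)⁻¹ a) (l (plH (G γ)) (p (χ i) ξ))‖ + ‖a‖ * ε * ‖p (χ i) ξ‖ := by
            rw [h6, map_add]
            refine (norm_add_le _ _).trans ?_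
            gcongr
            refine (ContinuousLinearMap.le_opNorm _ _).trans ?_
            rw [mul_assoc]
            gcongr
          calc _ ≤ (‖b (act (q γ)⁻¹ a) (l (plH (G γ)) (p (χ i) ξ))‖ +
                ‖a‖ * ε * ‖p (χ i) ξ‖) ^ 2 := by gcongr
            _ ≤ 2 * ‖b (act (q γ)⁻¹ a) (l (plH (G γ)) (p (χ i) ξ))‖ ^ 2 +
                2 * (‖a‖ * ε * ‖p (χ i) ξ‖) ^ 2 := by
                nlinarith [sq_nonneg (‖b (act (q γ)⁻¹ a) (l (plH (G γ)) (p (χ i) ξ))‖ -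
                  ‖a‖ * ε * ‖p (χ i) ξ‖)]
            _ = _ := by ring
        refine (Finset.sum_le_sum hterm).trans ?_
        rw [Finset.sum_add_distrib, ← Finset.mul_sum, Finset.sum_const, nsmul_eq_mul]
        have h9 := hest (p (χ i) ξ)
        have e : ((S.filter (fun γ => good γ ∧ jj γ = j)).card : ℝ) *
            (2 * ((‖a‖ * ε) ^ 2 * ‖p (χ i) ξ‖ ^ 2)) =
            2 * ((S.filter (fun γ => good γ ∧ jj γ = j)).card * (‖a‖ * ε) ^ 2 *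
              ‖p (χ i) ξ‖ ^ 2) := by ring
        rw [e]
        gcongr
      -- the sum over the pivots
      have hsplit : ∑ γ ∈ S,
          ‖b (act (q γ)⁻¹ a) (l (actG (q γ)⁻¹ (plH F)) (p (χ i) ξ))‖ ^ 2 =
          ∑ j : Fin (N + 1), ∑ γ ∈ S.filter (fun γ => good γ ∧ jj γ = j),
            ‖b (act (q γ)⁻¹ a) (l (actG (q γ)⁻¹ (plH F)) (p (χ i) ξ))‖ ^ 2 := by
        have h1 : ∑ γ ∈ S,
            ‖b (act (q γ)⁻¹ a) (l (actG (q γ)⁻¹ (plH F)) (p (χ i) ξ))‖ ^ 2 =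
            ∑ γ ∈ S.filter good,
              ‖b (act (q γ)⁻¹ a) (l (actG (q γ)⁻¹ (plH F)) (p (χ i) ξ))‖ ^ 2 := by
          rw [Finset.sum_filter]
          refine Finset.sum_congr rfl fun γ hγ => ?_
          split_ifs with h
          · rfl
          · rw [hbad γ hγ h, norm_zero, zero_pow two_ne_zero]
        rw [h1, ← Finset.sum_fiberwise (S.filter good) jj]
        refine Finset.sum_congr rfl fun j _ => ?_
        rw [Finset.filter_filter]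
      have hcard : ∑ j : Fin (N + 1),
          ((S.filter (fun γ => good γ ∧ jj γ = j)).card : ℝ) ≤ S.card := by
        have h1 : ∑ j : Fin (N + 1), (S.filter (fun γ => good γ ∧ jj γ = j)).card =
            (S.filter good).card := by
          rw [Finset.card_eq_sum_card_fiberwise (f := jj) (t := Finset.univ)
            (fun _ _ => Finset.mem_univ _)]
          refine Finset.sum_congr rfl fun j _ => ?_
          rw [Finset.filter_filter]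
        have h2 := Finset.card_filter_le S good
        rw [← h1] at h2
        exact_mod_cast h2
      rw [hsplit]
      refine (Finset.sum_le_sum fun j _ => hpiv j).trans ?_
      rw [Finset.sum_add_distrib, Finset.sum_const, Finset.card_univ, Fintype.card_fin,
        nsmul_eq_mul, ← Finset.mul_sum, ← Finset.sum_mul, ← Finset.sum_mul]
      have h3 : (∑ j : Fin (N + 1), ((S.filter (fun γ => good γ ∧ jj γ = j)).card : ℝ)) *
          (‖a‖ * ε) ^ 2 * ‖p (χ i) ξ‖ ^ 2 ≤ S.card * (‖a‖ * ε) ^ 2 * ‖p (χ i) ξ‖ ^ 2 := by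
        gcongr
      calc _ ≤ ((N + 1 : ℕ) : ℝ) * (2 * (C' * (1 + s) ^ 4 * ‖p (χ i) ξ‖ ^ 2)) +
            2 * (S.card * (‖a‖ * ε) ^ 2 * ‖p (χ i) ξ‖ ^ 2) := by gcongr
        _ = _ := by ring
    -- the sum over the pieces
    have e1 : ∀ γ, ‖b (act (q γ)⁻¹ a) (l (actG (q γ)⁻¹ (plH F)) ξ)‖ ^ 2 =
        ∑ i ∈ T, ‖b (act (q γ)⁻¹ a) (l (actG (q γ)⁻¹ (plH F)) (p (χ i) ξ))‖ ^ 2 := by
      intro γ
      rw [← sum_part T p hχ1 (b (act (q γ)⁻¹ a) (l (actG (q γ)⁻¹ (plH F)) ξ))]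
      refine Finset.sum_congr rfl fun i _ => ?_
      have h1 : p (χ i) (b (act (q γ)⁻¹ a) (l (actG (q γ)⁻¹ (plH F)) ξ)) =
          b (act (q γ)⁻¹ a) (l (actG (q γ)⁻¹ (plH F)) (p (χ i) ξ)) := by
        have h2 := congrArg (fun T : K →L[ℂ] K => T (l (actG (q γ)⁻¹ (plH F)) ξ))
          (cbp (act (q γ)⁻¹ a) (χ i)).eq
        have h3 := congrArg (fun T : K →L[ℂ] K => T ξ) (clp (actG (q γ)⁻¹ (plH F)) (χ i)).eq
        change b (act (q γ)⁻¹ a) (p (χ i) (l (actG (q γ)⁻¹ (plH F)) ξ)) = p (χ i) _ at h2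
        change l (actG (q γ)⁻¹ (plH F)) (p (χ i) ξ) = p (χ i) _ at h3
        exact h2.symm.trans (congrArg (fun y => b (act (q γ)⁻¹ a) y) h3.symm)
      rw [h1]
    simp_rw [e1]
    rw [Finset.sum_comm, ← sum_part T p hχ1 ξ, Finset.mul_sum]
    exact Finset.sum_le_sum fun i _ => piece i
  -- let epsilon tend to zero
  refine le_of_forall_pos_le_add fun t ht => ?_
  obtain ⟨c, hc⟩ : ∃ c : ℝ, c = 2 * S.card * ‖a‖ ^ 2 * ‖ξ‖ ^ 2 := ⟨_, rfl⟩
  have hc0 : 0 ≤ c := by rw [hc]; positivity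
  have h1 := key (Real.sqrt (t / (c + 1))) (Real.sqrt_pos.2 (by positivity))
  have h2 : (‖a‖ * Real.sqrt (t / (c + 1))) ^ 2 = ‖a‖ ^ 2 * (t / (c + 1)) := by
    rw [mul_pow, Real.sq_sqrt (by positivity)]
  rw [h2] at h1
  have h3 : 2 * (S.card : ℝ) * (‖a‖ ^ 2 * (t / (c + 1))) * ‖ξ‖ ^ 2 ≤ t := by
    have e : 2 * (S.card : ℝ) * (‖a‖ ^ 2 * (t / (c + 1))) * ‖ξ‖ ^ 2 = c / (c + 1) * t := by
      rw [hc]; ring
    rw [e]
    have h4 : c / (c + 1) ≤ 1 := by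
      rw [div_le_one (by positivity)]
      linarith
    nlinarith
  rw [add_mul] at h1
  linarith

end Vale.Agent.P092.H589.P4
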