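import Vale.Agent.P092.H589.P4c
import Vale.Agent.P092.H589.P2d

/-!
P092, count half of KEY_0 over EVERY local field (helper589), part d: summation over the shells;
the calculus `p` of a common singular source space is given; no small cells, any continuous `a`.
-/

set_option linter.all false

namespace Vale.Agent.P092.H589.P4

open Matrix
open scoped LinearAlgebra.Projectivization Kronecker
open Vale.Agent.P092.SN
open Vale.Agent.P092.RC (GG YY)
open Vale.Agent.P092.H100.Gr (Gr)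
open Vale.Agent.P092.H644.Gr3 (p1)
open Vale.Agent.P092.H789.S2
open Vale.Agent.P092.H820 (pj)
open Vale.Agent.P092.H835.PlGr (plk plH)
open Vale.Agent.P092.H589.K2 (Tame)
open Vale.Agent.P092.H145 (NW1)
open Vale.Agent.P092.H589.P2 (PLy nm_le le_nm tsupport_actY smul_mk norm_mulVec_le exists_sep
  att_big exists_max sum_shells Est)

section nm

variable {k : Type} [NontriviallyNormedField k] [ProperSpace k] {N : ℕ}

theorem nm_piv (g : GG k N) : ∃ i0 j0, ‖g.1 i0 j0‖ = nm g := by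
  obtain ⟨p, hp⟩ := Finite.exists_max fun p : Fin (N + 1) × Fin (N + 1) => ‖g.1 p.1 p.2‖
  exact ⟨p.1, p.2, le_antisymm (le_nm g _ _) (nm_le (norm_nonneg _) fun i j => hp (i, j))⟩

theorem nm_pos (g : GG k N) : 0 < nm g := by
  obtain ⟨i0, j0, h⟩ := nm_piv g
  rw [← h]
  refine norm_pos_iff.2 fun h0 => ?_
  have h1 : g.1 = 0 := by
    ext a b
    have h2 := le_nm g a b
    rw [← h, h0, norm_zero] at h2
    exact norm_le_zero_iff.1 h2
  have h4 := g.2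
  rw [h1, Matrix.det_zero] at h4
  exact zero_ne_one h4

theorem nm_mul (g h : GG k N) : nm (g * h) ≤ ((N + 1 : ℕ) : ℝ) * (nm g * nm h) := by
  have h1 := (nm_pos g).le
  have h2 := (nm_pos h).le
  refine nm_le (by positivity) fun i j => ?_
  change ‖∑ l, g.1 i l * h.1 l j‖ ≤ _
  refine (norm_sum_le _ _).trans ?_
  have h3 : ∀ l, ‖g.1 i l * h.1 l j‖ ≤ nm g * nm h := fun l => by
    rw [norm_mul]
    exact mul_le_mul (le_nm g _ _) (le_nm h _ _) (norm_nonneg _) h1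
  refine (Finset.sum_le_sum fun l _ => h3 l).trans (le_of_eq ?_)
  rw [Finset.sum_const, Finset.card_univ, Fintype.card_fin, nsmul_eq_mul]

end nm

section final

variable {k : Type} [NontriviallyNormedField k] [ProperSpace k] {N : ℕ}

/-- **The count half of KEY_0 over every local field** with the calculus `p` of a common singular
space of the source side. -/
theorem cntR (hk : (∃ τ : k →+* ℂ, ∀ x, ‖τ x‖ = ‖x‖) ∨ IsUltrametricDist k) {σ : k →+* k}
    {J : Matrix (Fin (N + 1)) (Fin (N + 1)) k} {β : ℝ} (hB : Bd σ J β)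
    (hsy : ∀ x y, ‖bf σ J x y‖ = ‖bf σ J y x‖)
    {Γ K : Type} [NormedAddCommGroup K] [InnerProductSpace ℂ K] [CompleteSpace K]
    (q : Γ → GG k N) {Z : Set Γ} (hud : UD q Z) (iso : ∀ γ, Iso σ J (q γ).1)
    (b z : CY k N →⋆ₐ[ℂ] (K →L[ℂ] K)) (l ν : CG k N 2 →⋆ₐ[ℂ] (K →L[ℂ] K))
    (hbν : PLy b ν) (hzν : PLy z ν) (hzl : PLy z l)
    {W : Type} [TopologicalSpace W] [CompactSpace W] [T2Space W]
    (Sp : W → Submodule k (Fin (N + 1) → k))
    (hR : IsClosed {z : YY k N × W | (p1 z.1).1 ≤ Sp z.2})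
    (hsg : ∀ w, ∀ x ∈ Sp w, ∀ y ∈ Sp w, bf σ J x y = 0)
    (p : C(W, ℂ) →⋆ₐ[ℂ] (K →L[ℂ] K))
    (cbp : ∀ f g, Commute (b f) (p g)) (ibp : ∀ (f : CY k N) (g : C(W, ℂ)),
      (∀ x ∈ tsupport f, ∀ w ∈ tsupport g, ¬ (p1 x).1 ≤ Sp w) → b f * p g = 0)
    (clp : ∀ f g, Commute (l f) (p g)) (ilp : ∀ (f : CG k N 2) (g : C(W, ℂ)),
      (∀ L ∈ tsupport f, ∀ w ∈ tsupport g, ¬ L.1 ≤ Sp w) → l f * p g = 0)
    (R : ℝ) (A : Set (YY k N)) (a : CY k N)
    {F : C(ℙ k (Fin (N + 1) × Fin (N + 1) → k), ℂ)}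
    {φ : (Fin (N + 1) × Fin (N + 1) → k) → ℂ} (hφ : Tame K φ)
    (hFφ : ∀ v (hv : v ≠ 0), F (pj k (Fin (N + 1) × Fin (N + 1)) ⟨v, hv⟩) = φ v)
    (hopp : ∀ x ∈ tsupport a, ∀ y ∈ closure A, bf σ J x.rep y.rep ≠ 0) :
    Est q Z R A b l (plH F) a := by
  classical
  letI : MeasurableSpace k := borel k
  haveI : BorelSpace k := ⟨rfl⟩
  obtain ⟨cl⟩ := H914.exists_cells (k := k) hk
  have hk : H914.K2Stmt k := @H914.k2Stmt k _ _ _ _ cl
  have hβ := hB.one_le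
  have hβ0 : (0 : ℝ) < β := by linarith
  -- separation
  have hrep : ∀ (v : Fin (N + 1) → k) (hv : v ≠ 0), ∃ c : kˣ,
      c • (Projectivization.mk k v hv).rep = v := fun v hv => by
    obtain ⟨c, hc⟩ := Projectivization.exists_smul_eq_mk_rep k v hv
    exact ⟨c⁻¹, by rw [← hc, inv_smul_smul]⟩
  obtain ⟨c, hc, hsep⟩ := exists_sep hB (A := closure A) (Y := tsupport a) isClosed_closure
    (isClosed_tsupport _) (fun x hx y hy hxY hyA h0 => by
      obtain ⟨c, hc⟩ := hrep x hx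
      obtain ⟨d, hd⟩ := hrep y hy
      refine hopp _ hxY _ hyA ?_
      rw [← hc, ← hd, Units.smul_def, Units.smul_def, bf_smul_left, bf_smul_right] at h0
      have h1 : σ (d : k) ≠ 0 := by
        rw [← norm_pos_iff, hB.isom, norm_pos_iff]
        exact d.ne_zero
      simpa [c.ne_zero, h1] using h0)
  obtain ⟨C, hC3, hCR, hCc⟩ : ∃ C : ℝ, 3 ≤ C ∧ R ≤ C ∧ β / (c / 2) ≤ C :=
    ⟨max 3 (max R (β / (c / 2))), le_max_left _ _, (le_max_left _ _).trans (le_max_right _ _),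
      (le_max_right _ _).trans (le_max_right _ _)⟩
  have hC0 : (0 : ℝ) < C := by linarith
  obtain ⟨T, hT, hT0⟩ : ∃ T : ℝ, 2 * (c + β) / c ≤ T ∧ 0 < T :=
    ⟨2 * (c + β) / c, le_rfl, by positivity⟩
  obtain ⟨C', s₀, hC', hsh⟩ := shellR hk hB hsy q hud b z l ν hbν hzν hzl Sp hR hsg p cbp ibp
    clp ilp hφ hFφ hC3 a
  -- the geometry of one element
  have hgeo : ∀ γ, NW1 R (q γ) → Att T A (q γ) → NW σ J C (nm (q γ)) (q γ).1 ∧
      ∀ v (hv : v ≠ 0), q γ • Projectivization.mk k v hv ∈ tsupport a →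
        nm (q γ) * ‖(q γ).1 *ᵥ v‖ ≤ C * ‖v‖ := by
    intro γ h1 h2
    have hM : 0 < nm (q γ) := nm_pos _
    refine ⟨⟨iso γ, le_nm _, fun i i' j j' => (h1 i j i' j').trans (by gcongr)⟩, ?_⟩
    intro v hv hva
    obtain ⟨i₀, j, hp⟩ := nm_piv (q γ)
    obtain ⟨w, φ, hw, hwA, hφ⟩ := h2
    obtain ⟨hgv, e⟩ := smul_mk (q γ) v hv
    rw [e] at hva
    have h3 := att_big hB hc hsep hT hM hp hw (subset_closure hwA) hφ _ hgv hva
    have hcol : ‖(q γ).1 *ᵥ ee j‖ ≤ nm (q γ) := norm_mulVec_ee hM.le (le_nm _) j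
    have hcol' : nm (q γ) ≤ ‖(q γ).1 *ᵥ ee j‖ := by
      rw [← hp, ← mulVec_ee (q γ).1 j i₀]
      exact norm_le_pi_norm _ _
    have h4 := contr_of_opp hB (half_pos hc) (iso γ) hcol' (v := v) (by
      refine le_trans ?_ h3
      gcongr)
    refine h4.trans ?_
    gcongr
  obtain ⟨M₀, hM₀⟩ := hud (((N + 1 : ℕ) : ℝ) * (Real.exp s₀ * (β ^ 2 * Real.exp s₀)))
  obtain ⟨C'', hC'', hsum⟩ := sum_shells (P := Unit) (fun γ => nm (q γ))
    (fun γ (ξ : K) => ‖b (act (q γ)⁻¹ a) (l (actG (q γ)⁻¹ (plH F)) ξ)‖ ^ 2)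
    (fun γ ξ => sq_nonneg _)
    (fun γ => γ ∈ Z ∧ NW1 R (q γ) ∧ Att T A (q γ))
    (fun γ i => True) s₀
    (fun γ _ => ⟨(), trivial⟩)
    (M₀ := M₀) (by
      intro S hS
      refine hM₀ S (fun γ hγ => (hS γ hγ).1.1) fun γ hγ γ' hγ' => ?_
      refine (nm_mul _ _).trans ?_
      have hM : 0 < nm (q γ) := nm_pos _
      have hinv : nm (q γ)⁻¹ ≤ β ^ 2 * nm (q γ) := by
        refine nm_le (by positivity) fun i j => ?_
        exact inv_le hB (iso γ) hM.le (le_nm (q γ)) i j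
      have h1 := (hS γ hγ).2
      have h2 := (hS γ' hγ').2
      have h3 : nm (q γ') * nm (q γ)⁻¹ ≤ Real.exp s₀ * (β ^ 2 * Real.exp s₀) := by
        refine mul_le_mul h2 (hinv.trans ?_) (norm_nonneg _) (Real.exp_pos _).le
        gcongr
      gcongr)
    (B := (‖a‖ * ‖plH F‖) ^ 2) (by positivity) (by
      intro γ ξ
      rw [← mul_pow]
      refine pow_le_pow_left₀ (norm_nonneg _) ?_ 2
      have h0 : ‖act (q γ)⁻¹ a‖ ≤ ‖a‖ :=
        (ContinuousMap.norm_le _ (norm_nonneg _)).2 fun _ => a.norm_coe_le_norm _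
      have h1 : ‖b (act (q γ)⁻¹ a)‖ ≤ ‖a‖ :=
        (NonUnitalStarAlgHom.norm_apply_le b _).trans h0
      have h2 : ‖l (actG (q γ)⁻¹ (plH F))‖ ≤ ‖plH F‖ :=
        (NonUnitalStarAlgHom.norm_apply_le l _).trans (H914.norm_actG_le _ _)
      calc _ ≤ ‖b (act (q γ)⁻¹ a)‖ * ‖l (actG (q γ)⁻¹ (plH F)) ξ‖ :=
            ContinuousLinearMap.le_opNorm _ _
        _ ≤ ‖a‖ * (‖plH F‖ * ‖ξ‖) := by
            refine mul_le_mul h1 ?_ (norm_nonneg _) (norm_nonneg _)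
            exact (ContinuousLinearMap.le_opNorm _ _).trans
              (mul_le_mul_of_nonneg_right h2 (norm_nonneg _))
        _ = _ := by ring) hC' 4
    (by
      intro s i S hs hS ξ
      refine hsh s S hs (fun γ hγ => ?_) ξ
      obtain ⟨⟨h1, h2, h3⟩, h4, h5, -⟩ := hS γ hγ
      obtain ⟨g1, g2⟩ := hgeo γ h2 h3
      exact ⟨h1, g1, h4, h5, g2⟩)
  exact ⟨T, hT0, C'', 5, hC'', fun t ht S hS ξ => hsum t ht S hS ξ⟩

end final

end Vale.Agent.P092.H589.P4
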