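import Vale.Agent.P092.H589.P4d
import Vale.Agent.P092.H589.P2e

/-!
P092, count half of KEY_0 over EVERY local field (helper589), part e: letters of `SGr`, for every
group `S` with `φ : S →* FormGroup σ J` and every record with the bridge.
-/

set_option linter.all false

namespace Vale.Agent.P092.H589.P4

open Matrix Set MeasureTheory Topology
open scoped LinearAlgebra.Projectivization
open Vale.Agent.P092.SN (CY CG nm Att UD)
open Vale.Agent.P092.RC (GG YY)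
open Vale.Agent.P092.H303 (FormGroup Idx hyp)
open Vale.Agent.P092.H714.Cl (hf Frm)
open Vale.Agent.P092.H370.Po
open Vale.Agent.P092.H100.Gr (Gr Fr)
open Vale.Agent.P092.H416.CL (cor roc cor_roc roc_cor Je rho rho_cor hf_cor hf_rho pt pt_eq pt_smul
  exists_vec mem_of_span cor_ne roc_ne cor_smul pt_cont pt_inj col_pt)
open Vale.Agent.P092.H644.Gr3 (p1)
open Vale.Agent.P092.H232 (Nin)
open Vale.Agent.P092.H796 (PL)
open Vale.Agent.P092.H789.S2
open Vale.Agent.P092.CL (Lt nmM ta AttS)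
open Vale.Agent.P092.H145 (NW1)
open Vale.Agent.P092.H835.PlGr (plk plk_cont plk_emb plH)
open Vale.Agent.P092.H437.P2 (NABr pb pb_apply ts_comp im im_cont im_inj im_smul inc_pt im_le
  mem_im' rep_mem)

section dens

variable {n : Type} [Fintype n] [DecidableEq n] {k : Type} [NontriviallyNormedField k]
  [ProperSpace k] {σ : k →+* k} {J : Matrix n n k} {N r : ℕ}

/-- the tame functions of the singular lines -/
def TF (e : n ≃ Fin (N + 1)) (σ : k →+* k) (J : Matrix n n k) : Set C(SGr σ J 2, ℂ) :=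
  {f | ∃ F ∈ H696.TD k (Fin (N + 1) × Fin (N + 1)), ∀ X : SGr σ J 2, f X = plH F (im e X)}

/-- the tame functions are dense -/
theorem tf_dense [Fact (Continuous σ)]
    (hk : (∃ τ : k →+* ℂ, ∀ x, ‖τ x‖ = ‖x‖) ∨ IsUltrametricDist k) (e : n ≃ Fin (N + 1)) :
    Dense (TF e σ J) := by
  obtain ⟨φ, hφ0⟩ : ∃ φ : SGr σ J 2 → ℙ k (Fin (N + 1) × Fin (N + 1) → k),
      φ = fun X => plk (im e X) := ⟨_, rfl⟩
  have hφ : Continuous φ := by
    rw [hφ0]
    exact plk_cont.comp (im_cont e)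
  have hφi : Function.Injective φ := by
    rw [hφ0]
    exact plk_emb.injective.comp (im_inj e)
  have hcl : IsClosedEmbedding φ := hφ.isClosedEmbedding hφi
  have hs : Function.Surjective (fun F : C(ℙ k (Fin (N + 1) × Fin (N + 1) → k), ℂ) =>
      F.comp ⟨φ, hφ⟩) := by
    intro f
    have h1 : ∀ f : C(SGr σ J 2, ℝ), ∃ F : C(ℙ k (Fin (N + 1) × Fin (N + 1) → k), ℝ),
        F.comp ⟨φ, hφ⟩ = f := fun f => ContinuousMap.exists_extension hcl f
    obtain ⟨F, hF⟩ := h1 ⟨fun L => (f L).re, Complex.continuous_re.comp f.continuous⟩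
    obtain ⟨G, hG⟩ := h1 ⟨fun L => (f L).im, Complex.continuous_im.comp f.continuous⟩
    refine ⟨⟨fun v => (F v : ℂ) + (G v : ℂ) * Complex.I, by fun_prop⟩, ?_⟩
    ext X
    have h2 : F (φ X) = (f X).re := congrArg (fun g : C(SGr σ J 2, ℝ) => g X) hF
    have h3 : G (φ X) = (f X).im := congrArg (fun g : C(SGr σ J 2, ℝ) => g X) hG
    change (F (φ X) : ℂ) + (G (φ X) : ℂ) * Complex.I = f X
    rw [h2, h3, Complex.re_add_im]
  have hc : Continuous (fun F : C(ℙ k (Fin (N + 1) × Fin (N + 1) → k), ℂ) =>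
      F.comp ⟨φ, hφ⟩) := ContinuousMap.continuous_precomp _
  have h1 := (hs.denseRange).dense_image hc (H696.dense_td
    (β := Fin (N + 1) × Fin (N + 1)) hk)
  refine h1.mono ?_
  rintro _ ⟨F, hF, rfl⟩
  refine ⟨F, hF, fun X => ?_⟩
  change F (φ X) = plH F (im e X)
  rw [hφ0]
  rfl

end dens

section cut

/-- extension of a continuous function along an embedding, with control of the supports -/
theorem ext_cut {X Y : Type*} [TopologicalSpace X] [CompactSpace X] [T2Space X]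
    [TopologicalSpace Y] [CompactSpace Y] {p : Y → X} (hp : Continuous p)
    (hi : Function.Injective p) (a : C(Y, ℂ)) {U : Set X} (hU : IsOpen U)
    (hs : p '' tsupport ⇑a ⊆ U) :
    ∃ a' : C(X, ℂ), tsupport ⇑a' ⊆ U ∧ a'.comp ⟨p, hp⟩ = a := by
  have hcl : IsClosedEmbedding p := hp.isClosedEmbedding hi
  have hK : IsClosed (p '' tsupport ⇑a) := ((isClosed_tsupport _).isCompact.image hp).isClosed
  obtain ⟨V, hV, hKV, hVU⟩ : ∃ V : Set X, IsOpen V ∧ p '' tsupport ⇑a ⊆ V ∧ closure V ⊆ U :=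
    normal_exists_closure_subset hK hU hs
  obtain ⟨χ, h0, h1, h2⟩ := exists_continuous_zero_one_of_isClosed (s := Vᶜ)
    (t := p '' tsupport ⇑a) hV.isClosed_compl hK (by
      rw [disjoint_compl_left_iff_subset]
      exact hKV)
  have hx : ∀ f : C(Y, ℝ), ∃ F : C(X, ℝ), F.comp ⟨p, hp⟩ = f :=
    fun f => ContinuousMap.exists_extension hcl f
  obtain ⟨F, hF⟩ := hx ⟨fun L => (a L).re, Complex.continuous_re.comp a.continuous⟩
  obtain ⟨G, hG⟩ := hx ⟨fun L => (a L).im, Complex.continuous_im.comp a.continuous⟩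
  refine ⟨⟨fun x => (χ x : ℂ) * ((F x : ℂ) + (G x : ℂ) * Complex.I), by fun_prop⟩, ?_, ?_⟩
  · refine subset_trans (closure_mono ?_) hVU
    intro x hx
    by_contra hxV
    apply hx
    change (χ x : ℂ) * ((F x : ℂ) + (G x : ℂ) * Complex.I) = 0
    have : χ x = 0 := h0 hxV
    rw [this, Complex.ofReal_zero, zero_mul]
  · ext y
    have h3 : F (p y) = (a y).re := congrArg (fun g : C(Y, ℝ) => g y) hF
    have h4 : G (p y) = (a y).im := congrArg (fun g : C(Y, ℝ) => g y) hG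
    change (χ (p y) : ℂ) * ((F (p y) : ℂ) + (G (p y) : ℂ) * Complex.I) = a y
    rw [h3, h4, Complex.re_add_im]
    by_cases hy : y ∈ tsupport ⇑a
    · have : χ (p y) = 1 := h1 ⟨y, hy, rfl⟩
      rw [this, Complex.ofReal_one, one_mul]
    · have : a y = 0 := image_eq_zero_of_notMem_tsupport hy
      rw [this, mul_zero]

end cut

section main

variable {n : Type} [Fintype n] [DecidableEq n] {k : Type} [NontriviallyNormedField k]
  [ProperSpace k] {σ : k →+* k} {ε : k} {J : Matrix n n k} {N r : ℕ}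
  {Γ K : Type} [NormedAddCommGroup K] [InnerProductSpace ℂ K] [CompleteSpace K]

/-- **The count of KEY_0 over every local field**, letters of `SGr`, no record. -/
theorem cnt_core [Fact (Continuous σ)]
    (hk : (∃ τ : k →+* ℂ, ∀ x, ‖τ x‖ = ‖x‖) ∨ IsUltrametricDist k)
    (herm : ∀ x y, hf σ J y x = ε * σ (hf σ J x y))
    (heps : ε * ε = 1) (nondeg : ∀ x, x ≠ 0 → ∃ y, hf σ J x y ≠ 0) (hσ : ∀ x, ‖σ x‖ = ‖x‖)
    (e : n ≃ Fin (N + 1)) {q : Γ → FormGroup σ J}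
    (hud : UD (fun γ => rho e σ J (q γ)) Set.univ)
    {b z : C(SGr σ J 1, ℂ) →⋆ₐ[ℂ] (K →L[ℂ] K)} {l ν : C(SGr σ J 2, ℂ) →⋆ₐ[ℂ] (K →L[ℂ] K)}
    {p : C(SGr σ J r, ℂ) →⋆ₐ[ℂ] (K →L[ℂ] K)}
    (hbν : PL (fun x y => Inc x y) b ν) (hzν : PL (fun x y => Inc x y) z ν)
    (hzl : PL (fun x y => Inc x y) z l) (hbp : PL (fun x y => Inc x y) b p)
    (hlp : PL (fun x y => Inc x y) l p) (a : C(SGr σ J 1, ℂ)) {f : C(SGr σ J 2, ℂ)}
    (hf' : f ∈ TF e σ J) (A : Set (SGr σ J 1))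
    (hopp : ∀ x ∈ tsupport ⇑a, ∀ y ∈ closure A, ¬ Col x y) (R : ℝ) :
    ∃ T > 0, ∃ (C : ℝ) (d : ℕ), ∀ j : ℝ, 0 ≤ j → ∀ F : Finset Γ,
      (∀ γ ∈ F, NW1 R (rho e σ J (q γ)) ∧ Att T (pt e '' A) (rho e σ J (q γ)) ∧
        Real.log (nm (rho e σ J (q γ))) ≤ j) → ∀ ξ : K,
      ∑ γ ∈ F, ‖b (CL.act (q γ)⁻¹ a) (l (CL.act (q γ)⁻¹ f) ξ)‖ ^ 2 ≤
        C * (1 + j) ^ d * ‖ξ‖ ^ 2 := by
  classical
  obtain ⟨P1, hP1⟩ : ∃ P1 : C(SGr σ J 1, RC.YY k N), ∀ x, P1 x = pt e x :=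
    ⟨⟨pt e, pt_cont e⟩, fun _ => rfl⟩
  obtain ⟨P2, hP2⟩ : ∃ P2 : C(SGr σ J 2, Gr k (Fin (N + 1)) 2), ∀ x, P2 x = im e x :=
    ⟨⟨im e, im_cont e⟩, fun _ => rfl⟩
  have hP1i : Function.Injective P1 := fun x y hxy => pt_inj e (by rw [← hP1, ← hP1, hxy])
  have hP2i : Function.Injective P2 := fun x y hxy => im_inj e (by rw [← hP2, ← hP2, hxy])
  obtain ⟨F, ⟨φ, hφ, -, hFφ⟩, hfF⟩ := hf'
  -- relations
  have hnin : ∀ (a : SN.CY k N) (f : SN.CG k N 2),
      Nin (fun x (L : Gr k (Fin (N + 1)) 2) => (p1 x).1 ≤ L.1) a f →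
      Nin (fun (x : SGr σ J 1) (y : SGr σ J 2) => Inc x y) (a.comp P1) (f.comp P2) := by
    intro a f hn x hx y hy hxy
    refine hn (P1 x) (ts_comp P1 a hx) (P2 y) (ts_comp P2 f hy) ?_
    rw [hP1, hP2]
    exact (inc_pt e x y).1 hxy
  -- the form as a closed relation
  have hrel : ∀ x y : RC.YY k N, hf σ (Je e J) x.rep y.rep = 0 ↔
      Ort σ (Je e J) (p1 x).1 (p1 y).1 := by
    intro x y
    constructor
    · intro h u hu v hv
      have hu' : u ∈ Submodule.span k {x.rep} := by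
        have := H644.Gr3.p1_mk x.rep x.rep_nonzero
        rw [Projectivization.mk_rep] at this
        rwa [← this]
      have hv' : v ∈ Submodule.span k {y.rep} := by
        have := H644.Gr3.p1_mk y.rep y.rep_nonzero
        rw [Projectivization.mk_rep] at this
        rwa [← this]
      obtain ⟨c, rfl⟩ := Submodule.mem_span_singleton.1 hu'
      obtain ⟨d, rfl⟩ := Submodule.mem_span_singleton.1 hv'
      rw [H714.Cl.hf_smul_left, H714.Cl.hf_smul_right, h, mul_zero, mul_zero]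
    · intro h
      exact h _ (H644.Gr3.mem_p1.1 le_rfl) _ (H644.Gr3.mem_p1.1 le_rfl)
  have hcl : IsClosed {p : RC.YY k N × RC.YY k N | hf σ (Je e J) p.1.rep p.2.rep = 0} := by
    have h1 := (ortG_closed (J := Je e J) (Fact.out : Continuous σ) (i := 1) (j := 1)).preimage
      (f := fun p : RC.YY k N × RC.YY k N => (p1 p.1, p1 p.2))
      ((H644.Gr3.p1_cont.comp continuous_fst).prodMk (H644.Gr3.p1_cont.comp continuous_snd))
    convert h1 using 1
    ext p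
    exact hrel p.1 p.2
  have hA' : IsCompact (P1 '' closure A) := isClosed_closure.isCompact.image P1.continuous
  have hAcl : closure (P1 '' A) ⊆ P1 '' closure A :=
    closure_minimal (image_mono subset_closure) hA'.isClosed
  have hKa : IsCompact (P1 '' tsupport ⇑a) := (isClosed_tsupport _).isCompact.image P1.continuous
  obtain ⟨U, V, hU, hV, hKU, hAV, hUV⟩ := generalized_tube_lemma hKa hA' hcl.isOpen_compl (by
    rintro ⟨x, y⟩ ⟨⟨x', hx', rfl⟩, ⟨y', hy', rfl⟩⟩ h0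
    refine hopp x' hx' y' hy' ((col_pt e x' y').2 ?_)
    have h1 : hf σ (Je e J) (P1 x').rep (P1 y').rep = 0 := h0
    rwa [hP1, hP1] at h1)
  obtain ⟨a', haU, ea⟩ := ext_cut P1.continuous hP1i a hU hKU
  have ea' : ∀ x, a' (P1 x) = a x := fun x => congrArg (fun g : C(SGr σ J 1, ℂ) => g x) ea
  have ef' : ∀ x, plH F (P2 x) = f x := fun x => by rw [hP2, hfF]
  -- the form
  have hinv : Je e J * (Je e J)⁻¹ = 1 := by
    refine Matrix.mul_nonsing_inv _ ?_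
    have h1 : IsUnit J.det := isUnit_iff_ne_zero.2 fun h => by
      obtain ⟨x, hx, hx0⟩ := Matrix.exists_vecMul_eq_zero_iff.2 h
      obtain ⟨y, hy⟩ := nondeg x hx
      refine hy ?_
      unfold hf
      rw [Matrix.dotProduct_mulVec, hx0, zero_dotProduct]
    unfold Je
    rwa [det_submatrix_equiv_self]
  obtain ⟨β, hB⟩ := exists_bd (σ := σ) hσ hinv
  have hneps : ‖ε‖ = 1 := by
    have h1 := congrArg norm heps
    rw [norm_mul, norm_one] at h1
    have h0 := norm_nonneg ε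
    nlinarith
  obtain ⟨T, hT, C, d, -, h1⟩ := cntR hk (σ := σ) (J := Je e J) hB (fun x y => by
      change ‖hf σ (Je e J) x y‖ = ‖hf σ (Je e J) y x‖
      rw [← cor_roc e x, ← cor_roc e y, hf_cor, hf_cor, herm (roc e x) (roc e y), norm_mul,
        hneps, one_mul, hσ])
    (fun γ => rho e σ J (q γ)) hud
    (fun γ => H315P.G.iso_of fun x y => hf_rho e (q γ) x y)
    (pb P1 b) (pb P1 z) (pb P2 l) (pb P2 ν)
    ⟨fun a f => hbν.com _ _, fun a f hn => hbν.inc _ _ (hnin a f hn)⟩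
    ⟨fun a f => hzν.com _ _, fun a f hn => hzν.inc _ _ (hnin a f hn)⟩
    ⟨fun a f => hzl.com _ _, fun a f hn => hzl.inc _ _ (hnin a f hn)⟩
    (fun w : SGr σ J r => (im e w).1)
    ((H644.Gr3.p1_le_closed (k := k) (ι := Fin (N + 1)) (j := r)).preimage
      (f := fun z : RC.YY k N × SGr σ J r => (z.1, im e z.2))
      (continuous_fst.prodMk ((im_cont e).comp continuous_snd)))
    (fun w x hx y hy => by
      change hf σ (Je e J) x y = 0
      rw [← cor_roc e x, ← cor_roc e y, hf_cor]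
      exact w.sing _ (mem_im'.1 hx) _ (mem_im'.1 hy)) p
    (fun f g => hbp.com _ _)
    (fun f g hn => hbp.inc _ _ fun x hx w hw hxw => hn (P1 x) (ts_comp P1 f hx) w hw (by
      rw [hP1]
      exact (inc_pt e x w).1 hxw))
    (fun f g => hlp.com _ _)
    (fun f g hn => hlp.inc _ _ fun x hx w hw hxw => hn (P2 x) (ts_comp P2 f hx) w hw (by
      rw [hP2]
      exact im_le.2 hxw))
    R (P1 '' A) a' (hφ K) hFφ (by
      intro x hx y hy
      exact hUV (mk_mem_prod (haU hx) (hAV (hAcl hy))))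
  refine ⟨T, hT, C, d, fun j hj F' hF' ξ => ?_⟩
  have e3 : P1 '' A = pt e '' A := by
    ext x
    constructor
    · rintro ⟨y, hy, rfl⟩
      exact ⟨y, hy, (hP1 y).symm⟩
    · rintro ⟨y, hy, rfl⟩
      exact ⟨y, hy, hP1 y⟩
  have h2 := h1 j hj F' (fun γ hγ => ⟨⟨mem_univ _, (hF' γ hγ).1, by
    rw [e3]
    exact (hF' γ hγ).2.1⟩, (hF' γ hγ).2.2⟩) ξ
  refine le_trans (le_of_eq ?_) h2
  refine Finset.sum_congr rfl fun γ _ => ?_
  have e1 : (SN.act (rho e σ J (q γ))⁻¹ a').comp P1 = CL.act (q γ)⁻¹ a := by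
    ext x
    change a' (((rho e σ J (q γ))⁻¹)⁻¹ • P1 x) = a (((q γ)⁻¹)⁻¹ • x)
    rw [inv_inv, inv_inv, ← ea', hP1, hP1, pt_smul]
  have e2 : (SN.actG (rho e σ J (q γ))⁻¹ (plH F)).comp P2 = CL.act (q γ)⁻¹ f := by
    ext x
    change plH F (((rho e σ J (q γ))⁻¹)⁻¹ • P2 x) = f (((q γ)⁻¹)⁻¹ • x)
    rw [inv_inv, inv_inv, ← ef', hP2, hP2, im_smul]
  rw [pb_apply, pb_apply, e1, e2]

/-- **The count of KEY_0 with a common maximal space**, literal; `S` any group acting through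
`φ : S →* FormGroup σ J`. -/
def Cnt0R [Fact (Continuous σ)] {S : Type} [Group S] [TopologicalSpace S]
    [MulAction S (SGr σ J 1)] [ContinuousConstSMul S (SGr σ J 1)] {M : Type} [TopologicalSpace M]
    [CompactSpace M] [MulAction S M] [ContinuousConstSMul S M] {V₁ V₂ : Type} [MeasurableSpace V₁]
    [MeasurableSpace V₂] (φ : S →* FormGroup σ J) (L : Lt S (SGr σ J 1) M V₁ V₂) (q : Γ → S)
    (r : ℕ) (K : Type) [NormedAddCommGroup K] [InnerProductSpace ℂ K] [CompleteSpace K] : Prop :=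
  ∃ D : Set C(SGr σ J 2, ℂ), Dense D ∧
  ∀ (b z : C(SGr σ J 1, ℂ) →⋆ₐ[ℂ] (K →L[ℂ] K)) (l ν : C(SGr σ J 2, ℂ) →⋆ₐ[ℂ] (K →L[ℂ] K))
    (p : C(SGr σ J r, ℂ) →⋆ₐ[ℂ] (K →L[ℂ] K)),
    PL (fun x y => Inc x y) b ν → PL (fun x y => Inc x y) z ν → PL (fun x y => Inc x y) z l →
    PL (fun x y => Inc x y) b p → PL (fun x y => Inc x y) l p →
    ∀ (a : C(SGr σ J 1, ℂ)), ∀ f ∈ D,
    ∀ A : Set (SGr σ J 1), (∀ x ∈ tsupport a, ∀ y ∈ closure A, ¬ Col x y) →
    ∀ R : ℝ, ∃ T > 0, ∃ (C : ℝ) (d : ℕ), ∀ j : ℝ, 0 ≤ j → ∀ F : Finset Γ,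
      (∀ γ ∈ F, γ ∈ L.na1 q R T A ∧ Real.log (L.nm (q γ)) ≤ j) → ∀ ξ : K,
      ∑ γ ∈ F, ‖b (CL.act (φ (q γ))⁻¹ a) (l (CL.act (φ (q γ))⁻¹ f) ξ)‖ ^ 2 ≤
        C * (1 + j) ^ d * ‖ξ‖ ^ 2

/-- **`Cnt0R` from uniform discreteness**, every local field, every form. -/
theorem cnt0R [Fact (Continuous σ)]
    (hk : (∃ τ : k →+* ℂ, ∀ x, ‖τ x‖ = ‖x‖) ∨ IsUltrametricDist k)
    (herm : ∀ x y, hf σ J y x = ε * σ (hf σ J x y))
    (heps : ε * ε = 1) (nondeg : ∀ x, x ≠ 0 → ∃ y, hf σ J x y ≠ 0) (hσ : ∀ x, ‖σ x‖ = ‖x‖)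
    (e : n ≃ Fin (N + 1)) {S : Type} [Group S] [TopologicalSpace S]
    [MulAction S (SGr σ J 1)] [ContinuousConstSMul S (SGr σ J 1)] {M : Type} [TopologicalSpace M]
    [CompactSpace M] [MulAction S M] [ContinuousConstSMul S M] {V₁ V₂ : Type} [MeasurableSpace V₁]
    [MeasurableSpace V₂] {φ : S →* FormGroup σ J} {L : Lt S (SGr σ J 1) M V₁ V₂}
    (hnm : ∀ g, L.nm g = nm (rho e σ J (φ g)))
    (hnw : ∀ g R T A, g ∈ L.NA1 R T A → NW1 R (rho e σ J (φ g)))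
    (hatt : ∀ g R T A, g ∈ L.NA1 R T A → Att T (pt e '' A) (rho e σ J (φ g)))
    {q : Γ → S} (hud : L.UD q) : Cnt0R φ L q r K := by
  refine ⟨TF e σ J, tf_dense hk e, ?_⟩
  intro b z l ν p hbν hzν hzl hbp hlp a f hf' A hopp R
  have hud' : UD (fun γ => rho e σ J (φ (q γ))) Set.univ := by
    intro C
    obtain ⟨M, hM⟩ := hud C
    refine ⟨M, fun S _ hS => hM S fun γ hγ γ' hγ' => ?_⟩
    rw [hnm, map_mul, map_inv, map_mul, map_inv]
    exact hS γ hγ γ' hγ'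
  obtain ⟨T, hT, C, d, h⟩ := cnt_core hk herm heps nondeg hσ e (q := fun γ => φ (q γ)) hud'
    hbν hzν hzl hbp hlp a hf' A hopp R
  refine ⟨T, hT, C, d, fun j hj F hF ξ => h j hj F (fun γ hγ => ⟨hnw _ _ _ _ (hF γ hγ).1,
    hatt _ _ _ _ (hF γ hγ).1, ?_⟩) ξ⟩
  rw [← hnm]
  exact (hF γ hγ).2

end main

section letters

variable {k : Type} [NontriviallyNormedField k] [ProperSpace k]
  [MeasurableSpace k] {ι : Type} [Fintype ι]
  [DecidableEq ι] {s N : ℕ} {σ : k →+* k} {ε : k} {J₀ : Matrix ι ι k}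

/-- **`Cnt0R` for the letters `CL.lt`**, every local field. -/
theorem cnt0R_lt [Fact (Continuous σ)]
    (hk : (∃ τ : k →+* ℂ, ∀ x, ‖τ x‖ = ‖x‖) ∨ IsUltrametricDist k)
    (hF : Frm σ ε (hyp (s + 2) ε J₀))
    (hσ : ∀ x, ‖σ x‖ = ‖x‖) {w : k} (hw : w ≠ 0) (hwσ : σ w = w)
    (μ₁ : Measure k) (μ₂ : Measure (CL.V2 σ ε)) {Γ : Type}
    {q : Γ → FormGroup σ (hyp (s + 2) ε J₀)} (hud : (CL.lt hF hw hwσ μ₁ μ₂).UD q) (r : ℕ)
    (K : Type) [NormedAddCommGroup K] [InnerProductSpace ℂ K] [CompleteSpace K] :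
    Cnt0R (MonoidHom.id _) (CL.lt hF hw hwσ μ₁ μ₂) q r K := by
  classical
  obtain ⟨N, hN⟩ : ∃ N, Fintype.card (Idx (s + 2) ι) = N + 1 := by
    haveI : Nonempty (Idx (s + 2) ι) := ⟨Sum.inl (Sum.inl 0)⟩
    exact ⟨Fintype.card (Idx (s + 2) ι) - 1, (Nat.succ_pred_eq_of_pos Fintype.card_pos).symm⟩
  refine cnt0R hk hF.herm hF.eps hF.nondeg hσ (Fintype.equivFinOfCardEq hN)
    (fun g => P2.nm_rho _ g) (fun g R T A hg i l i' l' => ?_) (fun g R T A hg => ?_) hud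
  · have h1 := P2.nm_rho (Fintype.equivFinOfCardEq hN) g
    have h2 := hg.1 ((Fintype.equivFinOfCardEq hN).symm i)
      ((Fintype.equivFinOfCardEq hN).symm i') ((Fintype.equivFinOfCardEq hN).symm l)
      ((Fintype.equivFinOfCardEq hN).symm l')
    change ‖_‖ ≤ R * nm (rho (Fintype.equivFinOfCardEq hN) σ _ g)
    rw [← h1]
    refine le_trans (le_of_eq ?_) h2
    congr 1
    simp only [MonoidHom.id_apply, P2.rho_apply]
    ring
  · exact P2.att_rho (Fintype.equivFinOfCardEq hN) hg.2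

end letters

end Vale.Agent.P092.H589.P4
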