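import Vale.Agent.P092.H589.P4e
import Vale.Agent.P092.H437.R.Key0

/-!
P092, count half of KEY_0 over EVERY local field (helper589), part g: the literal `Cnt0P` of
helper437 (`H437/R/Key0.lean`), for every group over the isometry group and for `CL.lt`.
-/

set_option linter.all false

namespace Vale.Agent.P092.H589.P4

open Matrix Set MeasureTheory Topology
open scoped LinearAlgebra.Projectivization
open Vale.Agent.P092.SN (CY CG nm Att UD)
open Vale.Agent.P092.H303 (FormGroup Idx hyp)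
open Vale.Agent.P092.H714.Cl (hf Frm)
open Vale.Agent.P092.H370.Po
open Vale.Agent.P092.H416.CL (rho pt)
open Vale.Agent.P092.H796 (PL)
open Vale.Agent.P092.CL (Lt nmM ta AttS)
open Vale.Agent.P092.H145 (NW1)
open Vale.Agent.P092.H437.R (Cnt0P)

section main

variable {n : Type} [Fintype n] [DecidableEq n] {k : Type} [NontriviallyNormedField k]
  [ProperSpace k] {σ : k →+* k} {ε : k} {J : Matrix n n k} {N r : ℕ}
  {Γ K : Type} [NormedAddCommGroup K] [InnerProductSpace ℂ K] [CompleteSpace K]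

theorem cnt0P_of_R [Fact (Continuous σ)]
    {S : Type} [Group S] [TopologicalSpace S] [∀ j, MulAction S (SGr σ J j)]
    [∀ j, ContinuousConstSMul S (SGr σ J j)] {V₁ V₂ : Type} [MeasurableSpace V₁]
    [MeasurableSpace V₂] {φ : S →* FormGroup σ J} {L : Lt S (SGr σ J 1) (SGr σ J r) V₁ V₂}
    (h1 : ∀ (g : S) (x : SGr σ J 1), g • x = φ g • x)
    (h2 : ∀ (g : S) (x : SGr σ J 2), g • x = φ g • x)
    {q : Γ → S} (h : Cnt0R φ L q r K) : Cnt0P L q K := by
  obtain ⟨D, hD, h⟩ := h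
  refine ⟨D, ?_, ?_⟩
  · exact Set.eq_univ_of_univ_subset ((hD.closure_eq ▸ subset_rfl : Set.univ ⊆ closure D).trans
      (closure_mono Submodule.subset_span))
  intro b z l ν p hbν hzν hzl hbp hlp a f hf A hA R
  obtain ⟨T, hT, C, d, h3⟩ := h b z l ν p hbν hzν hzl hbp hlp a f hf A hA R
  refine ⟨T, hT, C, d, fun j hj F hF ξ => ?_⟩
  refine le_trans (le_of_eq ?_) (h3 j hj F hF ξ)
  refine Finset.sum_congr rfl fun γ _ => ?_
  have e1 : CL.act (q γ)⁻¹ a = CL.act (φ (q γ))⁻¹ a := by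
    ext x
    change a (((q γ)⁻¹)⁻¹ • x) = a (((φ (q γ))⁻¹)⁻¹ • x)
    rw [inv_inv, inv_inv, h1]
  have e2 : CL.act (q γ)⁻¹ f = CL.act (φ (q γ))⁻¹ f := by
    ext x
    change f (((q γ)⁻¹)⁻¹ • x) = f (((φ (q γ))⁻¹)⁻¹ • x)
    rw [inv_inv, inv_inv, h2]
  rw [e1, e2]

end main

section letters

variable {k : Type} [NontriviallyNormedField k] [ProperSpace k]
  [MeasurableSpace k] {ι : Type} [Fintype ι]
  [DecidableEq ι] {s N : ℕ} {σ : k →+* k} {ε : k} {J₀ : Matrix ι ι k}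

/-- **`Cnt0P` for the letters `CL.lt`**, every local field. -/
theorem cnt0P_lt [Fact (Continuous σ)]
    (hk : (∃ τ : k →+* ℂ, ∀ x, ‖τ x‖ = ‖x‖) ∨ IsUltrametricDist k)
    (hF : Frm σ ε (hyp (s + 2) ε J₀))
    (hσ : ∀ x, ‖σ x‖ = ‖x‖) {w : k} (hw : w ≠ 0) (hwσ : σ w = w)
    (μ₁ : Measure k) (μ₂ : Measure (CL.V2 σ ε)) {Γ : Type}
    {q : Γ → FormGroup σ (hyp (s + 2) ε J₀)} (hud : (CL.lt hF hw hwσ μ₁ μ₂).UD q)
    (K : Type) [NormedAddCommGroup K] [InnerProductSpace ℂ K] [CompleteSpace K] :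
    Cnt0P (CL.lt hF hw hwσ μ₁ μ₂) q K :=
  cnt0P_of_R (φ := MonoidHom.id _) (fun _ _ => rfl) (fun _ _ => rfl)
    (cnt0R_lt hk hF hσ hw hwσ μ₁ μ₂ hud _ K)

end letters

end Vale.Agent.P092.H589.P4
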