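import Vale.Agent.P092.H589.P4g
import Vale.Agent.P092.CL.LtO

/-!
P092, count half of KEY_0 over EVERY local field (helper589), part h: the literal `Cnt0P` of
helper437 (`H437/R/Key0.lean`) for the orthogonal letters `CL.ltO`.
-/

set_option linter.all false

namespace Vale.Agent.P092.H589.P4

open Matrix Set MeasureTheory Topology
open scoped LinearAlgebra.Projectivization
open Vale.Agent.P092.SN (CY CG nm Att UD)
open Vale.Agent.P092.H303 (FormGroup Idx hyp)
open Vale.Agent.P092.H714.Cl (hf)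
open Vale.Agent.P092.H370.Po
open Vale.Agent.P092.H416.CL (rho pt)
open Vale.Agent.P092.CL (Lt EUF OF ltO nmM ta AttS)
open Vale.Agent.P092.H145 (NW1)
open Vale.Agent.P092.H437.R (Cnt0P)

section letters

variable {k : Type} [NontriviallyNormedField k] [ProperSpace k]
  [MeasurableSpace k] {ι : Type} [Fintype ι] [DecidableEq ι] {s : ℕ} {J₀ : Matrix ι ι k}
  [Fact (Continuous (RingHom.id k))]

/-- **`Cnt0R` for the letters `CL.ltO`**, every local field. -/
theorem cnt0R_ltO (hk : (∃ τ : k →+* ℂ, ∀ x, ‖τ x‖ = ‖x‖) ∨ IsUltrametricDist k)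
    (h : OF J₀) {a : k} (ha : a ≠ 0) (μ₁ : Measure k) (μ₂ : Measure (ι → k)) {Γ : Type}
    {q : Γ → EUF (RingHom.id k) 1 (hyp (s + 2) 1 J₀)} (hud : (ltO h s ha μ₁ μ₂).UD q) (r : ℕ)
    (K : Type) [NormedAddCommGroup K] [InnerProductSpace ℂ K] [CompleteSpace K] :
    Cnt0R (Subgroup.subtype (EUF (RingHom.id k) 1 (hyp (s + 2) 1 J₀)))
      (ltO h s ha μ₁ μ₂) q r K := by
  classical
  obtain ⟨N, hN⟩ : ∃ N, Fintype.card (Idx (s + 2) ι) = N + 1 := by
    haveI : Nonempty (Idx (s + 2) ι) := ⟨Sum.inl (Sum.inl 0)⟩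
    exact ⟨Fintype.card (Idx (s + 2) ι) - 1, (Nat.succ_pred_eq_of_pos Fintype.card_pos).symm⟩
  have hF := h.fm s
  refine cnt0R hk (ε := 1) hF.herm hF.eps hF.nondeg (fun x => rfl) (Fintype.equivFinOfCardEq hN)
    (fun g => P2.nm_rho _ g.1) (fun g R T A hg i l i' l' => ?_) (fun g R T A hg => ?_) hud
  · have h1 := P2.nm_rho (Fintype.equivFinOfCardEq hN) g.1
    have h2 := hg.1 ((Fintype.equivFinOfCardEq hN).symm i)
      ((Fintype.equivFinOfCardEq hN).symm i') ((Fintype.equivFinOfCardEq hN).symm l)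
      ((Fintype.equivFinOfCardEq hN).symm l')
    change ‖_‖ ≤ R * nm (rho (Fintype.equivFinOfCardEq hN) (RingHom.id k) _ g.1)
    rw [← h1]
    refine le_trans (le_of_eq ?_) h2
    congr 1
    simp only [Subgroup.subtype_apply, P2.rho_apply]
    ring
  · exact P2.att_rho (Fintype.equivFinOfCardEq hN) hg.2

/-- **`Cnt0P` for the letters `CL.ltO`**, every local field. -/
theorem cnt0P_ltO (hk : (∃ τ : k →+* ℂ, ∀ x, ‖τ x‖ = ‖x‖) ∨ IsUltrametricDist k)
    (h : OF J₀) {a : k} (ha : a ≠ 0) (μ₁ : Measure k) (μ₂ : Measure (ι → k)) {Γ : Type}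
    {q : Γ → EUF (RingHom.id k) 1 (hyp (s + 2) 1 J₀)} (hud : (ltO h s ha μ₁ μ₂).UD q)
    (K : Type) [NormedAddCommGroup K] [InnerProductSpace ℂ K] [CompleteSpace K] :
    Cnt0P (ltO h s ha μ₁ μ₂) q K :=
  cnt0P_of_R (φ := Subgroup.subtype _) (fun _ _ => rfl) (fun _ _ => rfl)
    (cnt0R_ltO hk h ha μ₁ μ₂ hud _ K)

end letters

end Vale.Agent.P092.H589.P4
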