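import Vale.Agent.P092.H464.P.BZoom
import Vale.Agent.P092.H589.K2y

/-!
P092, TEAM P, COUNT_2 (helper589): **the class step of `kb`** (#7909).
-/

set_option linter.unusedSectionVars false

namespace Vale.Agent.P092.H589.PK

open Finset Matrix
open Vale.Agent.P092.H589.Mu
open Vale.Agent.P092.H589.K2
open Vale.Agent.P092.H464 (Pv CI)
open Vale.Agent.P092.H464.PW (fa bv dv cv gz vz ci ci_pos ins bv_le le_bv dv_le le_dv mulVec_le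
  le_gz vz_le fa_le)
open Vale.Agent.P092.H820 (wd)
open Vale.Agent.P092.H835.PlF (w3 Alt)

variable (K : Type) [NormedAddCommGroup K] [InnerProductSpace ℂ K] [CompleteSpace K]
variable {𝕜 : Type} [NontriviallyNormedField 𝕜] [ProperSpace 𝕜] [MeasurableSpace 𝕜] [BorelSpace 𝕜]
variable {α γ : Type} [Fintype α] [DecidableEq α] [Fintype γ]

/-- the data of the class step -/
structure BD (C : ℝ) (φ : (γ → 𝕜) → ℂ) {X Y : Type} [MeasurableSpace X] [MeasurableSpace Y]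
    (s : X → α ⊕ Fin 2 → 𝕜) (p : Y → (α ⊕ Fin 2) × (α ⊕ Fin 2) → 𝕜) (Inc : X → Y → Prop)
    (Pc Pp : Set X → (K →L[ℂ] K)) (Lm : Set Y → (K →L[ℂ] K)) {κ : Type} (S : Finset κ)
    (V0 : α → Fin 2 → 𝕜) (V : κ → α → Fin 2 → 𝕜) (ϖ : κ → 𝕜) (A : κ → Matrix γ (α ⊕ Fin 2) 𝕜)
    (A' : κ → Matrix (α ⊕ Fin 2) γ 𝕜) (r : ℝ) (ρ : 𝕜) (T : Set Y) (E W : κ → (K →L[ℂ] K))
    (F : κ → X → ℂ) (N : ℝ) : Prop where
  ms : Measurable s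
  mp : Measurable p
  ns : ∀ x, Nrm (s x)
  np : ∀ y, Nrm (p y)
  al : ∀ y, Alt (p y)
  ic : ∀ x y, Inc x y → w3 (s x) (p y) = 0
  pc : Pv Pc
  pp : Pv Pp
  lm : Pv Lm
  cl : CI Inc Pc Lm
  pl : CI Inc Pp Lm
  r0 : 0 < r
  h0 : ρ ≠ 0
  h1 : ‖ρ‖ ≤ 1
  rr : r ≤ C * ‖ρ‖
  v0 : ∀ a b, ‖V0 a b‖ ≤ C
  vk : ∀ k ∈ S, ∀ a b, ‖V k a b‖ ≤ C
  vd : ∀ k ∈ S, ∀ a b, ‖V k a b - V0 a b‖ ≤ C * ‖ρ‖
  wl : ∀ k ∈ S, r ≤ C * ‖ϖ k‖
  wu : ∀ k ∈ S, ‖ϖ k‖ ≤ C * r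
  aa : ∀ k ∈ S, A' k * A k = 1
  al1 : ∀ k ∈ S, ∀ a b, ‖A k a b‖ ≤ C
  al2 : ∀ k ∈ S, ∀ a b, ‖A' k a b‖ ≤ C
  mt : MeasurableSet T
  st : ∀ k ∈ S, ∀ y ∈ T, (∃ a j, ‖ρ‖ ≤ C * ‖cv (V k) (p y) a j‖) ∨ ‖ρ‖ ≤ C * r
  n0 : 0 ≤ N
  ec : ∀ k ∈ S, ∀ D, MeasurableSet D → E k * Pc D = Pc D * E k
  el : ∀ k ∈ S, ∀ D, MeasurableSet D → (∀ z ∈ D, ∃ a, C * r < ‖fa (V k) (s z) a‖) → E k * Pc D = 0
  cap : Cap S E N
  ff : ∀ k ∈ S, ∀ x, F k x = φ (A k *ᵥ dv 1 (ϖ k) (bv (V k) (s x)))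
  mf : ∀ k ∈ S, Measurable (F k)
  op : ∀ k ∈ S, Opf Pp (F k) (W k)
  wz : ∀ k ∈ S, ∀ D, MeasurableSet D → W k * Lm D = Lm D * W k

variable {K}

section lin

lemma fa_add (V : α → Fin 2 → 𝕜) (x y : α ⊕ Fin 2 → 𝕜) (a : α) :
    fa V (x + y) a = fa V x a + fa V y a := by
  simp only [fa, Pi.add_apply]; ring

lemma fa_smul (V : α → Fin 2 → 𝕜) (c : 𝕜) (x : α ⊕ Fin 2 → 𝕜) (a : α) :
    fa V (c • x) a = c * fa V x a := by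
  simp only [fa, Pi.smul_apply, smul_eq_mul]; ring

/-- `dv c d ∘ bv V` as a linear map -/
def lb (V : α → Fin 2 → 𝕜) (c d : 𝕜) : (α ⊕ Fin 2 → 𝕜) →ₗ[𝕜] (α ⊕ Fin 2 → 𝕜) where
  toFun x := dv c d (bv V x)
  map_add' x y := by
    funext i
    cases i with
    | inl a => simp only [H464.PW.dv_inl, H464.PW.bv_inl, fa_add, Pi.add_apply]; ring
    | inr b => simp only [H464.PW.dv_inr, H464.PW.bv_inr, Pi.add_apply]; ring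
  map_smul' t x := by
    funext i
    cases i with
    | inl a =>
      simp only [H464.PW.dv_inl, H464.PW.bv_inl, fa_smul, Pi.smul_apply, smul_eq_mul,
        RingHom.id_apply]; ring
    | inr b =>
      simp only [H464.PW.dv_inr, H464.PW.bv_inr, Pi.smul_apply, smul_eq_mul, RingHom.id_apply]
      ring

/-- the maps `L k` -/
def ll (A : Matrix γ (α ⊕ Fin 2) 𝕜) (V : α → Fin 2 → 𝕜) (d : 𝕜) :
    (α ⊕ Fin 2 → 𝕜) →ₗ[𝕜] (γ → 𝕜) := A.mulVecLin.comp (lb V 1 d)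

lemma ll_apply (A : Matrix γ (α ⊕ Fin 2) 𝕜) (V : α → Fin 2 → 𝕜) (d : 𝕜) (x : α ⊕ Fin 2 → 𝕜) :
    ll A V d x = A *ᵥ dv 1 d (bv V x) := rfl

/-- upper bound -/
lemma ll_le {A : Matrix γ (α ⊕ Fin 2) 𝕜} {V : α → Fin 2 → 𝕜} {d : 𝕜} {C : ℝ} (hC : 1 ≤ C)
    (hA : ∀ a b, ‖A a b‖ ≤ C) (hV : ∀ a b, ‖V a b‖ ≤ C) (hd : ‖d‖ ≤ C ^ 2)
    (x : α ⊕ Fin 2 → 𝕜) :
    ‖ll A V d x‖ ≤ (Fintype.card (α ⊕ Fin 2) * C * (C ^ 2 * (1 + 2 * C))) * ‖x‖ := by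
  have hC0 : 0 ≤ C := zero_le_one.trans hC
  rw [ll_apply]
  refine (mulVec_le hC0 hA _).trans ?_
  have h1 : ‖dv 1 d (bv V x)‖ ≤ C ^ 2 * ‖bv V x‖ :=
    dv_le (by rw [norm_one]; nlinarith) hd _
  have h2 := bv_le hC0 hV x
  calc Fintype.card (α ⊕ Fin 2) * C * ‖dv 1 d (bv V x)‖
      ≤ Fintype.card (α ⊕ Fin 2) * C * (C ^ 2 * ((1 + 2 * C) * ‖x‖)) := by
        gcongr
        exact h1.trans (by gcongr)
    _ = _ := by ring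

/-- the middle vector is controlled by `L` -/
lemma mid_le {A : Matrix γ (α ⊕ Fin 2) 𝕜} {A' : Matrix (α ⊕ Fin 2) γ 𝕜} {V : α → Fin 2 → 𝕜}
    {d : 𝕜} {C : ℝ} (hC : 0 ≤ C) (hA : A' * A = 1) (hA' : ∀ a b, ‖A' a b‖ ≤ C)
    (x : α ⊕ Fin 2 → 𝕜) : ‖dv 1 d (bv V x)‖ ≤ Fintype.card γ * C * ‖ll A V d x‖ := by
  have h1 := mulVec_le hC hA' (ll A V d x)
  rwa [ll_apply, mulVec_mulVec, hA, one_mulVec] at h1

/-- lower bound -/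
lemma le_ll {A : Matrix γ (α ⊕ Fin 2) 𝕜} {A' : Matrix (α ⊕ Fin 2) γ 𝕜} {V : α → Fin 2 → 𝕜}
    {d : 𝕜} {C m : ℝ} (hC : 0 ≤ C) (hA : A' * A = 1) (hA' : ∀ a b, ‖A' a b‖ ≤ C)
    (hV : ∀ a b, ‖V a b‖ ≤ C) (hm : 0 < m) (hm1 : m ≤ 1) (hmd : m ≤ ‖d‖)
    (x : α ⊕ Fin 2 → 𝕜) :
    m * ‖x‖ ≤ ((1 + 2 * C) * (Fintype.card γ * C)) * ‖ll A V d x‖ := by
  have h1 := mid_le (d := d) (V := V) hC hA hA' x
  have h2 := le_bv hC hV x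
  have h3 := le_dv (c := (1 : 𝕜)) hm (by rw [norm_one]; exact hm1) hmd (bv V x)
  calc m * ‖x‖ ≤ m * ((1 + 2 * C) * ‖bv V x‖) := by gcongr
    _ = (1 + 2 * C) * (m * ‖bv V x‖) := by ring
    _ ≤ (1 + 2 * C) * (Fintype.card γ * C * ‖ll A V d x‖) := by
        exact mul_le_mul_of_nonneg_left (h3.trans h1) (by positivity)
    _ = _ := by ring

end lin

/-- insulation of a cell of lines -/
lemma bins (cl : Cells 𝕜) {C : ℝ} {φ : (γ → 𝕜) → ℂ} {X Y : Type} [MeasurableSpace X]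
    [MeasurableSpace Y] {s : X → α ⊕ Fin 2 → 𝕜} {p : Y → (α ⊕ Fin 2) × (α ⊕ Fin 2) → 𝕜}
    {Inc : X → Y → Prop} {Pc Pp : Set X → (K →L[ℂ] K)} {Lm : Set Y → (K →L[ℂ] K)} {κ : Type}
    {S : Finset κ} {V0 : α → Fin 2 → 𝕜} {V : κ → α → Fin 2 → 𝕜} {ϖ : κ → 𝕜}
    {A : κ → Matrix γ (α ⊕ Fin 2) 𝕜} {A' : κ → Matrix (α ⊕ Fin 2) γ 𝕜} {r : ℝ} {ρ : 𝕜}
    {T : Set Y} {E W : κ → (K →L[ℂ] K)} {F : κ → X → ℂ} {N : ℝ}
    (h : BD K C φ s p Inc Pc Pp Lm S V0 V ϖ A A' r ρ T E W F N) {k : κ} (hk : k ∈ S)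
    (m' : ℕ) {A₀ D : Set X} (hA₀ : MeasurableSet A₀) (hD : MeasurableSet D)
    (habs : ∀ z ∈ A₀, (∀ a, ‖fa (V k) (s z) a‖ ≤ C * r) → ∀ x ∈ D, ∀ y₁ ∈ T, ∀ y₂ ∈ T,
      Inc z y₁ → Inc x y₂ → code cl m' (p y₁) = code cl m' (p y₂) → False) :
    Pc A₀ * (E k * (W k * (Pp D * Lm T))) = 0 := by
  classical
  set BB : Set X := {z | ∀ a, ‖fa (V k) (s z) a‖ ≤ C * r} with hBB
  have hBBm : MeasurableSet BB := by
    have e : BB = ⋂ a, {z | ‖fa (V k) (s z) a‖ ≤ C * r} := by ext z; simp [hBB]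
    rw [e]
    refine MeasurableSet.iInter fun a => ?_
    have hc : Continuous fun v : α ⊕ Fin 2 → 𝕜 => ‖fa (V k) v a‖ := by
      unfold fa
      fun_prop
    exact h.ms (isClosed_le hc continuous_const).measurableSet
  -- the rest of `A₀` is killed by `E k`
  have hE1 : Pc A₀ * E k = Pc (A₀ ∩ BB) * E k := by
    have h1 : A₀ = (A₀ ∩ BB) ∪ (A₀ \ BB) := (Set.inter_union_sdiff A₀ BB).symm
    have h2 : Disjoint (A₀ ∩ BB) (A₀ \ BB) := by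
      rw [Set.disjoint_left]
      rintro y ⟨_, h3⟩ ⟨_, h4⟩
      exact h4 h3
    have h3 : Pc A₀ = Pc (A₀ ∩ BB) + Pc (A₀ \ BB) := by
      conv_lhs => rw [h1]
      exact h.pc.add (hA₀.inter hBBm) (hA₀.diff hBBm) h2
    have h4 : Pc (A₀ \ BB) * E k = 0 := by
      rw [← h.ec k hk _ (hA₀.diff hBBm)]
      refine h.el k hk _ (hA₀.diff hBBm) fun z hz => ?_
      have := hz.2
      simp only [hBB, Set.mem_ofPred_eq, not_forall, not_le] at this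
      exact this
    rw [h3, add_mul, h4, add_zero]
  -- partition of the lines
  obtain ⟨M', hM'⟩ := code_count_ball (c := cl) (ι := (α ⊕ Fin 2) × (α ⊕ Fin 2)) (2 ^ m')
  obtain ⟨𝒞, _, h𝒞0⟩ := hM' m' 0
  have hTm : ∀ t, MeasurableSet (T ∩ {y | code cl m' (p y) = t}) := fun t =>
    h.mt.inter (measurable_code h.mp m' t)
  have h𝒞 : Lm T = ∑ t ∈ 𝒞, Lm (T ∩ {y | code cl m' (p y) = t}) := by
    rw [← h.lm.sum 𝒞 _ (fun t _ => hTm t) fun t _ t' _ htt =>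
      Set.disjoint_left.2 fun x h1 h2 => htt (h1.2.symm.trans h2.2)]
    congr 1
    ext y
    simp only [Set.mem_iUnion, Set.mem_inter_iff, Set.mem_ofPred_eq, exists_prop]
    refine ⟨fun hy => ⟨code cl m' (p y), h𝒞0 _ ?_, hy, rfl⟩, fun ⟨t, _, hy, _⟩ => hy⟩
    rw [sub_zero, ← mul_pow]
    norm_num
    exact (h.np y).1
  have hzero : ∀ t ∈ 𝒞, Pc (A₀ ∩ BB) *
      (E k * (W k * (Pp D * Lm (T ∩ {y | code cl m' (p y) = t})))) = 0 := by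
    intro t _
    set Tt : Set Y := T ∩ {y | code cl m' (p y) = t} with hTt
    have hTtm : MeasurableSet Tt := hTm t
    by_cases hc1 : ∀ x ∈ D, ∀ y ∈ Tt, ¬ Inc x y
    · rw [h.pl.inc D Tt hD hTtm hc1, mul_zero, mul_zero, mul_zero]
    · have hc2 : ∀ z ∈ A₀ ∩ BB, ∀ y ∈ Tt, ¬ Inc z y := by
        push Not at hc1
        obtain ⟨x, hx, y₂, hy₂, hi₂⟩ := hc1
        rintro z ⟨hz, hzB⟩ y₁ hy₁ hi₁
        exact habs z hz hzB x hx y₁ hy₁.1 y₂ hy₂.1 hi₁ hi₂ (hy₁.2.trans hy₂.2.symm)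
      have h1 : Pc (A₀ ∩ BB) * Lm Tt = 0 := h.cl.inc _ Tt (hA₀.inter hBBm) hTtm hc2
      have h2 : Pp D * Lm Tt = Lm Tt * (Pp D * Lm Tt) := by
        rw [← mul_assoc, ← h.pl.comm D Tt hD hTtm, mul_assoc, h.lm.idem hTtm]
      calc Pc (A₀ ∩ BB) * (E k * (W k * (Pp D * Lm Tt)))
          = (Pc (A₀ ∩ BB) * E k) * (W k * (Lm Tt * (Pp D * Lm Tt))) := by
            rw [← h2, mul_assoc]
        _ = (E k * Pc (A₀ ∩ BB)) * ((W k * Lm Tt) * (Pp D * Lm Tt)) := by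
            rw [h.ec k hk _ (hA₀.inter hBBm), mul_assoc (W k)]
        _ = E k * ((Pc (A₀ ∩ BB) * Lm Tt) * (W k * (Pp D * Lm Tt))) := by
            rw [h.wz k hk _ hTtm]
            simp only [mul_assoc]
        _ = 0 := by rw [h1, zero_mul, mul_zero]
  calc Pc A₀ * (E k * (W k * (Pp D * Lm T)))
      = (Pc A₀ * E k) * (W k * (Pp D * Lm T)) := by rw [mul_assoc]
    _ = Pc (A₀ ∩ BB) * (E k * (W k * (Pp D * Lm T))) := by rw [hE1, mul_assoc]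
    _ = 0 := by
        rw [h𝒞]
        simp only [mul_sum]
        exact sum_eq_zero hzero

/-- **the class step, structure form** -/
theorem bcore (cl : Cells 𝕜) {φ : (γ → 𝕜) → ℂ} (hφ : Tame K φ) (C₂ : ℝ) (hC₂ : 1 ≤ C₂) :
    ∃ C : ℝ, 0 ≤ C ∧ ∀ (X Y : Type) [MeasurableSpace X] [MeasurableSpace Y]
      (s : X → α ⊕ Fin 2 → 𝕜) (p : Y → (α ⊕ Fin 2) × (α ⊕ Fin 2) → 𝕜) (Inc : X → Y → Prop)
      (Pc Pp : Set X → (K →L[ℂ] K)) (Lm : Set Y → (K →L[ℂ] K)) (κ : Type) (S : Finset κ)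
      (V0 : α → Fin 2 → 𝕜) (V : κ → α → Fin 2 → 𝕜) (ϖ : κ → 𝕜)
      (A : κ → Matrix γ (α ⊕ Fin 2) 𝕜) (A' : κ → Matrix (α ⊕ Fin 2) γ 𝕜) (r : ℝ) (ρ : 𝕜)
      (T : Set Y) (E W : κ → (K →L[ℂ] K)) (F : κ → X → ℂ) (N : ℝ),
      BD K C₂ φ s p Inc Pc Pp Lm S V0 V ϖ A A' r ρ T E W F N → ∀ J : ℕ, (1 / 2) ^ J ≤ r →
      ∀ v, ∑ k ∈ S, ‖E k (W k (Lm T v))‖ ^ 2 ≤ (C * (J + 1) * N) ^ 2 * ‖Lm T v‖ ^ 2 := by
  classical
  have hC0 : 0 ≤ C₂ := zero_le_one.trans hC₂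
  set c1 : ℝ := Fintype.card (α ⊕ Fin 2) * C₂ * (C₂ ^ 2 * (1 + 2 * C₂)) with hc1
  set c3 : ℝ := Fintype.card γ * C₂ with hc3
  set c2 : ℝ := C₂ * ((1 + 2 * C₂) * c3) with hc2
  have hc1p : 0 ≤ c1 := by positivity
  have hc3p : 0 ≤ c3 := by positivity
  have hc2p : 0 ≤ c2 := by positivity
  -- the constant of `ins`
  set C₃ : ℝ := C₂ + (1 + 2 * C₂) + c3 + c2 with hC₃
  have hC₃a : C₂ ≤ C₃ := by rw [hC₃]; linarith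
  have hC₃b : 1 + 2 * C₂ ≤ C₃ := by rw [hC₃]; linarith
  have hC₃c : c3 ≤ C₃ := by rw [hC₃]; linarith
  have hC₃d : c2 ≤ C₃ := by rw [hC₃]; linarith
  have hC₃1 : 1 ≤ C₃ := hC₂.trans hC₃a
  have hci := (ci_pos hC₃1).le
  set C₁ : ℝ := 1 + c1 + 2 * (C₂ * c2) + ci C₃ with hC₁
  have hC₁1 : 1 ≤ C₁ := by
    have : 0 ≤ c1 + 2 * (C₂ * c2) + ci C₃ := by positivity
    linarith
  obtain ⟨J₁, hJ₁⟩ : ∃ J₁ : ℕ, c2 < 2 ^ J₁ := pow_unbounded_of_one_lt c2 one_lt_two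
  obtain ⟨CU, hCU0, hCU⟩ := unit (β := α ⊕ Fin 2) (γ := γ) cl hφ C₁ hC₁1
  refine ⟨CU * (J₁ + 1), by positivity, ?_⟩
  intro X Y _ _ s p Inc Pc Pp Lm κ S V0 V ϖ A A' r ρ T E W F N h J hJ v
  have hρn : 0 < ‖ρ‖ := norm_pos_iff.2 h.h0
  have hgz : ∀ x, ‖s x‖ ≤ (1 + 2 * C₂) * ‖gz ρ V0 (s x)‖ := fun x =>
    le_gz hC0 h.v0 h.h0 h.h1 _
  have hgm : Measurable fun x => gz ρ V0 (s x) := by
    have hc : Continuous fun w : α ⊕ Fin 2 → 𝕜 => gz ρ V0 w := by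
      refine continuous_pi fun i => ?_
      cases i with
      | inl a => simp only [gz, H464.PW.dv_inl, H464.PW.bv_inl, fa]; fun_prop
      | inr b => simp only [gz, H464.PW.dv_inr, H464.PW.bv_inr]; fun_prop
    exact hc.measurable.comp h.ms
  obtain ⟨q, hqm, hq⟩ := exists_nrm hgm (fun x h0 => by
    have h1 := hgz x
    rw [h0, norm_zero, mul_zero, nrm_one (h.ns x)] at h1
    linarith)
  choose hqn c hc0 hqc using hq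
  have hcle : ∀ x, ‖c x‖ ≤ 1 + 2 * C₂ := by
    intro x
    have h1 := hgz x
    rw [nrm_one (h.ns x)] at h1
    have h2 : ‖c x‖ * ‖gz ρ V0 (s x)‖ = 1 := by
      rw [← norm_smul, ← hqc x]; exact nrm_one (hqn x)
    calc ‖c x‖ = ‖c x‖ * 1 := (mul_one _).symm
      _ ≤ ‖c x‖ * ((1 + 2 * C₂) * ‖gz ρ V0 (s x)‖) := by gcongr
      _ = (1 + 2 * C₂) * (‖c x‖ * ‖gz ρ V0 (s x)‖) := by ring
      _ = 1 + 2 * C₂ := by rw [h2, mul_one]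
  have hvz : ∀ k ∈ S, ∀ a b, ‖vz ρ V0 (V k) a b‖ ≤ C₂ := fun k hk => vz_le h.h0 (h.vd k hk)
  have hd1 : ∀ k ∈ S, ‖ϖ k * ρ⁻¹‖ ≤ C₂ ^ 2 := by
    intro k hk
    rw [norm_mul, norm_inv, mul_inv_le_iff₀ hρn]
    calc ‖ϖ k‖ ≤ C₂ * r := h.wu k hk
      _ ≤ C₂ * (C₂ * ‖ρ‖) := mul_le_mul_of_nonneg_left h.rr hC0
      _ = _ := by ring
  have hC₂p : 0 < C₂ := one_pos.trans_le hC₂
  have hr0 := h.r0
  have hlow : ∀ k ∈ S, ∀ x,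
      r ≤ ‖ρ‖ * (c2 * ‖ll (A k) (vz ρ V0 (V k)) (ϖ k * ρ⁻¹) (q x)‖) := by
    intro k hk x
    have hm0 : 0 < r / (C₂ * ‖ρ‖) := by positivity
    have hm1 : r / (C₂ * ‖ρ‖) ≤ 1 := by
      rw [div_le_one (by positivity)]; exact h.rr
    have hm2 : r / (C₂ * ‖ρ‖) ≤ ‖ϖ k * ρ⁻¹‖ := by
      rw [norm_mul, norm_inv, div_le_iff₀ (by positivity)]
      calc r ≤ C₂ * ‖ϖ k‖ := h.wl k hk
        _ = ‖ϖ k‖ * ‖ρ‖⁻¹ * (C₂ * ‖ρ‖) := by field_simp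
    have h1 := le_ll (A := A k) hC0 (h.aa k hk) (h.al2 k hk) (hvz k hk) hm0 hm1 hm2 (q x)
    rw [nrm_one (hqn x), mul_one, div_le_iff₀ (by positivity)] at h1
    calc r ≤ _ := h1
      _ = _ := by rw [hc2, hc3]; ring
  have hlow' : ∀ k ∈ S, ∀ x,
      (1 / 2) ^ J ≤ c2 * ‖ll (A k) (vz ρ V0 (V k)) (ϖ k * ρ⁻¹) (q x)‖ := by
    intro k hk x
    refine hJ.trans ((hlow k hk x).trans ?_)
    have h2 : 0 ≤ c2 * ‖ll (A k) (vz ρ V0 (V k)) (ϖ k * ρ⁻¹) (q x)‖ := by positivity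
    calc _ ≤ 1 * (c2 * ‖ll (A k) (vz ρ V0 (V k)) (ϖ k * ρ⁻¹) (q x)‖) :=
          mul_le_mul_of_nonneg_right h.h1 h2
      _ = _ := one_mul _
  have hlow2 : ∀ k ∈ S, ∀ x,
      (1 / 2) ^ (J + J₁) ≤ ‖ll (A k) (vz ρ V0 (V k)) (ϖ k * ρ⁻¹) (q x)‖ := by
    intro k hk x
    set L := ‖ll (A k) (vz ρ V0 (V k)) (ϖ k * ρ⁻¹) (q x)‖ with hL
    have h1 := hlow' k hk x
    rw [← hL] at h1
    have h2 : c2 * L ≤ 2 ^ J₁ * L := mul_le_mul_of_nonneg_right hJ₁.le (norm_nonneg _)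
    have h4 : ((1 : ℝ) / 2) ^ J₁ * 2 ^ J₁ = 1 := by rw [← mul_pow]; norm_num
    calc ((1 : ℝ) / 2) ^ (J + J₁) = (1 / 2) ^ J * (1 / 2) ^ J₁ := pow_add _ _ _
      _ ≤ (2 ^ J₁ * L) * (1 / 2) ^ J₁ := by
          gcongr; exact h1.trans h2
      _ = ((1 / 2) ^ J₁ * 2 ^ J₁) * L := by ring
      _ = _ := by rw [h4, one_mul]
  have hfin := hCU X q hqm hqn Pp Pc h.pp h.pc κ S
    (fun k => ll (A k) (vz ρ V0 (V k)) (ϖ k * ρ⁻¹)) ?_ (J + J₁) ?_ E W F N h.n0 h.cap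
    ?_ h.mf h.op (Lm T) ?_ v
  · refine hfin.trans ?_
    have hN := h.n0
    have h1 : (((J + J₁ : ℕ) : ℝ) + 1) ≤ (J₁ + 1) * (J + 1) := by
      push_cast
      nlinarith [mul_nonneg (Nat.cast_nonneg (α := ℝ) J) (Nat.cast_nonneg (α := ℝ) J₁)]
    have h2 : CU * (((J + J₁ : ℕ) : ℝ) + 1) * N ≤ CU * (J₁ + 1) * (J + 1) * N := by
      calc CU * (((J + J₁ : ℕ) : ℝ) + 1) * N ≤ CU * ((J₁ + 1) * (J + 1)) * N := by gcongr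
        _ = _ := by ring
    exact mul_le_mul_of_nonneg_right (pow_le_pow_left₀ (by positivity) h2 2) (sq_nonneg _)
  · intro k hk w
    refine (ll_le hC₂ (h.al1 k hk) (hvz k hk) (hd1 k hk) w).trans ?_
    gcongr
    rw [hC₁, ← hc1]
    have : 0 ≤ 1 + 2 * (C₂ * c2) + ci C₃ := by positivity
    linarith
  · intro k hk x
    exact hlow2 k hk x
  · intro k hk x
    rw [h.ff k hk x, hqc x, map_smul, hφ.1 _ _ (hc0 x), ll_apply, H464.PW.zoom h.h0, mulVec_smul,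
      hφ.1 _ _ (inv_ne_zero h.h0)]
  · -- insulation
    intro k hk A₀ D hA₀ hD hAD
    obtain ⟨m', hm'⟩ : ∃ m' : ℕ, 3 * (1 / 2) ^ m' ≤ ‖ρ‖ * (1 / 2 : ℝ) ^ (J + J₁) := by
      obtain ⟨m', hm'⟩ := exists_pow_lt_of_lt_one
        (show 0 < ‖ρ‖ * (1 / 2 : ℝ) ^ (J + J₁) / 3 by positivity)
        (show (1 / 2 : ℝ) < 1 by norm_num)
      refine ⟨m', ?_⟩
      rw [lt_div_iff₀ (by norm_num)] at hm'
      linarith
    refine bins cl h hk m' hA₀ hD ?_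
    intro z hz hzn x hx y₁ hy₁ y₂ hy₂ hi₁ hi₂ hcode
    obtain ⟨P, Q, hPQ⟩ := hAD z hz x hx
    set L : ℝ := ‖ll (A k) (vz ρ V0 (V k)) (ϖ k * ρ⁻¹) (q x)‖ with hL
    have hL0 : 0 ≤ L := norm_nonneg _
    have hPQ' : C₁ * L < ‖mn (q z) (q x) P Q‖ := hPQ
    clear hPQ
    have hlw := hlow k hk x
    rw [← hL] at hlw
    rcases h.st k hk y₁ hy₁ with h1 | h1
    · have e1 : w3 (s z) (p y₁) = 0 := h.ic z y₁ hi₁
      have e2 : w3 (s x) (p y₂) = 0 := h.ic x y₂ hi₂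
      have hpd : ‖p y₁ - p y₂‖ ≤ (1 / 2) ^ m' := code_small hcode
      have hw : ‖w3 (s x) (p y₁)‖ ≤ 3 * (1 / 2) ^ m' := by
        have e3 : w3 (s x) (p y₁) = w3 (s x) (p y₁ - p y₂) + w3 (s x) (p y₂) := by
          funext R; simp only [w3, Pi.add_apply, Pi.sub_apply]; ring
        rw [e3, e2, add_zero]
        refine (H835.NF.w3_norm_le _ _).trans ?_
        have := (h.ns x).1
        calc 3 * (‖s x‖ * ‖p y₁ - p y₂‖) ≤ 3 * (1 * (1 / 2) ^ m') := by gcongr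
          _ = _ := by ring
      have hmid := mid_le (d := ϖ k * ρ⁻¹) (V := vz ρ V0 (V k)) hC0 (h.aa k hk) (h.al2 k hk) (q x)
      rw [← hL, ← hc3] at hmid
      obtain ⟨a0, j0, h1⟩ := h1
      have hins := ins (C := C₃) (r := r) (ε := 3 * (1 / 2) ^ m') (Δ := L) (ρ := ρ) (cz := c z)
        (cx := c x) (V := V k) (V0 := V0) (z := s z) (x := s x) (p := p y₁) hC₃1
        (fun a b => (h.vk k hk a b).trans hC₃a) (fun a b => (h.v0 a b).trans hC₃a) h.h0 h.h1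
        (fun a b => (h.vd k hk a b).trans (mul_le_mul_of_nonneg_right hC₃a hρn.le))
        (h.ns z).1 (h.ns x).1 ((hcle z).trans hC₃b) ((hcle x).trans hC₃b)
        (by rw [← hqc z]; exact (hqn z).1) (by rw [← hqc x]; exact (hqn x).1) (h.np y₁) (h.al y₁)
        hL0 (by rw [e1, norm_zero]; positivity) hw
        ⟨a0, j0, h1.trans (mul_le_mul_of_nonneg_right hC₃a (norm_nonneg _))⟩
        (fun a => (hzn a).trans (mul_le_mul_of_nonneg_right hC₃a h.r0.le))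
        (fun a => by
          rw [← hqc x]
          have h2 : fa (vz ρ V0 (V k)) (q x) a
              = dv 1 (ϖ k * ρ⁻¹) (bv (vz ρ V0 (V k)) (q x)) (Sum.inl a) := by
            rw [H464.PW.dv_inl, one_mul, H464.PW.bv_inl]
          rw [h2]
          refine (norm_le_pi_norm _ _).trans (hmid.trans ?_)
          exact mul_le_mul_of_nonneg_right hC₃c hL0)
        (hlw.trans (by
          calc ‖ρ‖ * (c2 * L) = c2 * (‖ρ‖ * L) := by ring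
            _ ≤ C₃ * (‖ρ‖ * L) := mul_le_mul_of_nonneg_right hC₃d (by positivity)))
        (hm'.trans (mul_le_mul_of_nonneg_left (hlow2 k hk x) hρn.le))
      have h5 := hins (P, Q)
      rw [← hqc z, ← hqc x] at h5
      have e : mn (q z) (q x) P Q = wd (q z) (q x) (P, Q) := by
        simp only [mn, wd]; ring
      rw [← e] at h5
      have h6 : ci C₃ * L ≤ C₁ * L := by
        gcongr
        rw [hC₁]
        have : 0 ≤ 1 + c1 + 2 * (C₂ * c2) := by positivity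
        linarith
      linarith
    · have h3 : ‖ρ‖ * 1 ≤ ‖ρ‖ * (C₂ * (c2 * L)) := by
        calc ‖ρ‖ * 1 = ‖ρ‖ := mul_one _
          _ ≤ C₂ * r := h1
          _ ≤ C₂ * (‖ρ‖ * (c2 * L)) := by gcongr
          _ = _ := by ring
      have h4 : 1 ≤ C₂ * (c2 * L) := le_of_mul_le_mul_left h3 hρn
      have h5 : ‖mn (q z) (q x) P Q‖ ≤ 2 := by
        have a1 : ∀ y R, ‖q y R‖ ≤ 1 := fun y R => (norm_le_pi_norm _ R).trans (hqn y).1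
        refine (norm_sub_le _ _).trans ?_
        rw [norm_mul, norm_mul]
        have b1 := mul_le_mul (a1 z P) (a1 x Q) (norm_nonneg _) zero_le_one
        have b2 := mul_le_mul (a1 x P) (a1 z Q) (norm_nonneg _) zero_le_one
        linarith
      have h6 : 2 ≤ C₁ * L := by
        have : 0 ≤ (1 + c1 + ci C₃) * L := by positivity
        rw [hC₁]; nlinarith
      linarith

/-- **the class step of `kb`** (#7909) -/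
theorem bstep (cl : Cells 𝕜) {φ : (γ → 𝕜) → ℂ} (hφ : Tame K φ) (C₂ : ℝ) (hC₂ : 1 ≤ C₂) :
    ∃ C : ℝ, 0 ≤ C ∧ ∀ (X Y : Type) [MeasurableSpace X] [MeasurableSpace Y]
      (s : X → α ⊕ Fin 2 → 𝕜) (p : Y → (α ⊕ Fin 2) × (α ⊕ Fin 2) → 𝕜), Measurable s →
      Measurable p → (∀ x, Nrm (s x)) → (∀ y, Nrm (p y)) → (∀ y, Alt (p y)) →
      ∀ (Inc : X → Y → Prop), (∀ x y, Inc x y → w3 (s x) (p y) = 0) →
      ∀ (Pc Pp : Set X → (K →L[ℂ] K)) (Lm : Set Y → (K →L[ℂ] K)), Pv Pc → Pv Pp → Pv Lm →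
      CI Inc Pc Lm → CI Inc Pp Lm →
      ∀ (κ : Type) (S : Finset κ) (V0 : α → Fin 2 → 𝕜) (V : κ → α → Fin 2 → 𝕜) (ϖ : κ → 𝕜)
        (A : κ → Matrix γ (α ⊕ Fin 2) 𝕜) (A' : κ → Matrix (α ⊕ Fin 2) γ 𝕜) (r : ℝ) (ρ : 𝕜),
      0 < r → ρ ≠ 0 → ‖ρ‖ ≤ 1 → r ≤ C₂ * ‖ρ‖ → (∀ a b, ‖V0 a b‖ ≤ C₂) →
      (∀ k ∈ S, ∀ a b, ‖V k a b‖ ≤ C₂) → (∀ k ∈ S, ∀ a b, ‖V k a b - V0 a b‖ ≤ C₂ * ‖ρ‖) →
      (∀ k ∈ S, r ≤ C₂ * ‖ϖ k‖ ∧ ‖ϖ k‖ ≤ C₂ * r) → (∀ k ∈ S, A' k * A k = 1) →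
      (∀ k ∈ S, ∀ a b, ‖A k a b‖ ≤ C₂) → (∀ k ∈ S, ∀ a b, ‖A' k a b‖ ≤ C₂) →
      ∀ T : Set Y, MeasurableSet T →
      (∀ k ∈ S, ∀ y ∈ T, (∃ a j, ‖ρ‖ ≤ C₂ * ‖cv (V k) (p y) a j‖) ∨ ‖ρ‖ ≤ C₂ * r) →
      ∀ J : ℕ, (1 / 2) ^ J ≤ r →
      ∀ (E W : κ → (K →L[ℂ] K)) (F : κ → X → ℂ) (N : ℝ), 0 ≤ N →
      (∀ k ∈ S, ∀ D, MeasurableSet D → E k * Pc D = Pc D * E k) →
      (∀ k ∈ S, ∀ D, MeasurableSet D → (∀ z ∈ D, ∃ a, C₂ * r < ‖fa (V k) (s z) a‖) →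
        E k * Pc D = 0) → Cap S E N →
      (∀ k ∈ S, ∀ x, F k x = φ (A k *ᵥ dv 1 (ϖ k) (bv (V k) (s x)))) →
      (∀ k ∈ S, Measurable (F k)) → (∀ k ∈ S, Opf Pp (F k) (W k)) →
      (∀ k ∈ S, ∀ D, MeasurableSet D → W k * Lm D = Lm D * W k) →
      ∀ v, ∑ k ∈ S, ‖E k (W k (Lm T v))‖ ^ 2 ≤ (C * (J + 1) * N) ^ 2 * ‖Lm T v‖ ^ 2 := by
  obtain ⟨C, hC0, hC⟩ := bcore (α := α) (K := K) cl hφ C₂ hC₂
  refine ⟨C, hC0, ?_⟩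
  intro X Y _ _ s p ms mp ns np al Inc ic Pc Pp Lm pc pp lm cl' pl κ S V0 V ϖ A A' r ρ r0 h0 h1 rr
    v0 vk vd hw aa al1 al2 T mt st J hJ E W F N n0 ec el cap ff mf op wz
  exact hC X Y s p Inc Pc Pp Lm κ S V0 V ϖ A A' r ρ T E W F N
    ⟨ms, mp, ns, np, al, ic, pc, pp, lm, cl', pl, r0, h0, h1, rr, v0, vk, vd,
      fun k hk => (hw k hk).1, fun k hk => (hw k hk).2, aa, al1, al2, mt, st, n0, ec, el, cap, ff,
      mf, op, wz⟩ J hJ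

end Vale.Agent.P092.H589.PK
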